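import Vale.Agent.P366.Bdl.B1

/-! T1, block B4, part a: averages over coordinate spheres, the energy flux of a metric
`A δ + (B - A) n n - S`. -/

set_option linter.all false

open MeasureTheory Metric Filter Topology Set
open scoped ContDiff ENNReal

noncomputable section
namespace Vale.Agent.P366.T1.A919

variable {n : ℕ}

/-- averages over spheres: if `R^(n-1) h` is within `(n-1) δ` of `(n-1) c` on the sphere, the
normalised integral is within `δ` of `c`. -/
theorem avg_close [Nontrivial (E n)] (hn : 2 ≤ n) {R c δ : ℝ} (hR : 0 < R) {h : E n → ℝ}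
    (hint : Integrable (fun θ : sphere (0 : E n) 1 => h (R • (θ : E n))) (sphM n))
    (hc : ∀ x : E n, ‖x‖ = R → |R ^ (n - 1) * h x - ((n : ℝ) - 1) * c| ≤ ((n : ℝ) - 1) * δ) :
    |sphInt R h / (((n : ℝ) - 1) * omega n) - c| ≤ δ := by
  have hω : 0 < omega n := omega_pos'
  have hn1 : (0 : ℝ) < (n : ℝ) - 1 := by
    have : (2 : ℝ) ≤ n := by exact_mod_cast hn
    linarith
  have h1 : sphInt R h - ((n : ℝ) - 1) * c * omega n =
      ∫ θ : sphere (0 : E n) 1, (R ^ (n - 1) * h (R • (θ : E n)) - ((n : ℝ) - 1) * c) ∂(sphM n) := by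
    rw [integral_sub (hint.const_mul _) (integrable_const _), integral_const_mul, integral_const]
    unfold sphInt omega
    rw [smul_eq_mul, measureReal_def]
    ring
  have h2 : |sphInt R h - ((n : ℝ) - 1) * c * omega n| ≤ ((n : ℝ) - 1) * δ * omega n := by
    rw [h1, ← Real.norm_eq_abs]
    have := norm_integral_le_of_norm_le_const (μ := sphM n)
      (f := fun θ : sphere (0 : E n) 1 => R ^ (n - 1) * h (R • (θ : E n)) - ((n : ℝ) - 1) * c)
      (C := ((n : ℝ) - 1) * δ) (Eventually.of_forall fun θ => by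
        rw [Real.norm_eq_abs]; exact hc _ (norm_smul_sph hR.le θ))
    rw [measureReal_def] at this
    exact this
  have h3 : sphInt R h / (((n : ℝ) - 1) * omega n) - c =
      (sphInt R h - ((n : ℝ) - 1) * c * omega n) / (((n : ℝ) - 1) * omega n) := by
    field_simp
  rw [h3, abs_div, abs_of_pos (mul_pos hn1 hω), div_le_iff₀ (mul_pos hn1 hω)]
  calc _ ≤ _ := h2
    _ = _ := by ring

lemma diff_Nc (i : Fin n) {x : E n} (hx : x ≠ 0) : DifferentiableAt ℝ (Nc i) x :=
  (contDiffAt_Nc (m := 1) i hx).differentiableAt (by norm_num)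

/-- first derivatives of the metric `A δ + (B - A) n n - S`. -/
theorem pd_metric {A B : E n → ℝ} {S : Fin n → Fin n → E n → ℝ} {g : Fin n → Fin n → E n → ℝ}
    {x : E n} (hx : x ≠ 0) (hA : DifferentiableAt ℝ A x) (hB : DifferentiableAt ℝ B x)
    (hS : ∀ i j, DifferentiableAt ℝ (S i j) x)
    (hg : ∀ i j, g i j =ᶠ[𝓝 x] fun y => A y * (if i = j then 1 else 0) +
      (B y - A y) * (Nc i y * Nc j y) - S i j y) (k i j : Fin n) :
    pd k (g i j) x = pd k A x * (if i = j then 1 else 0) +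
      (pd k B x - pd k A x) * (Nc i x * Nc j x) +
      (B x - A x) / ‖x‖ * (((if k = i then 1 else 0) - Nc k x * Nc i x) * Nc j x +
        Nc i x * ((if k = j then 1 else 0) - Nc k x * Nc j x)) - pd k (S i j) x := by
  rw [pd_congr (hg i j)]
  have h1 : DifferentiableAt ℝ (fun y => A y * (if i = j then (1 : ℝ) else 0)) x :=
    hA.mul_const _
  have h2 : DifferentiableAt ℝ (fun y => Nc i y * Nc j y) x := (diff_Nc i hx).mul (diff_Nc j hx)
  have h3 : DifferentiableAt ℝ (fun y => B y - A y) x := hB.sub hA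
  have h4 : DifferentiableAt ℝ (fun y => (B y - A y) * (Nc i y * Nc j y)) x := h3.mul h2
  have h5 : DifferentiableAt ℝ (fun y => A y * (if i = j then (1 : ℝ) else 0) +
      (B y - A y) * (Nc i y * Nc j y)) x := h1.add h4
  rw [pd_sub h5 (hS i j), pd_add h1 h4, pd_mul_const hA, pd_mul h3 h2, pd_sub hB hA,
    pd_mul (diff_Nc i hx) (diff_Nc j hx), pd_Nc hx, pd_Nc hx]
  ring

/-- the ADM energy integrand of `A δ + (B - A) n n - S`. -/
theorem energy_pt {A B : E n → ℝ} {S : Fin n → Fin n → E n → ℝ} {g : Fin n → Fin n → E n → ℝ}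
    {x : E n} (hx : x ≠ 0) (hA : DifferentiableAt ℝ A x) (hB : DifferentiableAt ℝ B x)
    (hS : ∀ i j, DifferentiableAt ℝ (S i j) x)
    (hg : ∀ i j, g i j =ᶠ[𝓝 x] fun y => A y * (if i = j then 1 else 0) +
      (B y - A y) * (Nc i y * Nc j y) - S i j y) :
    ∑ i, (∑ j, (pd j (g i j) x - pd i (g j j) x)) / 2 * Nc i x =
      ((n : ℝ) - 1) / 2 * ((B x - A x) / ‖x‖ - ∑ k, Nc k x * pd k A x) -
      ∑ i, (∑ j, (pd j (S i j) x - pd i (S j j) x)) / 2 * Nc i x := by
  have hN : ∑ i, Nc i x * Nc i x = 1 := by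
    rw [← sum_Nc_sq hx]; exact Finset.sum_congr rfl fun i _ => (sq _).symm
  have h1 : ∀ i, ∑ j, (pd j (g i j) x - pd i (g j j) x) =
      (1 - (n : ℝ)) * pd i A x + (Nc i x * ∑ j, Nc j x * (pd j B x - pd j A x)
        - (pd i B x - pd i A x)) + ((n : ℝ) - 1) * ((B x - A x) / ‖x‖) * Nc i x
        - ∑ j, (pd j (S i j) x - pd i (S j j) x) := by
    intro i
    have e1 : ∀ j, pd j (g i j) x - pd i (g j j) x =
      (if i = j then pd j A x else 0) - pd i A x +
      Nc i x * (Nc j x * (pd j B x - pd j A x)) - (pd i B x - pd i A x) * (Nc j x * Nc j x) +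
      (B x - A x) / ‖x‖ * ((if i = j then Nc j x else 0) - Nc i x * (Nc j x * Nc j x) +
        Nc i x - Nc i x * (Nc j x * Nc j x) - 2 * (if i = j then Nc j x else 0) +
        2 * Nc i x * (Nc j x * Nc j x)) - (pd j (S i j) x - pd i (S j j) x) := by
      intro j
      rw [pd_metric hx hA hB hS hg, pd_metric hx hA hB hS hg]
      by_cases hij : i = j
      · subst hij; simp only [if_true]; ring
      · have hji : ¬ j = i := fun h => hij h.symm
        simp only [hij, hji, if_true, if_false]; ring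
    rw [Finset.sum_congr rfl fun j _ => e1 j]
    simp only [Finset.sum_sub_distrib, Finset.sum_add_distrib, ← Finset.mul_sum,
      Finset.sum_ite_eq, Finset.mem_univ, if_true, hN, Finset.sum_const, Finset.card_univ,
      Fintype.card_fin, nsmul_eq_mul]
    ring
  simp only [h1]
  have h2 : ∀ i, ((1 - (n : ℝ)) * pd i A x + (Nc i x * ∑ j, Nc j x * (pd j B x - pd j A x)
        - (pd i B x - pd i A x)) + ((n : ℝ) - 1) * ((B x - A x) / ‖x‖) * Nc i x
        - ∑ j, (pd j (S i j) x - pd i (S j j) x)) / 2 * Nc i x =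
      (1 - (n : ℝ)) / 2 * (Nc i x * pd i A x) +
      ((∑ j, Nc j x * (pd j B x - pd j A x)) / 2 * (Nc i x * Nc i x) -
        1 / 2 * (Nc i x * (pd i B x - pd i A x))) +
      ((n : ℝ) - 1) / 2 * ((B x - A x) / ‖x‖) * (Nc i x * Nc i x) -
      (∑ j, (pd j (S i j) x - pd i (S j j) x)) / 2 * Nc i x := by
    intro i; ring
  rw [Finset.sum_congr rfl fun i _ => h2 i]
  simp only [Finset.sum_sub_distrib, Finset.sum_add_distrib, ← Finset.mul_sum, hN]
  ring

end Vale.Agent.P366.T1.A919
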