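import Vale.Agent.P366.Bdl.B1

/-! T1, block B4, part b: oscillation over spheres, the pointwise comparison of the Misner-Sharp
mass with the ADM energy density, divergence-free fluxes. -/

set_option linter.all false

open MeasureTheory Metric Filter Topology Set
open scoped ContDiff ENNReal RealInnerProductSpace

noncomputable section
namespace Vale.Agent.P366.T1.A919

variable {n : ℕ}

/-- a unit vector orthogonal to a given unit vector -/
theorem exists_unit_orth (hn : 2 ≤ n) {u : E n} (hu : ‖u‖ = 1) : ∃ w : E n, ‖w‖ = 1 ∧ ⟪u, w⟫ = 0 := by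
  have h1 : ∑ i, u i ^ 2 = 1 := by
    have := EuclideanSpace.norm_sq_eq u
    rw [hu] at this
    simp only [Real.norm_eq_abs, sq_abs] at this
    linarith
  have h2 : ∃ j, u j ^ 2 < 1 := by
    by_contra hcon
    push Not at hcon
    have h3 : ∑ i : Fin n, (1 : ℝ) ≤ ∑ i, u i ^ 2 := Finset.sum_le_sum fun i _ => hcon i
    simp only [Finset.sum_const, Finset.card_univ, Fintype.card_fin, nsmul_eq_mul, mul_one] at h3
    have h4 : (2 : ℝ) ≤ n := by exact_mod_cast hn
    linarith
  obtain ⟨j, hj⟩ := h2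
  set e : E n := EuclideanSpace.single j (1 : ℝ) with he
  have hue : ⟪u, e⟫ = u j := by rw [he, EuclideanSpace.inner_single_right]; simp
  have hee : ‖e‖ = 1 := by rw [he]; simp
  set w1 : E n := e - (u j) • u with hw1
  have huw : ⟪u, w1⟫ = 0 := by
    rw [hw1, inner_sub_right, inner_smul_right, hue, real_inner_self_eq_norm_sq, hu]; ring
  have hw0 : w1 ≠ 0 := by
    intro h0
    have h3 : ⟪e, w1⟫ = 0 := by rw [h0, inner_zero_right]
    rw [hw1, inner_sub_right, inner_smul_right, real_inner_comm, real_inner_self_eq_norm_sq, hee] at h3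
    have h5 : ⟪u, e⟫ = u j := hue
    rw [real_inner_comm] at h3
    have h6 : ⟪e, u⟫ = u j := by rw [real_inner_comm]; exact h5
    first
      | (rw [h6] at h3; nlinarith)
      | (rw [h5] at h3; nlinarith)
  refine ⟨(‖w1‖)⁻¹ • w1, ?_, ?_⟩
  · rw [norm_smul, norm_inv, norm_norm, inv_mul_cancel₀ (norm_ne_zero_iff.mpr hw0)]
  · rw [inner_smul_right, huw, mul_zero]

/-- two points of the unit sphere lie on a great circle -/
theorem exists_circle (hn : 2 ≤ n) {u v : E n} (hu : ‖u‖ = 1) (hv : ‖v‖ = 1) :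
    ∃ (w : E n) (α : ℝ), ‖w‖ = 1 ∧ ⟪u, w⟫ = 0 ∧ 0 ≤ α ∧ α ≤ Real.pi ∧
      v = Real.cos α • u + Real.sin α • w := by
  set c : ℝ := ⟪u, v⟫ with hc
  have hc1 : |c| ≤ 1 := by
    have := abs_real_inner_le_norm u v
    rwa [hu, hv, mul_one] at this
  have hcle := abs_le.mp hc1
  set z : E n := v - c • u with hz
  have huz : ⟪u, z⟫ = 0 := by
    rw [hz, inner_sub_right, inner_smul_right, real_inner_self_eq_norm_sq, hu, ← hc]; ring
  have hzn : ‖z‖ ^ 2 = 1 - c ^ 2 := by
    rw [hz, norm_sub_sq_real, norm_smul, hu, hv, inner_smul_right, real_inner_comm, ← hc,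
      Real.norm_eq_abs, mul_one, sq_abs]; ring
  have hcos : Real.cos (Real.arccos c) = c := Real.cos_arccos hcle.1 hcle.2
  have hsin : Real.sin (Real.arccos c) = ‖z‖ := by
    rw [Real.sin_arccos, ← hzn, Real.sqrt_sq (norm_nonneg _)]
  by_cases h0 : z = 0
  · obtain ⟨w, hw, huw⟩ := exists_unit_orth hn hu
    refine ⟨w, Real.arccos c, hw, huw, Real.arccos_nonneg _, Real.arccos_le_pi _, ?_⟩
    rw [hcos, hsin, h0, norm_zero, zero_smul, add_zero]
    have : v - c • u = 0 := h0
    exact sub_eq_zero.mp this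
  · refine ⟨(‖z‖)⁻¹ • z, Real.arccos c, ?_, ?_, Real.arccos_nonneg _, Real.arccos_le_pi _, ?_⟩
    · rw [norm_smul, norm_inv, norm_norm, inv_mul_cancel₀ (norm_ne_zero_iff.mpr h0)]
    · rw [inner_smul_right, huz, mul_zero]
    · rw [hcos, hsin, smul_smul, mul_inv_cancel₀ (norm_ne_zero_iff.mpr h0), one_smul, hz]
      abel

/-- oscillation over a sphere from a bound of the tangential derivative -/
theorem osc_sphere (hn : 2 ≤ n) {R L : ℝ} (hR : 0 < R) {H : E n → ℝ}
    (hd : ∀ x : E n, ‖x‖ = R → DifferentiableAt ℝ H x)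
    (hL : ∀ x v : E n, ‖x‖ = R → ‖v‖ = 1 → ⟪x, v⟫ = 0 → |fderiv ℝ H x v| ≤ L)
    {x y : E n} (hx : ‖x‖ = R) (hy : ‖y‖ = R) : |H x - H y| ≤ Real.pi * R * L := by
  set u : E n := R⁻¹ • x with hu
  set v : E n := R⁻¹ • y with hv
  have hun : ‖u‖ = 1 := by rw [hu, norm_smul, norm_inv, Real.norm_of_nonneg hR.le, hx]; field_simp
  have hvn : ‖v‖ = 1 := by rw [hv, norm_smul, norm_inv, Real.norm_of_nonneg hR.le, hy]; field_simp
  have hxu : x = R • u := by rw [hu, smul_smul, mul_inv_cancel₀ hR.ne', one_smul]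
  have hyv : y = R • v := by rw [hv, smul_smul, mul_inv_cancel₀ hR.ne', one_smul]
  clear_value u v
  obtain ⟨w, α, hw, huw, hα0, hα1, hvw⟩ := exists_circle hn hun hvn
  have hwu : ⟪w, u⟫ = 0 := by rw [real_inner_comm]; exact huw
  set γ : ℝ → E n := fun s => R • (Real.cos s • u + Real.sin s • w) with hγ
  have hγn : ∀ s, ‖γ s‖ = R := by
    intro s
    have h1 : ‖Real.cos s • u + Real.sin s • w‖ ^ 2 = 1 := by
      rw [norm_add_sq_real, norm_smul, norm_smul, hun, hw, inner_smul_left, inner_smul_right, huw]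
      simp only [Real.norm_eq_abs, mul_one, sq_abs, mul_zero, add_zero]
      exact Real.cos_sq_add_sin_sq s
    have h2 : ‖Real.cos s • u + Real.sin s • w‖ = 1 := by
      have := norm_nonneg (Real.cos s • u + Real.sin s • w)
      nlinarith
    rw [hγ]; simp only
    rw [norm_smul, h2, Real.norm_of_nonneg hR.le, mul_one]
  have hγd : ∀ s, HasDerivAt γ (R • (-Real.sin s • u + Real.cos s • w)) s := by
    intro s
    exact (((Real.hasDerivAt_cos s).smul_const u).add ((Real.hasDerivAt_sin s).smul_const w)).const_smul R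
  have hbound : ∀ s, ‖fderiv ℝ H (γ s) (R • (-Real.sin s • u + Real.cos s • w))‖ ≤ R * L := by
    intro s
    rw [map_smul, smul_eq_mul, norm_mul, Real.norm_of_nonneg hR.le, Real.norm_eq_abs]
    refine mul_le_mul_of_nonneg_left (hL _ _ (hγn s) ?_ ?_) hR.le
    · have h1 : ‖-Real.sin s • u + Real.cos s • w‖ ^ 2 = 1 := by
        rw [norm_add_sq_real, norm_smul, norm_smul, hun, hw, inner_smul_left, inner_smul_right, huw]
        simp only [Real.norm_eq_abs, mul_one, sq_abs, mul_zero, add_zero, abs_neg, neg_sq]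
        exact Real.sin_sq_add_cos_sq s
      have := norm_nonneg (-Real.sin s • u + Real.cos s • w)
      nlinarith
    · rw [hγ]
      simp only [inner_smul_left, inner_add_left, inner_add_right, inner_smul_right, huw, hwu,
        real_inner_self_eq_norm_sq, hun, hw, conj_trivial]
      ring
  have hcomp : ∀ s, HasDerivAt (fun s => H (γ s))
      (fderiv ℝ H (γ s) (R • (-Real.sin s • u + Real.cos s • w))) s := fun s =>
    (hd _ (hγn s)).hasFDerivAt.comp_hasDerivAt s (hγd s)
  have hmv := norm_image_sub_le_of_norm_deriv_le_segment' (f := fun s => H (γ s))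
    (f' := fun s => fderiv ℝ H (γ s) (R • (-Real.sin s • u + Real.cos s • w))) (C := R * L)
    (a := 0) (b := α) (fun s _ => (hcomp s).hasDerivWithinAt) (fun s _ => hbound s) α
    (right_mem_Icc.mpr hα0)
  have e0 : γ 0 = x := by rw [hγ, hxu]; simp
  have e1 : γ α = y := by rw [hγ, hyv, hvw]
  rw [e0, e1, sub_zero, Real.norm_eq_abs] at hmv
  have hLn : 0 ≤ R * L := le_trans (norm_nonneg _) (hbound 0)
  rw [abs_sub_comm]
  calc |H y - H x| ≤ R * L * α := hmv
    _ ≤ R * L * Real.pi := mul_le_mul_of_nonneg_left hα1 hLn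
    _ = Real.pi * R * L := by ring

/-- powers near one -/
theorem pow_near (k : ℕ) {s δ : ℝ} (hδ : 0 ≤ δ) (hδ1 : δ ≤ 1) (hs : |s - 1| ≤ δ) :
    |s ^ k - 1| ≤ 2 ^ k * k * δ ∧ |s ^ k| ≤ 2 ^ k := by
  have hs2 : |s| ≤ 2 := by
    have := abs_sub_abs_le_abs_sub s 1
    rw [abs_one] at this
    linarith
  have hpow : ∀ k : ℕ, |s ^ k| ≤ 2 ^ k := fun k => by
    rw [abs_pow]; exact pow_le_pow_left₀ (abs_nonneg _) hs2 k
  refine ⟨?_, hpow k⟩
  induction k with
  | zero => simp
  | succ k ih =>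
    have h1 : s ^ (k + 1) - 1 = (s ^ k - 1) * s + (s - 1) := by ring
    rw [h1]
    have h2 : |(s ^ k - 1) * s| ≤ 2 ^ k * k * δ * 2 := by
      rw [abs_mul]; exact mul_le_mul ih hs2 (abs_nonneg _) (by positivity)
    have h3 : (1 : ℝ) ≤ 2 ^ (k + 1) := one_le_pow₀ (by norm_num)
    calc |(s ^ k - 1) * s + (s - 1)| ≤ 2 ^ k * k * δ * 2 + δ := by
          refine (abs_add_le _ _).trans (add_le_add h2 hs)
      _ ≤ 2 ^ k * k * δ * 2 + 2 ^ (k + 1) * δ := by nlinarith
      _ = 2 ^ (k + 1) * ((k + 1 : ℕ) : ℝ) * δ := by push_cast; ring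

/-- the Misner-Sharp mass against the ADM energy density: `s = r/ρ`, `a = ρ ∂_ρ (r/ρ)`,
`b = ρ ∂_t (r/ρ)`. -/
theorem mass_near (k : ℕ) : ∃ C : ℝ, 0 ≤ C ∧ ∀ δ s F a b : ℝ, 0 ≤ δ → δ ≤ 1 / 2 →
    |s - 1| ≤ δ → |F - 1| ≤ δ → |a| ≤ δ → |b| ≤ δ →
    |s ^ k * (1 - ((s + a) ^ 2 - b ^ 2) / F) - (F - s ^ 2 - 2 * s * a)| ≤ C * δ ^ 2 := by
  refine ⟨2 * (2 ^ k * k + 1) * 8 + 2 * 2 ^ k * 2, by positivity, ?_⟩
  intro δ s F a b hδ hδ1 hs hF ha hb
  have hF0 : 1 / 2 ≤ F := by have := (abs_le.mp hF).1; linarith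
  have hF0' : 0 < F := by linarith
  obtain ⟨hk1, hk2⟩ := pow_near k hδ (by linarith) hs
  set X := F - s ^ 2 - 2 * s * a with hX
  have hs2 : |s| ≤ 2 := by
    have := abs_sub_abs_le_abs_sub s 1
    rw [abs_one] at this
    linarith
  have hXb : |X| ≤ 8 * δ := by
    have e : X = (F - 1) - (s - 1) * (s + 1) - 2 * s * a := by rw [hX]; ring
    have h1 : |s + 1| ≤ 3 := by
      have := abs_add_le s 1
      rw [abs_one] at this; linarith
    have h2 : |(s - 1) * (s + 1)| ≤ δ * 3 := by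
      rw [abs_mul]; exact mul_le_mul hs h1 (abs_nonneg _) hδ
    have h3 : |2 * s * a| ≤ 4 * δ := by
      rw [abs_mul, abs_mul, abs_two]
      have := mul_le_mul hs2 ha (abs_nonneg _) (by norm_num : (0 : ℝ) ≤ 2)
      nlinarith [abs_nonneg s, abs_nonneg a]
    rw [e]
    calc |F - 1 - (s - 1) * (s + 1) - 2 * s * a| ≤ |F - 1| + |(s - 1) * (s + 1)| + |2 * s * a| := by
          refine (abs_sub _ _).trans (add_le_add (abs_sub _ _) le_rfl)
      _ ≤ 8 * δ := by linarith
  have e1 : s ^ k * (1 - ((s + a) ^ 2 - b ^ 2) / F) - X =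
      (s ^ k / F - 1) * X + s ^ k / F * (b ^ 2 - a ^ 2) := by
    rw [hX]; field_simp; ring
  have h1 : |s ^ k / F - 1| ≤ 2 * (2 ^ k * k + 1) * δ := by
    have e2 : s ^ k / F - 1 = ((s ^ k - 1) - (F - 1)) / F := by field_simp; ring
    rw [e2, abs_div, abs_of_pos hF0', div_le_iff₀ hF0']
    calc |s ^ k - 1 - (F - 1)| ≤ 2 ^ k * k * δ + δ := (abs_sub _ _).trans (add_le_add hk1 hF)
      _ = 2 * (2 ^ k * k + 1) * δ * (1 / 2) := by ring
      _ ≤ 2 * (2 ^ k * k + 1) * δ * F := mul_le_mul_of_nonneg_left hF0 (by positivity)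
  have h2 : |s ^ k / F| ≤ 2 * 2 ^ k := by
    rw [abs_div, abs_of_pos hF0', div_le_iff₀ hF0']
    have : (0 : ℝ) < 2 ^ k := by positivity
    nlinarith
  have h3 : |b ^ 2 - a ^ 2| ≤ 2 * δ ^ 2 := by
    have ha2 : a ^ 2 ≤ δ ^ 2 := by
      rw [← sq_abs a]; exact pow_le_pow_left₀ (abs_nonneg _) ha 2
    have hb2 : b ^ 2 ≤ δ ^ 2 := by
      rw [← sq_abs b]; exact pow_le_pow_left₀ (abs_nonneg _) hb 2
    rw [abs_le]
    constructor <;> nlinarith [sq_nonneg a, sq_nonneg b, sq_nonneg δ]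
  rw [e1]
  calc |(s ^ k / F - 1) * X + s ^ k / F * (b ^ 2 - a ^ 2)| ≤
        2 * (2 ^ k * k + 1) * δ * (8 * δ) + 2 * 2 ^ k * (2 * δ ^ 2) := by
        refine (abs_add_le _ _).trans (add_le_add ?_ ?_)
        · rw [abs_mul]; exact mul_le_mul h1 hXb (abs_nonneg _) (by positivity)
        · rw [abs_mul]; exact mul_le_mul h2 h3 (abs_nonneg _) (by positivity)
    _ = (2 * (2 ^ k * k + 1) * 8 + 2 * 2 ^ k * 2) * δ ^ 2 := by ring

/-- a smooth divergence-free field has no flux through centred spheres -/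
theorem flux_zero [Nontrivial (E n)] (hn : 2 ≤ n) {W : Fin n → E n → ℝ}
    (hW : ∀ i, ContDiff ℝ 1 (W i)) (hdiv : ∀ x, dvg W x = 0) {R : ℝ} (hR : 0 < R) :
    flux W R = 0 := by
  have hder : ∀ r, 0 < r → HasDerivAt (flux W) 0 r := by
    intro r hr
    have := flux_hasDerivAt (le_refl (0 : ℝ)) (fun i => (hW i).contDiffOn) hr
    have h0 : sphI (dvg W) r = 0 := by
      unfold sphI; simp only [hdiv, integral_zero]
    rwa [h0, mul_zero] at this
  -- the flux is constant on (0, ∞)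
  have hconst : ∀ r, 0 < r → flux W r = flux W R := by
    intro r hr
    have hdiff : DifferentiableOn ℝ (flux W) (Ioi 0) := fun x hx =>
      (hder x hx).differentiableAt.differentiableWithinAt
    have hz : ∀ x ∈ Ioi (0 : ℝ), fderivWithin ℝ (flux W) (Ioi 0) x = 0 := by
      intro x hx
      rw [fderivWithin_of_isOpen isOpen_Ioi hx]
      have := (hder x hx).hasFDerivAt.fderiv
      rw [this]; ext; simp
    exact (convex_Ioi 0).is_const_of_fderivWithin_eq_zero hdiff hz hr hR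
  -- and it tends to zero at zero
  obtain ⟨C, hC⟩ : ∃ C : ℝ, ∀ x ∈ closedBall (0 : E n) 1, (∑ i, |W i x|) ≤ C := by
    have hc : Continuous fun x : E n => ∑ i, |W i x| :=
      continuous_finsetSum _ fun i _ => (hW i).continuous.abs
    obtain ⟨C, hC⟩ := (isCompact_closedBall (0 : E n) 1).exists_bound_of_continuousOn hc.continuousOn
    exact ⟨C, fun x hx => le_trans (le_abs_self _) (by rw [← Real.norm_eq_abs]; exact hC x hx)⟩
  have hbd : ∀ r, 0 < r → r ≤ 1 → |flux W r| ≤ r * (C * omega n) := by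
    intro r hr hr1
    unfold flux
    rw [abs_mul, abs_of_pos (pow_pos hr _)]
    have h1 : |sphI (fun x => ∑ i, W i x * (x i / ‖x‖)) r| ≤ C * omega n := by
      unfold sphI
      rw [← Real.norm_eq_abs]
      have := norm_integral_le_of_norm_le_const (μ := sphM n)
        (f := fun θ : sphere (0 : E n) 1 => ∑ i, W i (r • (θ : E n)) *
          ((r • (θ : E n)) i / ‖r • (θ : E n)‖)) (C := C) (Eventually.of_forall fun θ => by
          rw [Real.norm_eq_abs]
          have h2 : r • (θ : E n) ∈ closedBall (0 : E n) 1 := by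
            rw [mem_closedBall_zero_iff, norm_smul_sph hr.le]; exact hr1
          have h3 := hC _ h2
          refine le_trans (Finset.abs_sum_le_sum_abs _ _) (le_trans ?_ h3)
          refine Finset.sum_le_sum fun i _ => ?_
          rw [abs_mul]
          have h4 : |(r • (θ : E n)) i / ‖r • (θ : E n)‖| ≤ 1 := by
            rw [abs_div, abs_norm]
            refine div_le_one_of_le₀ ?_ (norm_nonneg _)
            rw [← Real.norm_eq_abs]
            exact PiLp.norm_apply_le _ i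
          calc |W i (r • (θ : E n))| * |(r • (θ : E n)) i / ‖r • (θ : E n)‖| ≤
                |W i (r • (θ : E n))| * 1 := mul_le_mul_of_nonneg_left h4 (abs_nonneg _)
            _ = _ := mul_one _)
      rw [measureReal_def] at this
      exact this
    have hCn : 0 ≤ C * omega n := le_trans (abs_nonneg _) h1
    calc r ^ (n - 1) * |sphI (fun x => ∑ i, W i x * (x i / ‖x‖)) r| ≤ r ^ (n - 1) * (C * omega n) :=
          mul_le_mul_of_nonneg_left h1 (pow_pos hr _).le
      _ ≤ r * (C * omega n) := by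
          refine mul_le_mul_of_nonneg_right ?_ hCn
          calc r ^ (n - 1) ≤ r ^ 1 := pow_le_pow_of_le_one hr.le hr1 (by omega)
            _ = r := pow_one r
  have hlim : Tendsto (fun r : ℝ => r * (C * omega n)) (𝓝[>] 0) (𝓝 0) := by
    have : Tendsto (fun r : ℝ => r * (C * omega n)) (𝓝 0) (𝓝 (0 * (C * omega n))) :=
      tendsto_id.mul_const _
    rw [zero_mul] at this
    exact this.mono_left nhdsWithin_le_nhds
  have hle : |flux W R| ≤ 0 := by
    refine ge_of_tendsto hlim ?_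
    filter_upwards [Ioo_mem_nhdsGT (show (0 : ℝ) < 1 by norm_num)] with r hr
    rw [← hconst r hr.1]
    exact hbd r hr.1 hr.2.le
  exact abs_eq_zero.mp (le_antisymm hle (abs_nonneg _))

end Vale.Agent.P366.T1.A919
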