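import Vale.Agent.P366.Stmt

open MeasureTheory Metric Filter Topology Set
open scoped ContDiff ENNReal

noncomputable section
namespace Vale.Agent.P366.T1

open Vale.Agent.P366.Stmt

/-! ### Spherically symmetric spacetimes -/

/-- The derivative in `u` of a function of the two null coordinates `(u, v)`. -/
def du (G : ℝ × ℝ → ℝ) (p : ℝ × ℝ) : ℝ := lineDeriv ℝ G p (1, 0)

/-- The derivative in `v` of a function of the two null coordinates `(u, v)`. -/
def dv (G : ℝ × ℝ → ℝ) (p : ℝ × ℝ) : ℝ := lineDeriv ℝ G p (0, 1)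

/-- The spherically symmetric spacetime with the metric `- F(u, v) du dv + r(u, v)^2 dΩ^2` on the
product of the open region `Q` of the `(u, v)` plane and the sphere of dimension `n - 1`. With each
two points of a null line the region contains the null segment between them. -/
structure Spacetime where
  Q : Set (ℝ × ℝ)
  F : ℝ × ℝ → ℝ
  r : ℝ × ℝ → ℝ
  isOpen : IsOpen Q
  smooth : ContDiffOn ℝ ∞ F Q ∧ ContDiffOn ℝ ∞ r Q
  pos : ∀ p ∈ Q, 0 < F p ∧ 0 < r p
  segV : ∀ u v v' w, (u, v) ∈ Q → (u, v') ∈ Q → v ≤ w → w ≤ v' → (u, w) ∈ Q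
  segU : ∀ u u' v w, (u, v) ∈ Q → (u', v) ∈ Q → u ≤ w → w ≤ u' → (w, v) ∈ Q

namespace Spacetime

/-- The energy condition in spacetime dimension `n + 1`: the components `vv`, `uu` and `uv` of the
Einstein tensor are nonnegative. -/
def DEC (n : ℕ) (M : Spacetime) : Prop := ∀ p ∈ M.Q,
  dv (fun s => dv M.r s / M.F s) p ≤ 0 ∧ du (fun s => du M.r s / M.F s) p ≤ 0 ∧
    0 ≤ M.r p * du (dv M.r) p + (n - 2) * (M.F p / 4 + du M.r p * dv M.r p)

/-- The ratio of the area radius `r` and `ρ = (v - u) / 2`. -/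
def ratio (M : Spacetime) (p : ℝ × ℝ) : ℝ := M.r p / ((p.2 - p.1) / 2)

/-- Asymptotic flatness at spatial infinity: with `t = (v + u) / 2` and `ρ = (v - u) / 2`, so that
the metric is `- F (dt^2 - dρ^2) + r^2 dΩ^2`, the function `F - 1` is `O₁(ρ^(-q))` and `r / ρ - 1`
is `O₂(ρ^(-q))` in a wedge `|t| ≤ c ρ`. -/
def IsAF (n : ℕ) (M : Spacetime) : Prop := ∃ c q C R : ℝ, 0 < c ∧ (n : ℝ) / 2 - 1 < q ∧
  ∀ p ρ, ρ = (p.2 - p.1) / 2 → R < ρ → |(p.2 + p.1) / 2| ≤ c * ρ → p ∈ M.Q ∧
    |M.F p - 1| ≤ C * ρ ^ (-q) ∧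
    |du M.F p| ≤ C * ρ ^ (-(q + 1)) ∧ |dv M.F p| ≤ C * ρ ^ (-(q + 1)) ∧
    |M.ratio p - 1| ≤ C * ρ ^ (-q) ∧
    |du M.ratio p| ≤ C * ρ ^ (-(q + 1)) ∧ |dv M.ratio p| ≤ C * ρ ^ (-(q + 1)) ∧
    |du (du M.ratio) p| ≤ C * ρ ^ (-(q + 1 + 1)) ∧
    |du (dv M.ratio) p| ≤ C * ρ ^ (-(q + 1 + 1)) ∧
    |dv (dv M.ratio) p| ≤ C * ρ ^ (-(q + 1 + 1))

/-- The mass function `m` with `|dr|^2 = 1 - 2 m / r^(n - 2)`. -/
def mass (n : ℕ) (M : Spacetime) (p : ℝ × ℝ) : ℝ :=
  M.r p ^ (n - 2) * (1 + 4 * du M.r p * dv M.r p / M.F p) / 2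

end Spacetime

/-! ### The slice `t = f(x)` -/

variable {n : ℕ}

/-- The null coordinates `(u, v)` of the point with `t = f(x)` and `ρ = |x|`. -/
def uv (f : E n → ℝ) (x : E n) : ℝ × ℝ := (f x - len x, f x + len x)

/-- The metric induced on the slice `t = f(x)`: the spacetime metric is
`- F dt^2 + F dρ^2 + r^2 dΩ^2`. -/
def sliceG (M : Spacetime) (f : E n → ℝ) : Field n := fun x i j =>
  M.F (uv f x) * (x i / len x) * (x j / len x) +
    (M.r (uv f x) / len x) ^ 2 * ((if i = j then 1 else 0) - (x i / len x) * (x j / len x)) -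
    M.F (uv f x) * pd i f x * pd j f x

/-- The derivative in `t` of the metrics induced on the slices `t = f(x) + const`. -/
def sliceGt (M : Spacetime) (f : E n → ℝ) : Field n := fun x i j =>
  (du M.F (uv f x) + dv M.F (uv f x)) * ((x i / len x) * (x j / len x) - pd i f x * pd j f x) +
    2 * M.r (uv f x) * (du M.r (uv f x) + dv M.r (uv f x)) / len x ^ 2 *
      ((if i = j then 1 else 0) - (x i / len x) * (x j / len x))

/-- The components of the shift covector in the coordinates `(t - f(x), x)`. -/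
def shift (M : Spacetime) (f : E n → ℝ) (i : Fin n) (x : E n) : ℝ := -(M.F (uv f x) * pd i f x)

/-- The lapse in the coordinates `(t - f(x), x)`. -/
def lapse (M : Spacetime) (f : E n → ℝ) (x : E n) : ℝ :=
  √(M.F (uv f x) + ∑ i, ∑ j, up (sliceG M f) i j x * shift M f i x * shift M f j x)

/-- The covariant derivative of the shift covector. -/
def dShift (M : Spacetime) (f : E n → ℝ) : Field n := fun x i j =>
  pd i (shift M f j) x - ∑ k, chr (sliceG M f) k i j x * shift M f k x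

/-- The second fundamental form of the slice `t = f(x)` with respect to the future unit normal. -/
def sliceK (M : Spacetime) (f : E n → ℝ) : Field n := fun x i j =>
  (sliceGt M f x i j - dShift M f x i j - dShift M f x j i) / (2 * lapse M f x)

/-- The exterior initial data `D` are the part over `{0 ≤ D.F}` of the slice `t = f(x)` of the
spacetime `M`. The origin `x = 0` may or may not belong to `{0 ≤ D.F}`: it is the center. -/
structure IsSlice (M : Spacetime) (f : E n → ℝ) (D : Exterior n) : Prop where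
  smooth : Smooth f
  radial : ∀ x, x ≠ 0 → |∑ i, x i / len x * pd i f x| < 1
  mem : ∀ x, x ≠ 0 → 0 ≤ D.F x → uv f x ∈ M.Q
  met : ∀ x, x ≠ 0 → 0 ≤ D.F x → ∀ i j, D.g x i j = sliceG M f x i j
  sff : ∀ x, x ≠ 0 → 0 ≤ D.F x → ∀ i j, D.K x i j = sliceK M f x i j

end Vale.Agent.P366.T1
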