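import Mathlib.Analysis.Calculus.FDeriv.Symmetric
import Vale.Agent.P366.T1.Stmt
import Vale.Agent.P366.T1.A919b

/-! T1, block B4, part c: the calculus of decay orders and of the null coordinates. -/

set_option linter.all false

open MeasureTheory Metric Filter Topology Set Asymptotics
open scoped ContDiff ENNReal RealInnerProductSpace

noncomputable section
namespace Vale.Agent.P366.T1.A919

variable {n : ℕ}

/-! ### decay orders -/

/-- neighbourhoods of infinity -/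
def far (n : ℕ) : Filter (E n) := comap (fun x : E n => ‖x‖) atTop

theorem far_iff {P : E n → Prop} : (∀ᶠ x in far n, P x) ↔ ∃ R : ℝ, ∀ x : E n, R < ‖x‖ → P x := by
  unfold far
  rw [eventually_comap]
  constructor
  · intro h
    obtain ⟨R, hR⟩ := eventually_atTop.mp h
    exact ⟨R, fun x hx => hR _ hx.le x rfl⟩
  · rintro ⟨R, hR⟩
    refine eventually_atTop.mpr ⟨R + 1, fun b hb x hx => hR x ?_⟩
    rw [hx]; linarith

theorem far_of {P : E n → Prop} (R : ℝ) (h : ∀ x : E n, R < ‖x‖ → P x) : ∀ᶠ x in far n, P x :=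
  far_iff.mpr ⟨R, h⟩

theorem far_gt (R : ℝ) : ∀ᶠ x in far n, R < ‖x‖ := far_of R fun _ h => h

theorem far_norm : Tendsto (fun x : E n => ‖x‖) (far n) atTop := tendsto_comap

/-- an eventual property holds eventually in a neighbourhood -/
theorem far_nhds {P : E n → Prop} (h : ∀ᶠ x in far n, P x) : ∀ᶠ x in far n, ∀ᶠ y in 𝓝 x, P y := by
  obtain ⟨R, hR⟩ := far_iff.mp h
  exact far_of R fun x hx => by
    filter_upwards [(isOpen_outside R).mem_nhds hx] with y hy using hR y hy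

/-- `h = O(|x|^(-q))` at infinity -/
def O (q : ℝ) (h : E n → ℝ) : Prop := h =O[far n] fun x => ‖x‖ ^ (-q)

theorem O_iff {q : ℝ} {h : E n → ℝ} :
    O q h ↔ ∃ C R : ℝ, 0 ≤ C ∧ 1 ≤ R ∧ ∀ x : E n, R < ‖x‖ → |h x| ≤ C * ‖x‖ ^ (-q) := by
  unfold O
  constructor
  · intro h1
    obtain ⟨C, hC, h2⟩ := h1.exists_nonneg
    obtain ⟨R, hR⟩ := far_iff.mp h2.bound
    refine ⟨C, max R 1, hC, le_max_right _ _, fun x hx => ?_⟩
    have := hR x (lt_of_le_of_lt (le_max_left _ _) hx)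
    rwa [Real.norm_eq_abs, Real.norm_eq_abs,
      abs_of_nonneg (Real.rpow_nonneg (norm_nonneg x) (-q))] at this
  · rintro ⟨C, R, hC, hR, h1⟩
    refine IsBigO.of_bound C (far_of R fun x hx => ?_)
    rw [Real.norm_eq_abs, Real.norm_eq_abs,
      abs_of_nonneg (Real.rpow_nonneg (norm_nonneg x) (-q))]
    exact h1 x hx

theorem O.of_bound {q C : ℝ} {h : E n → ℝ} (hb : ∀ᶠ x in far n, |h x| ≤ C * ‖x‖ ^ (-q)) : O q h := by
  refine IsBigO.of_bound C (hb.mono fun x hx => ?_)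
  rw [Real.norm_eq_abs, Real.norm_eq_abs,
      abs_of_nonneg (Real.rpow_nonneg (norm_nonneg x) (-q))]
  exact hx

theorem O_of_bigO {q : ℝ} {h : E n → ℝ} (hb : Stmt.BigO q h) : O q h := by
  obtain ⟨C, R, h1⟩ := hb
  exact O.of_bound (C := C) (far_of R fun x hx => h1 x hx)

theorem O.congr {q : ℝ} {f g : E n → ℝ} (h : O q f) (hfg : ∀ᶠ x in far n, f x = g x) : O q g :=
  IsBigO.congr' h hfg (EventuallyEq.refl _ _)

theorem O.mono {p q : ℝ} {f : E n → ℝ} (h : O q f) (hpq : p ≤ q) : O p f := by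
  refine IsBigO.trans h (IsBigO.of_bound 1 ?_)
  filter_upwards [far_gt (n := n) 1] with x hx
  rw [one_mul, Real.norm_eq_abs, Real.norm_eq_abs,
      abs_of_nonneg (Real.rpow_nonneg (norm_nonneg x) (-q)),
      abs_of_nonneg (Real.rpow_nonneg (norm_nonneg x) (-p))]
  exact Real.rpow_le_rpow_of_exponent_le hx.le (by linarith)

theorem O.add {q : ℝ} {f g : E n → ℝ} (hf : O q f) (hg : O q g) : O q (fun x => f x + g x) :=
  IsBigO.add hf hg

theorem O.sub {q : ℝ} {f g : E n → ℝ} (hf : O q f) (hg : O q g) : O q (fun x => f x - g x) :=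
  IsBigO.sub hf hg

theorem O.neg {q : ℝ} {f : E n → ℝ} (hf : O q f) : O q (fun x => -f x) :=
  IsBigO.neg_left hf

theorem O.mul {p q : ℝ} {f g : E n → ℝ} (hf : O p f) (hg : O q g) :
    O (p + q) (fun x => f x * g x) := by
  refine IsBigO.congr' (IsBigO.mul hf hg) (EventuallyEq.refl _ _) ?_
  filter_upwards [far_gt (n := n) 0] with x hx
  rw [← Real.rpow_add hx]
  congr 1; ring

theorem O.mul' {p q r : ℝ} {f g : E n → ℝ} (hf : O p f) (hg : O q g) (h : r ≤ p + q) :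
    O r (fun x => f x * g x) := (hf.mul hg).mono h

theorem O.sum {ι : Type*} {s : Finset ι} {q : ℝ} {f : ι → E n → ℝ} (h : ∀ i ∈ s, O q (f i)) :
    O q (fun x => ∑ i ∈ s, f i x) := by
  unfold O at h ⊢
  exact IsBigO.fun_sum h

theorem O_const (c : ℝ) : O 0 (fun _ : E n => c) := by
  refine O.of_bound (C := |c|) (Eventually.of_forall fun x => ?_)
  rw [neg_zero, Real.rpow_zero, mul_one]

theorem O_zero (q : ℝ) : O q (fun _ : E n => 0) := by
  refine O.of_bound (C := 0) (Eventually.of_forall fun x => ?_)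
  rw [abs_zero, zero_mul]

theorem O_of_le {C : ℝ} {f : E n → ℝ} (h : ∀ᶠ x in far n, |f x| ≤ C) : O 0 f := by
  refine O.of_bound (C := C) (h.mono fun x hx => ?_)
  rwa [neg_zero, Real.rpow_zero, mul_one]

theorem O.of_abs {q : ℝ} {f g : E n → ℝ} (h : O q g) (hfg : ∀ᶠ x in far n, |f x| ≤ |g x|) :
    O q f := by
  refine IsBigO.trans (IsBigO.of_bound 1 (hfg.mono fun x hx => ?_)) h
  rw [one_mul]; exact hx

theorem O.const_mul {q : ℝ} {f : E n → ℝ} (c : ℝ) (hf : O q f) : O q (fun x => c * f x) :=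
  IsBigO.const_mul_left hf c

theorem O_Nc (i : Fin n) : O 0 (Nc i) := by
  refine O_of_le (C := 1) (Eventually.of_forall fun x => ?_)
  unfold Nc
  rw [abs_div, abs_norm]
  refine div_le_one_of_le₀ ?_ (norm_nonneg _)
  rw [← Real.norm_eq_abs]
  exact PiLp.norm_apply_le _ i

theorem rpow_far {q : ℝ} (hq : 0 < q) : Tendsto (fun x : E n => ‖x‖ ^ (-q)) (far n) (𝓝 0) :=
  (tendsto_rpow_neg_atTop hq).comp far_norm

theorem O.tendsto {q : ℝ} (hq : 0 < q) {f : E n → ℝ} (hf : O q f) : Tendsto f (far n) (𝓝 0) :=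
  IsBigO.trans_tendsto hf (rpow_far hq)

theorem O.small {q : ℝ} (hq : 0 < q) {f : E n → ℝ} (hf : O q f) {ε : ℝ} (hε : 0 < ε) :
    ∀ᶠ x in far n, |f x| ≤ ε := by
  have := (hf.tendsto hq).eventually (Metric.closedBall_mem_nhds 0 hε)
  filter_upwards [this] with x hx
  rw [← Real.norm_eq_abs]; simpa using hx

/-- `1 + O(q)` is bounded -/
theorem O.bdd {q : ℝ} (hq : 0 ≤ q) {f : E n → ℝ} {c : ℝ} (hf : O q (fun x => f x - c)) : O 0 f := by
  have := (hf.mono hq).add (O_const c)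
  exact this.congr (Eventually.of_forall fun x => by ring)

theorem O.inv {q : ℝ} (hq : 0 < q) {f : E n → ℝ} (hf : O q (fun x => f x - 1)) :
    O q (fun x => (f x)⁻¹ - 1) := by
  refine O.of_abs (hf.const_mul 2) ?_
  filter_upwards [hf.small hq (show (0 : ℝ) < 1 / 2 by norm_num)] with x hx
  have h1 : 1 / 2 ≤ f x := by have := (abs_le.mp hx).1; linarith
  have h0 : 0 < f x := by linarith
  have e : (f x)⁻¹ - 1 = -(f x - 1) / f x := by field_simp; ring
  rw [e, abs_div, abs_neg, abs_of_pos h0, abs_mul, abs_two, div_le_iff₀ h0]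
  nlinarith [abs_nonneg (f x - 1)]

theorem O.sqrt {q : ℝ} {f : E n → ℝ} (hf : O q (fun x => f x - 1)) :
    O q (fun x => √(f x) - 1) := by
  refine O.of_abs hf (Eventually.of_forall fun x => ?_)
  rcases le_or_gt 0 (f x) with h | h
  · have h1 : f x - 1 = (√(f x) - 1) * (√(f x) + 1) := by
      have := Real.mul_self_sqrt h; nlinarith
    rw [h1, abs_mul]
    have h2 : 1 ≤ |√(f x) + 1| := by
      rw [abs_of_nonneg (by have := Real.sqrt_nonneg (f x); linarith)]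
      have := Real.sqrt_nonneg (f x); linarith
    nlinarith [abs_nonneg (√(f x) - 1)]
  · rw [Real.sqrt_eq_zero_of_nonpos h.le]
    rw [abs_of_neg (by linarith : f x - 1 < 0)]
    rw [zero_sub, abs_neg, abs_one]; linarith

/-- entries of the inverse matrix -/
theorem O_inv_mat {q : ℝ} (hq : 0 < q) {g : E n → Matrix (Fin n) (Fin n) ℝ}
    (hdet : ∀ᶠ x in far n, (g x).det ≠ 0)
    (hg : ∀ i j, O q (fun x => g x i j - if i = j then 1 else 0)) (i j : Fin n) :
    O q (fun x => (g x)⁻¹ i j - if i = j then 1 else 0) := by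
  -- `V = 1 - h V`
  have hV : ∀ᶠ x in far n, ∀ i j, (g x)⁻¹ i j = (if i = j then 1 else 0) -
      ∑ k, (g x i k - if i = k then 1 else 0) * (g x)⁻¹ k j := by
    filter_upwards [hdet] with x hx i j
    have h1 : (g x * (g x)⁻¹) i j = (1 : Matrix (Fin n) (Fin n) ℝ) i j := by
      rw [Matrix.mul_nonsing_inv _ (isUnit_iff_ne_zero.mpr hx)]
    rw [Matrix.mul_apply, Matrix.one_apply] at h1
    simp only [sub_mul, ite_mul, one_mul, zero_mul, Finset.sum_sub_distrib, Finset.sum_ite_eq,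
      Finset.mem_univ, if_true]
    rw [h1]; ring
  have hbd : ∀ᶠ x in far n, ∑ i, ∑ j, |(g x)⁻¹ i j| ≤ 2 * (n * n) := by
    have hsm : ∀ᶠ x in far n, ∀ i k, |g x i k - if i = k then 1 else 0| ≤ 1 / (2 * (n + 1)) := by
      simp only [eventually_all]
      intro i k
      exact (hg i k).small hq (by positivity)
    filter_upwards [hV, hsm] with x h1 h2
    set S := ∑ i, ∑ j, |(g x)⁻¹ i j| with hS
    have hSn : 0 ≤ S := Finset.sum_nonneg fun i _ => Finset.sum_nonneg fun j _ => abs_nonneg _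
    have h3 : ∀ i j, |(g x)⁻¹ i j| ≤ 1 + 1 / (2 * (n + 1)) * ∑ k, |(g x)⁻¹ k j| := by
      intro i j
      rw [h1 i j]
      refine (abs_sub _ _).trans (add_le_add ?_ ?_)
      · split_ifs <;> simp
      · rw [Finset.mul_sum]
        refine (Finset.abs_sum_le_sum_abs _ _).trans (Finset.sum_le_sum fun k _ => ?_)
        rw [abs_mul]
        exact mul_le_mul_of_nonneg_right (h2 i k) (abs_nonneg _)
    have h4 : S ≤ ∑ i : Fin n, ∑ j, (1 + 1 / (2 * ((n : ℝ) + 1)) * ∑ k, |(g x)⁻¹ k j|) :=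
      Finset.sum_le_sum fun i _ => Finset.sum_le_sum fun j _ => h3 i j
    have h5 : ∑ i : Fin n, ∑ j, (1 + 1 / (2 * ((n : ℝ) + 1)) * ∑ k, |(g x)⁻¹ k j|) =
        n * n + n / (2 * ((n : ℝ) + 1)) * S := by
      rw [hS, Finset.sum_comm (f := fun i j => |(g x)⁻¹ i j|)]
      simp only [Finset.sum_add_distrib, ← Finset.mul_sum, Finset.sum_const, Finset.card_univ,
        Fintype.card_fin, nsmul_eq_mul, mul_one]
      ring
    rw [h5] at h4
    have h6 : (n : ℝ) / (2 * ((n : ℝ) + 1)) ≤ 1 / 2 := by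
      rw [div_le_div_iff₀ (by positivity) (by norm_num)]; linarith
    nlinarith
  have hVb : ∀ i j, O 0 (fun x => (g x)⁻¹ i j) := by
    intro i j
    refine O_of_le (C := 2 * (n * n)) (hbd.mono fun x hx => le_trans ?_ hx)
    calc |(g x)⁻¹ i j| ≤ ∑ j, |(g x)⁻¹ i j| :=
          Finset.single_le_sum (f := fun j => |(g x)⁻¹ i j|) (fun j _ => abs_nonneg _)
            (Finset.mem_univ j)
      _ ≤ ∑ i, ∑ j, |(g x)⁻¹ i j| :=
          Finset.single_le_sum (f := fun i => ∑ j, |(g x)⁻¹ i j|)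
            (fun i _ => Finset.sum_nonneg fun j _ => abs_nonneg _) (Finset.mem_univ i)
  have h7 : O q (fun x => -∑ k, (g x i k - if i = k then 1 else 0) * (g x)⁻¹ k j) :=
    O.neg (O.sum fun k _ => (hg i k).mul' (hVb k j) (by linarith))
  refine h7.congr ?_
  filter_upwards [hV] with x hx
  rw [hx i j]; ring

/-! ### functions of the null coordinates -/

/-- the derivative in `t` -/
def dT (G : ℝ × ℝ → ℝ) (p : ℝ × ℝ) : ℝ := fderiv ℝ G p (1, 1)

/-- the derivative in `ρ` -/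
def dX (G : ℝ × ℝ → ℝ) (p : ℝ × ℝ) : ℝ := fderiv ℝ G p (-1, 1)

theorem du_eq {G : ℝ × ℝ → ℝ} {p : ℝ × ℝ} (h : DifferentiableAt ℝ G p) :
    du G p = fderiv ℝ G p (1, 0) := h.lineDeriv_eq_fderiv

theorem dv_eq {G : ℝ × ℝ → ℝ} {p : ℝ × ℝ} (h : DifferentiableAt ℝ G p) :
    dv G p = fderiv ℝ G p (0, 1) := h.lineDeriv_eq_fderiv

theorem dT_eq {G : ℝ × ℝ → ℝ} {p : ℝ × ℝ} (h : DifferentiableAt ℝ G p) :
    dT G p = du G p + dv G p := by
  rw [du_eq h, dv_eq h, ← map_add]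
  unfold dT
  congr 1
  ext <;> simp

theorem dX_eq {G : ℝ × ℝ → ℝ} {p : ℝ × ℝ} (h : DifferentiableAt ℝ G p) :
    dX G p = dv G p - du G p := by
  rw [du_eq h, dv_eq h, ← map_sub]
  unfold dX
  congr 1
  ext <;> simp

theorem contDiffOn_dir {G : ℝ × ℝ → ℝ} {U : Set (ℝ × ℝ)} (hU : IsOpen U)
    (hG : ContDiffOn ℝ ∞ G U) (v : ℝ × ℝ) : ContDiffOn ℝ ∞ (fun p => fderiv ℝ G p v) U :=
  (hG.fderiv_of_isOpen hU (m := ∞) (by simp)).clm_apply contDiffOn_const

theorem diff_of {G : ℝ × ℝ → ℝ} {U : Set (ℝ × ℝ)} (hU : IsOpen U)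
    (hG : ContDiffOn ℝ ∞ G U) {p : ℝ × ℝ} (hp : p ∈ U) : DifferentiableAt ℝ G p :=
  (hG.differentiableOn (by simp)).differentiableAt (hU.mem_nhds hp)

theorem du_congr {G H : ℝ × ℝ → ℝ} {p : ℝ × ℝ} (h : G =ᶠ[𝓝 p] H) : du G p = du H p :=
  h.lineDeriv_eq

theorem dv_congr {G H : ℝ × ℝ → ℝ} {p : ℝ × ℝ} (h : G =ᶠ[𝓝 p] H) : dv G p = dv H p :=
  h.lineDeriv_eq

theorem contDiffOn_du {G : ℝ × ℝ → ℝ} {U : Set (ℝ × ℝ)} (hU : IsOpen U)
    (hG : ContDiffOn ℝ ∞ G U) : ContDiffOn ℝ ∞ (du G) U :=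
  (contDiffOn_dir hU hG (1, 0)).congr fun p hp => du_eq (diff_of hU hG hp)

theorem contDiffOn_dv {G : ℝ × ℝ → ℝ} {U : Set (ℝ × ℝ)} (hU : IsOpen U)
    (hG : ContDiffOn ℝ ∞ G U) : ContDiffOn ℝ ∞ (dv G) U :=
  (contDiffOn_dir hU hG (0, 1)).congr fun p hp => dv_eq (diff_of hU hG hp)

/-- the second derivatives commute -/
theorem du_dv_comm {G : ℝ × ℝ → ℝ} {U : Set (ℝ × ℝ)} (hU : IsOpen U)
    (hG : ContDiffOn ℝ ∞ G U) {p : ℝ × ℝ} (hp : p ∈ U) : dv (du G) p = du (dv G) p := by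
  have h1 : du G =ᶠ[𝓝 p] fun p => fderiv ℝ G p (1, 0) := by
    filter_upwards [hU.mem_nhds hp] with y hy using du_eq (diff_of hU hG hy)
  have h2 : dv G =ᶠ[𝓝 p] fun p => fderiv ℝ G p (0, 1) := by
    filter_upwards [hU.mem_nhds hp] with y hy using dv_eq (diff_of hU hG hy)
  rw [dv_congr h1, du_congr h2, dv_eq (diff_of hU (contDiffOn_dir hU hG _) hp),
    du_eq (diff_of hU (contDiffOn_dir hU hG _) hp)]
  have hfd : DifferentiableAt ℝ (fderiv ℝ G) p :=
    ((hG.fderiv_of_isOpen hU (m := ∞) (by simp)).differentiableOn (by simp)).differentiableAt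
      (hU.mem_nhds hp)
  have h3 : ∀ v w : ℝ × ℝ, fderiv ℝ (fun p => fderiv ℝ G p v) p w = fderiv ℝ (fderiv ℝ G) p w v := by
    intro v w
    rw [fderiv_clm_apply hfd (differentiableAt_const v)]
    simp
  rw [h3, h3]
  exact (ContDiffAt.isSymmSndFDerivAt ((hG.contDiffAt (hU.mem_nhds hp)).of_le (m := 2)
    (WithTop.coe_le_coe.2 le_top))
    (by simp)).eq _ _

/-- the null coordinates are differentiable off the origin -/
theorem hasFDerivAt_uv {f : E n → ℝ} {x : E n} (hx : x ≠ 0) (hf : DifferentiableAt ℝ f x) :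
    HasFDerivAt (uv f) ((fderiv ℝ f x - fderiv ℝ (fun y : E n => ‖y‖) x).prod
      (fderiv ℝ f x + fderiv ℝ (fun y : E n => ‖y‖) x)) x := by
  have hn : DifferentiableAt ℝ (fun y : E n => ‖y‖) x :=
    (contDiffAt_norm ℝ hx (n := 1)).differentiableAt (by norm_num)
  exact (hf.hasFDerivAt.sub hn.hasFDerivAt).prodMk (hf.hasFDerivAt.add hn.hasFDerivAt)

theorem fderiv_norm_apply {x : E n} (hx : x ≠ 0) (v : E n) :
    fderiv ℝ (fun y : E n => ‖y‖) x v = ⟪x, v⟫ / ‖x‖ := by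
  have h1 := fderiv_eq_sum_pd (fun y : E n => ‖y‖) x v
  rw [h1]
  simp only [pd_norm hx]
  rw [PiLp.inner_apply, Finset.sum_div]
  refine Finset.sum_congr rfl fun i _ => ?_
  unfold Nc
  simp
  ring

/-- the chain rule -/
theorem fderiv_uv {G : ℝ × ℝ → ℝ} {f : E n → ℝ} {x : E n} (hx : x ≠ 0)
    (hf : DifferentiableAt ℝ f x) (hG : DifferentiableAt ℝ G (uv f x)) (v : E n) :
    fderiv ℝ (fun y => G (uv f y)) x v = dT G (uv f x) * fderiv ℝ f x v +
      dX G (uv f x) * (⟪x, v⟫ / ‖x‖) := by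
  have h1 : HasFDerivAt (fun y => G (uv f y)) _ x := hG.hasFDerivAt.comp x (hasFDerivAt_uv hx hf)
  rw [h1.fderiv]
  simp only [ContinuousLinearMap.comp_apply, ContinuousLinearMap.prod_apply,
    sub_apply, add_apply, fderiv_norm_apply hx]
  unfold dT dX
  have e : ∀ a b : ℝ, ((a - b, a + b) : ℝ × ℝ) = a • (1, 1) + b • (-1, 1) := by
    intro a b; ext <;> simp <;> ring
  rw [e, map_add, map_smul, map_smul, smul_eq_mul, smul_eq_mul]
  ring

theorem diff_uv {G : ℝ × ℝ → ℝ} {f : E n → ℝ} {x : E n} (hx : x ≠ 0)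
    (hf : DifferentiableAt ℝ f x) (hG : DifferentiableAt ℝ G (uv f x)) :
    DifferentiableAt ℝ (fun y => G (uv f y)) x :=
  (hG.hasFDerivAt.comp x (hasFDerivAt_uv hx hf)).differentiableAt

theorem pd_uv {G : ℝ × ℝ → ℝ} {f : E n → ℝ} {x : E n} (hx : x ≠ 0)
    (hf : DifferentiableAt ℝ f x) (hG : DifferentiableAt ℝ G (uv f x)) (k : Fin n) :
    pd k (fun y => G (uv f y)) x = dT G (uv f x) * pd k f x + dX G (uv f x) * Nc k x := by
  unfold pd
  rw [fderiv_uv hx hf hG]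
  congr 2
  rw [EuclideanSpace.inner_single_right]
  simp [Nc]

end Vale.Agent.P366.T1.A919
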