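import Vale.Agent.P366.T1.A919c

/-! T1, block B4, part d: the decay of the slice function. -/

set_option linter.all false

open MeasureTheory Metric Filter Topology Set Asymptotics
open scoped ContDiff ENNReal RealInnerProductSpace

noncomputable section
namespace Vale.Agent.P366.T1.A919

variable {n : ℕ}

/-- the analytic content of asymptotic flatness along the slice -/
structure An (M : Spacetime) (f : E n → ℝ) (D : Stmt.Exterior n) (q : ℝ)
    (U : Set (ℝ × ℝ)) : Prop where
  q0 : 0 < q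
  openU : IsOpen U
  subU : U ⊆ M.Q
  mem : ∀ᶠ x in far n, uv f x ∈ U
  smF : ContDiffOn ℝ ∞ M.F U
  sms : ContDiffOn ℝ ∞ M.ratio U
  smf : ContDiff ℝ ∞ f
  F1 : O q (fun x : E n => M.F (uv f x) - 1)
  FT : O (q + 1) (fun x : E n => dT M.F (uv f x))
  FX : O (q + 1) (fun x : E n => dX M.F (uv f x))
  s1 : O q (fun x : E n => M.ratio (uv f x) - 1)
  sT : O (q + 1) (fun x : E n => dT M.ratio (uv f x))
  sX : O (q + 1) (fun x : E n => dX M.ratio (uv f x))
  suu : O (q + 1 + 1) (fun x : E n => du (du M.ratio) (uv f x))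
  suv : O (q + 1 + 1) (fun x : E n => du (dv M.ratio) (uv f x))
  svv : O (q + 1 + 1) (fun x : E n => dv (dv M.ratio) (uv f x))
  det : ∀ᶠ x in far n, (Stmt.mat D.g x).det ≠ 0
  g1 : ∀ i j, O q (fun x => D.g x i j - if i = j then 1 else 0)
  dg : ∀ i j k, O (q + 1) (Stmt.pd k fun x => D.g x i j)
  K1 : ∀ i j, O (q + 1) (fun x => D.K x i j)
  met : ∀ᶠ x in far n, ∀ i j, D.g x i j = sliceG M f x i j
  sff : ∀ᶠ x in far n, ∀ i j, D.K x i j = sliceK M f x i j

theorem isOpen_U (M : Spacetime) : IsOpen (M.Q ∩ {p : ℝ × ℝ | p.1 < p.2}) :=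
  M.isOpen.inter (isOpen_lt continuous_fst continuous_snd)

theorem smooth_ratio (M : Spacetime) :
    ContDiffOn ℝ ∞ M.ratio (M.Q ∩ {p : ℝ × ℝ | p.1 < p.2}) := by
  unfold Spacetime.ratio
  refine (M.smooth.2.mono inter_subset_left).div ?_ ?_
  · exact ((contDiff_snd.sub contDiff_fst).div_const 2).contDiffOn
  · rintro p ⟨-, hp⟩
    have : p.1 < p.2 := hp
    have h2 : 0 < (p.2 - p.1) / 2 := by linarith
    exact h2.ne'

theorem uv_rho (f : E n → ℝ) (x : E n) : ((uv f x).2 - (uv f x).1) / 2 = ‖x‖ := by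
  unfold uv Stmt.len; simp only; ring

theorem uv_t (f : E n → ℝ) (x : E n) : ((uv f x).2 + (uv f x).1) / 2 = f x := by
  unfold uv Stmt.len; simp only; ring

theorem an_of (hn : 3 ≤ n) (M : Spacetime) (hM : M.IsAF n) {f : E n → ℝ}
    {D : Stmt.Exterior n} (hS : IsSlice M f D)
    (hf : ∀ ε > 0, ∃ R, ∀ x : E n, R < Stmt.len x → |f x| ≤ ε * Stmt.len x) (hAF : D.IsAF) :
    ∃ q : ℝ, (n : ℝ) / 2 - 1 < q ∧ An M f D q (M.Q ∩ {p : ℝ × ℝ | p.1 < p.2}) := by
  obtain ⟨c, q1, C, R1, hc, hq1, hb⟩ := hM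
  obtain ⟨q2, hq2, hD⟩ := hAF
  have hn3 : (3 : ℝ) ≤ n := by exact_mod_cast hn
  have i0 : Fin n := ⟨0, by omega⟩
  have hDF : ∀ᶠ x in far n, 0 < D.F x := by
    obtain ⟨R, hR⟩ := D.dom.2.2.2
    exact far_of R hR
  have hft : ∀ᶠ x in far n, |f x| ≤ c * ‖x‖ := by
    obtain ⟨R, hR⟩ := hf c hc
    exact far_of R hR
  have hall := fun (x : E n) (h1 : R1 < ‖x‖) (h2 : |f x| ≤ c * ‖x‖) =>
    hb (uv f x) ‖x‖ (uv_rho f x).symm h1 (by rw [uv_t]; exact h2)
  have hmem : ∀ᶠ x in far n, uv f x ∈ M.Q ∩ {p : ℝ × ℝ | p.1 < p.2} := by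
    filter_upwards [hft, far_gt R1, far_gt 0] with x h1 h2 h3
    refine ⟨(hall x h2 h1).1, ?_⟩
    show f x - Stmt.len x < f x + Stmt.len x
    unfold Stmt.len; linarith
  have hsF : ContDiffOn ℝ ∞ M.F (M.Q ∩ {p : ℝ × ℝ | p.1 < p.2}) :=
    M.smooth.1.mono inter_subset_left
  have hss := smooth_ratio M
  have hU := isOpen_U M
  have mk : ∀ (q : ℝ) (h : E n → ℝ),
      (∀ x : E n, R1 < ‖x‖ → |f x| ≤ c * ‖x‖ → |h x| ≤ C * ‖x‖ ^ (-q)) → O q h := by
    intro q h h1
    refine O.of_bound (C := C) ?_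
    filter_upwards [hft, far_gt R1] with x h2 h3 using h1 x h3 h2
  have sub1 : ∀ {h : E n → ℝ}, O q1 h → O (min q1 q2) h := fun h => h.mono (min_le_left _ _)
  have sub1' : ∀ {h : E n → ℝ}, O (q1 + 1) h → O (min q1 q2 + 1) h := fun h =>
    h.mono (by have := min_le_left q1 q2; linarith)
  have sub1'' : ∀ {h : E n → ℝ}, O (q1 + 1 + 1) h → O (min q1 q2 + 1 + 1) h := fun h =>
    h.mono (by have := min_le_left q1 q2; linarith)
  have sub2 : ∀ {h : E n → ℝ}, O q2 h → O (min q1 q2) h := fun h => h.mono (min_le_right _ _)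
  have sub2' : ∀ {h : E n → ℝ}, O (q2 + 1) h → O (min q1 q2 + 1) h := fun h =>
    h.mono (by have := min_le_right q1 q2; linarith)
  have hFu : O (q1 + 1) (fun x : E n => du M.F (uv f x)) :=
    mk _ _ fun x h1 h2 => (hall x h1 h2).2.2.1
  have hFv : O (q1 + 1) (fun x : E n => dv M.F (uv f x)) :=
    mk _ _ fun x h1 h2 => (hall x h1 h2).2.2.2.1
  have hsu : O (q1 + 1) (fun x : E n => du M.ratio (uv f x)) :=
    mk _ _ fun x h1 h2 => (hall x h1 h2).2.2.2.2.2.1
  have hsv : O (q1 + 1) (fun x : E n => dv M.ratio (uv f x)) :=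
    mk _ _ fun x h1 h2 => (hall x h1 h2).2.2.2.2.2.2.1
  refine ⟨min q1 q2, lt_min hq1 hq2,
    { q0 := lt_of_lt_of_le (by linarith) (lt_min hq1 hq2).le
      openU := hU
      subU := inter_subset_left
      mem := hmem
      smF := hsF
      sms := hss
      smf := hS.smooth
      F1 := sub1 (mk _ _ fun x h1 h2 => (hall x h1 h2).2.1)
      FT := ?_
      FX := ?_
      s1 := sub1 (mk _ _ fun x h1 h2 => (hall x h1 h2).2.2.2.2.1)
      sT := ?_
      sX := ?_
      suu := sub1'' (mk _ _ fun x h1 h2 => (hall x h1 h2).2.2.2.2.2.2.2.1)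
      suv := sub1'' (mk _ _ fun x h1 h2 => (hall x h1 h2).2.2.2.2.2.2.2.2.1)
      svv := sub1'' (mk _ _ fun x h1 h2 => (hall x h1 h2).2.2.2.2.2.2.2.2.2)
      det := hDF.mono fun x hx => (D.pos x hx.le).det_pos.ne'
      g1 := fun i j => sub2 (O_of_bigO (hD i j i0 i0).1)
      dg := fun i j k => sub2' (O_of_bigO (hD i j k i0).2.1)
      K1 := fun i j => sub2' (O_of_bigO (hD i j i0 i0).2.2.2.1)
      met := (hDF.and (far_gt 0)).mono fun x hx => hS.met x (norm_pos_iff.1 hx.2) hx.1.le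
      sff := (hDF.and (far_gt 0)).mono fun x hx => hS.sff x (norm_pos_iff.1 hx.2) hx.1.le }⟩
  · refine sub1' ((hFu.add hFv).congr ?_)
    filter_upwards [hmem] with x hx
    exact (dT_eq (diff_of hU hsF hx)).symm
  · refine sub1' ((hFv.sub hFu).congr ?_)
    filter_upwards [hmem] with x hx
    exact (dX_eq (diff_of hU hsF hx)).symm
  · refine sub1' ((hsu.add hsv).congr ?_)
    filter_upwards [hmem] with x hx
    exact (dT_eq (diff_of hU hss hx)).symm
  · refine sub1' ((hsv.sub hsu).congr ?_)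
    filter_upwards [hmem] with x hx
    exact (dX_eq (diff_of hU hss hx)).symm

theorem O_sqrt_of_sq {q : ℝ} {h : E n → ℝ} (hh : O q (fun x => h x * h x)) : O (q / 2) h := by
  obtain ⟨C, R, hC, hR, hb⟩ := O_iff.mp hh
  refine O.of_bound (C := √C) (far_of R fun x hx => ?_)
  have hx0 : 0 < ‖x‖ := by linarith
  have h1 := hb x hx
  have h2 : |h x| ^ 2 ≤ (√C * ‖x‖ ^ (-(q / 2))) ^ 2 := by
    rw [mul_pow, Real.sq_sqrt hC, ← Real.rpow_natCast (‖x‖ ^ (-(q / 2))) 2, ← Real.rpow_mul hx0.le]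
    have e : -(q / 2) * ((2 : ℕ) : ℝ) = -q := by push_cast; ring
    rw [e, sq, ← abs_mul]
    exact h1
  exact (abs_le_of_sq_le_sq' h2 (by positivity)).2

namespace An

variable {M : Spacetime} {f : E n → ℝ} {D : Stmt.Exterior n} {q : ℝ} {U : Set (ℝ × ℝ)}

theorem fd (A : An M f D q U) : Differentiable ℝ f := A.smf.differentiable (by simp)

theorem spd (A : An M f D q U) (i : Fin n) : Stmt.pd i f = pd i f := pd_eq_of_smooth A.smf i

theorem smpd (A : An M f D q U) (i : Fin n) : ContDiff ℝ ∞ (pd i f) := by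
  rw [contDiff_iff_contDiffAt]
  exact fun x => Bridge.pd_smooth A.smf.contDiffAt i

theorem Fb (A : An M f D q U) : O 0 (fun x : E n => M.F (uv f x)) := A.F1.bdd A.q0.le

theorem sb (A : An M f D q U) : O 0 (fun x : E n => M.ratio (uv f x)) := A.s1.bdd A.q0.le

theorem s2 (A : An M f D q U) : O q (fun x : E n => M.ratio (uv f x) ^ 2 - 1) := by
  have h1 : O q (fun x : E n => (M.ratio (uv f x) - 1) * (M.ratio (uv f x) + 1)) :=
    A.s1.mul' (A.sb.add (O_const 1)) (by linarith)
  exact h1.congr (Eventually.of_forall fun x => by ring)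

theorem Finv (A : An M f D q U) : O q (fun x : E n => (M.F (uv f x))⁻¹ - 1) := A.F1.inv A.q0

theorem Finvb (A : An M f D q U) : O 0 (fun x : E n => (M.F (uv f x))⁻¹) := A.Finv.bdd A.q0.le

theorem up1 (A : An M f D q U) (i j : Fin n) :
    O q (fun x => Stmt.up D.g i j x - if i = j then 1 else 0) :=
  O_inv_mat A.q0 A.det A.g1 i j

theorem upb (A : An M f D q U) (i j : Fin n) : O 0 (fun x => Stmt.up D.g i j x) :=
  (A.up1 i j).bdd A.q0.le

theorem chr1 (A : An M f D q U) (k i j : Fin n) : O (q + 1) (Stmt.chr D.g k i j) := by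
  have h1 : O (q + 1) (fun x => (1 / 2 : ℝ) * ∑ l, Stmt.up D.g k l x *
      (Stmt.pd i (fun y => D.g y j l) x + Stmt.pd j (fun y => D.g y i l) x
        - Stmt.pd l (fun y => D.g y i j) x)) :=
    (O.sum fun l _ => (A.upb k l).mul' (((A.dg j l i).add (A.dg i l j)).sub (A.dg i j l))
      (by linarith)).const_mul _
  refine h1.congr (Eventually.of_forall fun x => ?_)
  unfold Stmt.chr
  ring

/-- the metric formula -/
theorem gform (A : An M f D q U) : ∀ᶠ x in far n, ∀ i j, D.g x i j =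
    M.F (uv f x) * (Nc i x * Nc j x) +
      M.ratio (uv f x) ^ 2 * ((if i = j then 1 else 0) - Nc i x * Nc j x) -
      M.F (uv f x) * (pd i f x * pd j f x) := by
  filter_upwards [A.met] with x hx i j
  rw [hx i j]
  unfold sliceG
  rw [A.spd i, A.spd j]
  have h1 : M.ratio (uv f x) = M.r (uv f x) / Stmt.len x := by
    unfold Spacetime.ratio
    rw [uv_rho]; rfl
  rw [h1]
  unfold Nc Stmt.len
  ring

/-- first decay of the first derivatives -/
theorem df1 (A : An M f D q U) (i : Fin n) : O (q / 2) (pd i f) := by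
  refine O_sqrt_of_sq ?_
  have h1 : O q (fun x => (M.F (uv f x))⁻¹ * ((M.F (uv f x) - 1) * (Nc i x * Nc i x) +
      (M.ratio (uv f x) ^ 2 - 1) * (1 - Nc i x * Nc i x) - (D.g x i i - if i = i then 1 else 0))) := by
    have hN : O 0 (fun x : E n => Nc i x * Nc i x) := (O_Nc i).mul' (O_Nc i) (by linarith)
    exact A.Finvb.mul' (((A.F1.mul' hN (by linarith)).add
      (A.s2.mul' ((O_const 1).sub hN) (by linarith))).sub (A.g1 i i)) (by linarith)
  refine h1.congr ?_
  filter_upwards [A.gform, A.mem] with x hx hm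
  have hF : M.F (uv f x) ≠ 0 := (M.pos _ (A.subU hm)).1.ne'
  rw [hx i i]
  simp only [if_true]
  field_simp
  ring

theorem df0 (A : An M f D q U) (i : Fin n) : O 0 (pd i f) :=
  (A.df1 i).mono (by have := A.q0; linarith)

theorem dff (A : An M f D q U) (i j : Fin n) : O q (fun x => pd i f x * pd j f x) :=
  (A.df1 i).mul' (A.df1 j) (by linarith)

theorem diffF (A : An M f D q U) : ∀ᶠ x in far n, DifferentiableAt ℝ (fun y => M.F (uv f y)) x := by
  filter_upwards [A.mem, far_gt 0] with x hx h0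
  exact diff_uv (norm_pos_iff.mp h0) (A.fd x) (diff_of A.openU A.smF hx)

/-- the derivatives of `F` along the slice -/
theorem pdF (A : An M f D q U) : ∀ᶠ x in far n, ∀ k, pd k (fun y => M.F (uv f y)) x =
    dT M.F (uv f x) * pd k f x + dX M.F (uv f x) * Nc k x := by
  filter_upwards [A.mem, far_gt 0] with x hx h0 k
  exact pd_uv (norm_pos_iff.mp h0) (A.fd x) (diff_of A.openU A.smF hx) k

theorem dF1 (A : An M f D q U) (k : Fin n) : O (q + 1) (pd k (fun y => M.F (uv f y))) := by
  have h1 := (A.FT.mul' (A.df0 k) (r := q + 1) (by linarith)).add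
    (A.FX.mul' (O_Nc k) (r := q + 1) (by linarith))
  exact h1.congr (A.pdF.mono fun x hx => (hx k).symm)

/-- the lapse tends to one -/
theorem lapse1 (A : An M f D q U) : O q (fun x => lapse M f x - 1) := by
  have h1 : O q (fun x => (M.F (uv f x) + ∑ i, ∑ j, Stmt.up (sliceG M f) i j x *
      shift M f i x * shift M f j x) - 1) := by
    have h2 : O q (fun x => (M.F (uv f x) - 1) + ∑ i, ∑ j, Stmt.up D.g i j x *
        (M.F (uv f x) * M.F (uv f x) * (pd i f x * pd j f x))) := by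
      refine A.F1.add (O.sum fun i _ => O.sum fun j _ => ?_)
      exact (A.upb i j).mul' ((A.Fb.mul' A.Fb (r := 0) (by linarith)).mul' (A.dff i j)
        (r := q) (by linarith)) (by linarith)
    refine h2.congr ?_
    filter_upwards [A.met] with x hx
    have h3 : Stmt.mat (sliceG M f) x = Stmt.mat D.g x := by
      ext i j; exact (hx i j).symm
    have h4 : ∀ i j, Stmt.up (sliceG M f) i j x = Stmt.up D.g i j x := by
      intro i j; unfold Stmt.up; rw [h3]
    simp only [h4, shift, A.spd]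
    have h5 : ∀ i j, Stmt.up D.g i j x * -(M.F (uv f x) * pd i f x) * -(M.F (uv f x) * pd j f x) =
        Stmt.up D.g i j x * (M.F (uv f x) * M.F (uv f x) * (pd i f x * pd j f x)) := by
      intro i j; ring
    simp only [h5]
    ring
  exact h1.sqrt

theorem lapse0 (A : An M f D q U) : ∀ᶠ x in far n, lapse M f x ≠ 0 := by
  filter_upwards [A.lapse1.small A.q0 (show (0 : ℝ) < 1 / 2 by norm_num)] with x hx
  have := (abs_le.mp hx).1
  intro h
  rw [h] at this
  linarith

/-- the Christoffel symbols of the slice -/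
theorem chr_slice (A : An M f D q U) : ∀ᶠ x in far n, ∀ k i j,
    Stmt.chr (sliceG M f) k i j x = Stmt.chr D.g k i j x := by
  filter_upwards [far_nhds A.met] with x hx k i j
  have h3 : Stmt.mat (sliceG M f) x = Stmt.mat D.g x := by
    ext i j; exact (hx.self_of_nhds i j).symm
  have h4 : ∀ i j, Stmt.up (sliceG M f) i j x = Stmt.up D.g i j x := by
    intro i j; unfold Stmt.up; rw [h3]
  have h5 : ∀ k i j, Stmt.pd k (fun y => sliceG M f y i j) x = Stmt.pd k (fun y => D.g y i j) x := by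
    intro k i j
    unfold Stmt.pd
    refine Filter.EventuallyEq.lineDeriv_eq ?_
    filter_upwards [hx] with y hy using (hy i j).symm
  unfold Stmt.chr
  simp only [h4, h5]

theorem symm2 (A : An M f D q U) (i j : Fin n) (x : E n) :
    pd i (pd j f) x = pd j (pd i f) x := by
  have hs : IsSymmSndFDerivAt ℝ f x :=
    ContDiffAt.isSymmSndFDerivAt ((A.smf.contDiffAt (x := x)).of_le (m := 2)
      (WithTop.coe_le_coe.2 le_top)) (by simp)
  have h1 : ∀ (a b : Fin n), pd a (pd b f) x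
      = fderiv ℝ (fderiv ℝ f) x (EuclideanSpace.single a 1) (EuclideanSpace.single b 1) := by
    intro a b
    have hd : DifferentiableAt ℝ (fderiv ℝ f) x :=
      (A.smf.fderiv_right (m := ∞) (by simp)).differentiable (by simp) x
    unfold pd
    rw [fderiv_clm_apply hd (differentiableAt_const _)]
    simp
  rw [h1, h1]
  exact hs _ _

/-- the formula for the second fundamental form -/
theorem Kform (A : An M f D q U) : ∀ᶠ x in far n, ∀ i j,
    M.F (uv f x) * pd i (pd j f) x = lapse M f x * D.K x i j - 1 / 2 * sliceGt M f x i j -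
      1 / 2 * (pd i (fun y => M.F (uv f y)) x * pd j f x +
        pd j (fun y => M.F (uv f y)) x * pd i f x) +
      1 / 2 * ∑ k, (Stmt.chr D.g k i j x + Stmt.chr D.g k j i x) * (M.F (uv f x) * pd k f x) := by
  filter_upwards [A.sff, A.lapse0, A.chr_slice, A.diffF] with x hK hl hc hd i j
  rw [hK i j]
  unfold sliceK
  have hs : ∀ i j, Stmt.pd i (shift M f j) x = -(pd i (fun y => M.F (uv f y)) x * pd j f x +
      M.F (uv f x) * pd i (pd j f) x) := by
    intro i j
    have hfd : DifferentiableAt ℝ (pd j f) x := (A.smpd j).differentiable (by simp) x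
    have e : shift M f j = fun y => (fun y => M.F (uv f y)) y * pd j f y * (-1) := by
      funext y; unfold shift; rw [A.spd]; ring
    have hm : DifferentiableAt ℝ (fun y => (fun y => M.F (uv f y)) y * pd j f y) x := hd.mul hfd
    rw [e, pd_eq (hm.mul_const _), pd_mul_const hm, pd_mul hd hfd]
    ring
  have hD : ∀ i j, dShift M f x i j = -(pd i (fun y => M.F (uv f y)) x * pd j f x +
      M.F (uv f x) * pd i (pd j f) x) + ∑ k, Stmt.chr D.g k i j x * (M.F (uv f x) * pd k f x) := by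
    intro i j
    unfold dShift
    rw [hs]
    simp only [hc, shift, A.spd]
    simp only [mul_neg, Finset.sum_neg_distrib]
    ring
  rw [hD, hD, A.symm2 j i]
  simp only [add_mul, Finset.sum_add_distrib]
  field_simp
  ring

theorem Gt_form (A : An M f D q U) : ∀ᶠ x in far n, ∀ i j,
    sliceGt M f x i j = dT M.F (uv f x) * (Nc i x * Nc j x - pd i f x * pd j f x) +
      2 * M.ratio (uv f x) * dT M.ratio (uv f x) * ((if i = j then 1 else 0) - Nc i x * Nc j x) := by
  filter_upwards [A.mem, far_gt 0] with x hx h0 i j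
  have hF := dT_eq (diff_of A.openU A.smF hx)
  have hs := diff_of A.openU A.sms hx
  -- `r = ρ ratio`
  have hr : M.r =ᶠ[𝓝 (uv f x)] fun p => (p.2 - p.1) / 2 * M.ratio p := by
    have h1 : ∀ᶠ p : ℝ × ℝ in 𝓝 (uv f x), p.1 < p.2 := by
      refine (isOpen_lt continuous_fst continuous_snd).mem_nhds ?_
      show f x - Stmt.len x < f x + Stmt.len x
      unfold Stmt.len; linarith
    filter_upwards [h1] with p hp
    unfold Spacetime.ratio
    have : p.2 - p.1 ≠ 0 := by
      have : 0 < p.2 - p.1 := by linarith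
      exact this.ne'
    field_simp
  have hrd : DifferentiableAt ℝ (fun p : ℝ × ℝ => (p.2 - p.1) / 2) (uv f x) := by fun_prop
  have hprod : DifferentiableAt ℝ (fun p : ℝ × ℝ => (p.2 - p.1) / 2 * M.ratio p) (uv f x) :=
    hrd.mul hs
  have hrT : du M.r (uv f x) + dv M.r (uv f x) = ‖x‖ * dT M.ratio (uv f x) := by
    rw [du_congr hr, dv_congr hr, ← dT_eq hprod]
    unfold dT
    rw [fderiv_fun_mul hrd hs]
    have h2 : fderiv ℝ (fun p : ℝ × ℝ => (p.2 - p.1) / 2) (uv f x) (1, 1) = 0 := by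
      have : HasFDerivAt (fun p : ℝ × ℝ => (p.2 - p.1) / 2)
          ((2 : ℝ)⁻¹ • (ContinuousLinearMap.snd ℝ ℝ ℝ - ContinuousLinearMap.fst ℝ ℝ ℝ)) (uv f x) := by
        have := ((hasFDerivAt_snd (𝕜 := ℝ) (p := uv f x)).sub
          (hasFDerivAt_fst (𝕜 := ℝ) (p := uv f x))).const_smul (2 : ℝ)⁻¹
        refine this.congr_of_eventuallyEq (Eventually.of_forall fun p => ?_)
        simp; ring
      rw [this.fderiv]; simp
    simp only [add_apply, smul_apply, smul_eq_mul, h2]
    rw [uv_rho]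
    ring
  have h1 : M.ratio (uv f x) = M.r (uv f x) / ‖x‖ := by
    unfold Spacetime.ratio
    rw [uv_rho]
  unfold sliceGt
  rw [hrT, ← hF, A.spd, A.spd, h1]
  unfold Nc Stmt.len
  have : ‖x‖ ≠ 0 := h0.ne'
  field_simp

theorem Gt1 (A : An M f D q U) (i j : Fin n) : O (q + 1) (fun x => sliceGt M f x i j) := by
  have hN : O 0 (fun x : E n => Nc i x * Nc j x) := (O_Nc i).mul' (O_Nc j) (by linarith)
  have hff : O 0 (fun x => pd i f x * pd j f x) := (A.df0 i).mul' (A.df0 j) (by linarith)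
  have h1 := (A.FT.mul' (hN.sub hff) (r := q + 1) (by linarith)).add
    (((A.sb.const_mul 2).mul' A.sT (r := q + 1) (by linarith)).mul'
      ((O_const (if i = j then 1 else 0)).sub hN) (r := q + 1) (by linarith))
  exact h1.congr (A.Gt_form.mono fun x hx => (hx i j).symm)

/-- decay of the second derivatives -/
theorem d2f (A : An M f D q U) (i j : Fin n) : O (q + 1) (pd i (pd j f)) := by
  have hl : O 0 (fun x => lapse M f x) := A.lapse1.bdd A.q0.le
  have h1 : O (q + 1) (fun x => (M.F (uv f x))⁻¹ *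
      (lapse M f x * D.K x i j - 1 / 2 * sliceGt M f x i j -
      1 / 2 * (pd i (fun y => M.F (uv f y)) x * pd j f x +
        pd j (fun y => M.F (uv f y)) x * pd i f x) +
      1 / 2 * ∑ k, (Stmt.chr D.g k i j x + Stmt.chr D.g k j i x) *
        (M.F (uv f x) * pd k f x))) := by
    refine A.Finvb.mul' (q := q + 1) ?_ (by linarith)
    refine (((hl.mul' (A.K1 i j) (by linarith)).sub ((A.Gt1 i j).const_mul _)).sub
      (((A.dF1 i).mul' (A.df0 j) (r := q + 1) (by linarith)).add
        ((A.dF1 j).mul' (A.df0 i) (by linarith)) |>.const_mul _)).add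
      ((O.sum fun k _ => ((A.chr1 k i j).add (A.chr1 k j i)).mul'
        (A.Fb.mul' (A.df0 k) (r := 0) (by linarith)) (by linarith)).const_mul _)
  refine h1.congr ?_
  filter_upwards [A.Kform, A.mem] with x hx hm
  have hF : M.F (uv f x) ≠ 0 := (M.pos _ (A.subU hm)).1.ne'
  rw [← hx i j, ← mul_assoc, inv_mul_cancel₀ hF, one_mul]

end An

end Vale.Agent.P366.T1.A919
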