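import Vale.Agent.P366.T1.A919d

/-! T1, block B4, part e: second decay of the slice function, oscillation over spheres. -/

set_option linter.all false

open MeasureTheory Metric Filter Topology Set Asymptotics
open scoped ContDiff ENNReal RealInnerProductSpace

noncomputable section
namespace Vale.Agent.P366.T1.A919

variable {n : ℕ}

/-- integration from infinity -/
theorem tail_bound {φ φ' : ℝ → ℝ} {ρ B q : ℝ} (hρ : 0 < ρ) (hq : 0 < q)
    (hd : ∀ s, ρ ≤ s → HasDerivAt φ (φ' s) s) (hb : ∀ s, ρ ≤ s → |φ' s| ≤ B * s ^ (-(q + 1)))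
    (hl : Tendsto φ atTop (𝓝 0)) : |φ ρ| ≤ B / q * ρ ^ (-q) := by
  set ψ : ℝ → ℝ := fun s => B / q * s ^ (-q) with hψ
  have hψd : ∀ s, ρ ≤ s → HasDerivAt ψ (-(B * s ^ (-(q + 1)))) s := by
    intro s hs
    have hs0 : 0 < s := lt_of_lt_of_le hρ hs
    have h1 := (Real.hasDerivAt_rpow_const (x := s) (p := -q) (Or.inl hs0.ne')).const_mul (B / q)
    have e : -(B * s ^ (-(q + 1))) = B / q * (-q * s ^ (-q - 1)) := by
      rw [show -q - 1 = -(q + 1) by ring]
      field_simp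
    rw [e]
    exact h1
  have hψl : Tendsto ψ atTop (𝓝 0) := by
    have := (tendsto_rpow_neg_atTop hq).const_mul (B / q)
    rwa [mul_zero] at this
  have key : ∀ ε : ℝ, |ε| = 1 → 0 ≤ ε * φ ρ + ψ ρ := by
    intro ε hε
    have hder : ∀ s, ρ ≤ s → HasDerivAt (fun s => ε * φ s + ψ s)
        (ε * φ' s + -(B * s ^ (-(q + 1)))) s := fun s hs =>
      ((hd s hs).const_mul ε).add (hψd s hs)
    have hanti : AntitoneOn (fun s => ε * φ s + ψ s) (Ici ρ) := by
      refine antitoneOn_of_deriv_nonpos (convex_Ici ρ) ?_ ?_ ?_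
      · exact fun s hs => (hder s hs).continuousAt.continuousWithinAt
      · intro s hs
        rw [interior_Ici] at hs
        exact (hder s (le_of_lt hs)).differentiableAt.differentiableWithinAt
      · intro s hs
        rw [interior_Ici] at hs
        rw [(hder s (le_of_lt hs)).deriv]
        have h1 := hb s (le_of_lt hs)
        have h2 : ε * φ' s ≤ |φ' s| := by
          calc ε * φ' s ≤ |ε * φ' s| := le_abs_self _
            _ = |φ' s| := by rw [abs_mul, hε, one_mul]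
        linarith
    have hlim : Tendsto (fun s => ε * φ s + ψ s) atTop (𝓝 0) := by
      have := (hl.const_mul ε).add hψl
      simpa using this
    refine le_of_tendsto hlim ?_
    filter_upwards [eventually_ge_atTop ρ] with s hs
    exact hanti (mem_Ici.mpr le_rfl) hs hs
  have h1 := key 1 (by simp)
  have h2 := key (-1) (by simp)
  rw [abs_le]
  constructor <;> simp only [hψ] at h1 h2 <;> linarith

theorem O.abs {q : ℝ} {f : E n → ℝ} (hf : O q f) : O q (fun x => |f x|) :=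
  O.of_abs hf (Eventually.of_forall fun x => by rw [_root_.abs_abs])

/-! rules for the derivatives in `t` and `ρ` -/

theorem dT_add {G H : ℝ × ℝ → ℝ} {p : ℝ × ℝ} (hG : DifferentiableAt ℝ G p)
    (hH : DifferentiableAt ℝ H p) : dT (fun p => G p + H p) p = dT G p + dT H p := by
  unfold dT; rw [fderiv_fun_add hG hH]; rfl

theorem dT_sub {G H : ℝ × ℝ → ℝ} {p : ℝ × ℝ} (hG : DifferentiableAt ℝ G p)
    (hH : DifferentiableAt ℝ H p) : dT (fun p => G p - H p) p = dT G p - dT H p := by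
  unfold dT; rw [fderiv_fun_sub hG hH]; rfl

theorem dT_mul {G H : ℝ × ℝ → ℝ} {p : ℝ × ℝ} (hG : DifferentiableAt ℝ G p)
    (hH : DifferentiableAt ℝ H p) :
    dT (fun p => G p * H p) p = dT G p * H p + G p * dT H p := by
  unfold dT; rw [fderiv_fun_mul hG hH]
  simp only [add_apply, smul_apply, smul_eq_mul]
  ring

theorem dX_mul {G H : ℝ × ℝ → ℝ} {p : ℝ × ℝ} (hG : DifferentiableAt ℝ G p)
    (hH : DifferentiableAt ℝ H p) :
    dX (fun p => G p * H p) p = dX G p * H p + G p * dX H p := by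
  unfold dX; rw [fderiv_fun_mul hG hH]
  simp only [add_apply, smul_apply, smul_eq_mul]
  ring

theorem dT_congr {G H : ℝ × ℝ → ℝ} {p : ℝ × ℝ} (h : G =ᶠ[𝓝 p] H) : dT G p = dT H p := by
  unfold dT; rw [h.fderiv_eq]

theorem dX_congr {G H : ℝ × ℝ → ℝ} {p : ℝ × ℝ} (h : G =ᶠ[𝓝 p] H) : dX G p = dX H p := by
  unfold dX; rw [h.fderiv_eq]

/-- the coordinate `ρ` -/
def rho (p : ℝ × ℝ) : ℝ := (p.2 - p.1) / 2

theorem hasFDerivAt_rho (p : ℝ × ℝ) : HasFDerivAt rho
    ((2 : ℝ)⁻¹ • (ContinuousLinearMap.snd ℝ ℝ ℝ - ContinuousLinearMap.fst ℝ ℝ ℝ)) p := by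
  have := ((hasFDerivAt_snd (𝕜 := ℝ) (p := p)).sub
    (hasFDerivAt_fst (𝕜 := ℝ) (p := p))).const_smul (2 : ℝ)⁻¹
  refine this.congr_of_eventuallyEq (Eventually.of_forall fun p => ?_)
  unfold rho; simp; ring

theorem smooth_rho : ContDiff ℝ ∞ rho := (contDiff_snd.sub contDiff_fst).div_const 2

theorem diff_rho (p : ℝ × ℝ) : DifferentiableAt ℝ rho p := (hasFDerivAt_rho p).differentiableAt

theorem dT_rho (p : ℝ × ℝ) : dT rho p = 0 := by
  unfold dT; rw [(hasFDerivAt_rho p).fderiv]; simp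

theorem dX_rho (p : ℝ × ℝ) : dX rho p = 1 := by
  unfold dX; rw [(hasFDerivAt_rho p).fderiv]; simp; norm_num

theorem rho_uv (f : E n → ℝ) (x : E n) : rho (uv f x) = ‖x‖ := uv_rho f x

namespace An

variable {M : Spacetime} {f : E n → ℝ} {D : Stmt.Exterior n} {q : ℝ} {U : Set (ℝ × ℝ)}

/-- second decay of the first derivatives -/
theorem df (A : An M f D q U) (i : Fin n) : O q (pd i f) := by
  have hS : O (q + 1) (fun x => ∑ j, |pd j (pd i f) x|) := O.sum fun j _ => (A.d2f j i).abs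
  obtain ⟨C, R, hC, hR, hb⟩ := O_iff.mp hS
  refine O.of_bound (C := C / q) (far_of R fun x hx => ?_)
  have hx0 : 0 < ‖x‖ := by linarith
  set u : E n := ‖x‖⁻¹ • x with hu
  have hun : ‖u‖ = 1 := by
    rw [hu, norm_smul, norm_inv, norm_norm, inv_mul_cancel₀ hx0.ne']
  have hxu : ‖x‖ • u = x := by rw [hu, smul_smul, mul_inv_cancel₀ hx0.ne', one_smul]
  have hsn : ∀ s : ℝ, 0 ≤ s → ‖s • u‖ = s := fun s hs => by
    rw [norm_smul, hun, mul_one, Real.norm_of_nonneg hs]
  have hd : ∀ s : ℝ, ‖x‖ ≤ s → HasDerivAt (fun s : ℝ => pd i f (s • u))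
      (fderiv ℝ (pd i f) (s • u) u) s := by
    intro s hs
    have h1 : HasDerivAt (fun s : ℝ => s • u) u s := by
      simpa using (hasDerivAt_id s).smul_const u
    exact ((A.smpd i).differentiable (by simp) (s • u)).hasFDerivAt.comp_hasDerivAt s h1
  have hui : ∀ j, |u j| ≤ 1 := fun j => by
    rw [← Real.norm_eq_abs, ← hun]; exact PiLp.norm_apply_le _ j
  have hbd : ∀ s : ℝ, ‖x‖ ≤ s → |fderiv ℝ (pd i f) (s • u) u| ≤ C * s ^ (-(q + 1)) := by
    intro s hs
    have hs0 : 0 ≤ s := hx0.le.trans hs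
    have h1 := hb (s • u) (by rw [hsn s hs0]; linarith)
    rw [hsn s hs0] at h1
    rw [fderiv_eq_sum_pd]
    refine le_trans ?_ ((le_abs_self _).trans h1)
    refine (Finset.abs_sum_le_sum_abs _ _).trans (Finset.sum_le_sum fun j _ => ?_)
    rw [abs_mul]
    calc |u j| * |pd j (pd i f) (s • u)| ≤ 1 * |pd j (pd i f) (s • u)| :=
          mul_le_mul_of_nonneg_right (hui j) (abs_nonneg _)
      _ = _ := one_mul _
  have hl : Tendsto (fun s : ℝ => pd i f (s • u)) atTop (𝓝 0) := by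
    have h1 := (A.df1 i).tendsto (by have := A.q0; linarith : 0 < q / 2)
    refine h1.comp ?_
    unfold far
    rw [tendsto_comap_iff]
    refine tendsto_id.congr' ?_
    filter_upwards [eventually_ge_atTop 0] with s hs
    exact (hsn s hs).symm
  have := tail_bound hx0 A.q0 hd hbd hl
  rwa [hxu] at this

/-- functions of the null coordinates are almost constant on the spheres of the slice -/
theorem osc (hn : 2 ≤ n) (A : An M f D q U) {G : ℝ × ℝ → ℝ} (hG : ContDiffOn ℝ ∞ G U) {p : ℝ}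
    (hT : O (p + 1) (fun x : E n => dT G (uv f x))) :
    ∃ C R : ℝ, 0 ≤ C ∧ 1 ≤ R ∧ ∀ x y : E n, R < ‖x‖ → ‖y‖ = ‖x‖ →
      |G (uv f x) - G (uv f y)| ≤ C * ‖x‖ ^ (-(p + q)) := by
  have hS : O q (fun x => ∑ j, |pd j f x|) := O.sum fun j _ => (A.df j).abs
  have hTS := hT.mul hS
  obtain ⟨C, R, hC, hR, hb⟩ := O_iff.mp hTS
  obtain ⟨R', hR'⟩ := far_iff.mp A.mem
  refine ⟨Real.pi * C, max R R', mul_nonneg Real.pi_pos.le hC, le_max_of_le_left hR, ?_⟩
  intro x y hx hy
  have hxR : R < ‖x‖ := lt_of_le_of_lt (le_max_left _ _) hx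
  have hxR' : R' < ‖x‖ := lt_of_le_of_lt (le_max_right _ _) hx
  have hx0 : 0 < ‖x‖ := by linarith
  have hdG : ∀ z : E n, ‖z‖ = ‖x‖ → DifferentiableAt ℝ G (uv f z) := fun z hz =>
    diff_of A.openU hG (hR' z (by rw [hz]; exact hxR'))
  have hz0 : ∀ z : E n, ‖z‖ = ‖x‖ → z ≠ 0 := fun z hz => by
    rw [← norm_pos_iff, hz]; exact hx0
  have h1 := osc_sphere hn hx0 (H := fun z => G (uv f z)) (L := C * ‖x‖ ^ (-(p + 1 + q)))
    (fun z hz => diff_uv (hz0 z hz) (A.fd z) (hdG z hz)) (fun z v hz hv hzv => by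
      rw [fderiv_uv (hz0 z hz) (A.fd z) (hdG z hz), hzv, zero_div, mul_zero, add_zero]
      have h2 := hb z (by rw [hz]; exact hxR)
      rw [hz] at h2
      refine le_trans ?_ h2
      rw [abs_mul, abs_mul]
      refine mul_le_mul_of_nonneg_left ?_ (abs_nonneg _)
      refine le_trans ?_ (le_abs_self _)
      rw [fderiv_eq_sum_pd]
      refine (Finset.abs_sum_le_sum_abs _ _).trans (Finset.sum_le_sum fun j _ => ?_)
      rw [abs_mul]
      have h3 : |v j| ≤ 1 := by
        rw [← Real.norm_eq_abs, ← hv]; exact PiLp.norm_apply_le _ j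
      calc |v j| * |pd j f z| ≤ 1 * |pd j f z| := mul_le_mul_of_nonneg_right h3 (abs_nonneg _)
        _ = _ := one_mul _) rfl hy
  refine h1.trans (le_of_eq ?_)
  have e : ‖x‖ ^ (-(p + q)) = ‖x‖ * ‖x‖ ^ (-(p + 1 + q)) := by
    have h2 := Real.rpow_add hx0 1 (-(p + 1 + q))
    rw [Real.rpow_one] at h2
    rw [← h2]
    congr 1; ring
  rw [e]; ring

theorem smdT (A : An M f D q U) {G : ℝ × ℝ → ℝ} (hG : ContDiffOn ℝ ∞ G U) :
    ContDiffOn ℝ ∞ (dT G) U := contDiffOn_dir A.openU hG (1, 1)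

theorem smdX (A : An M f D q U) {G : ℝ × ℝ → ℝ} (hG : ContDiffOn ℝ ∞ G U) :
    ContDiffOn ℝ ∞ (dX G) U := contDiffOn_dir A.openU hG (-1, 1)

theorem sTT (A : An M f D q U) : O (q + 1 + 1) (fun x : E n => dT (dT M.ratio) (uv f x)) := by
  have h1 : O (q + 1 + 1) (fun x : E n => du (du M.ratio) (uv f x) +
      (2 * du (dv M.ratio) (uv f x) + dv (dv M.ratio) (uv f x))) :=
    A.suu.add ((A.suv.const_mul 2).add A.svv)
  refine h1.congr ?_
  filter_upwards [A.mem] with x hx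
  have hu := contDiffOn_du A.openU A.sms
  have hv := contDiffOn_dv A.openU A.sms
  have h2 : dT M.ratio =ᶠ[𝓝 (uv f x)] fun p => du M.ratio p + dv M.ratio p := by
    filter_upwards [A.openU.mem_nhds hx] with y hy using dT_eq (diff_of A.openU A.sms hy)
  rw [dT_congr h2, dT_add (diff_of A.openU hu hx) (diff_of A.openU hv hx),
    dT_eq (diff_of A.openU hu hx), dT_eq (diff_of A.openU hv hx),
    du_dv_comm A.openU A.sms hx]
  ring

theorem sTX (A : An M f D q U) : O (q + 1 + 1) (fun x : E n => dT (dX M.ratio) (uv f x)) := by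
  have h1 : O (q + 1 + 1) (fun x : E n => dv (dv M.ratio) (uv f x) - du (du M.ratio) (uv f x)) :=
    A.svv.sub A.suu
  refine h1.congr ?_
  filter_upwards [A.mem] with x hx
  have hu := contDiffOn_du A.openU A.sms
  have hv := contDiffOn_dv A.openU A.sms
  have h2 : dX M.ratio =ᶠ[𝓝 (uv f x)] fun p => dv M.ratio p - du M.ratio p := by
    filter_upwards [A.openU.mem_nhds hx] with y hy using dX_eq (diff_of A.openU A.sms hy)
  rw [dT_congr h2, dT_sub (diff_of A.openU hv hx) (diff_of A.openU hu hx),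
    dT_eq (diff_of A.openU hu hx), dT_eq (diff_of A.openU hv hx),
    du_dv_comm A.openU A.sms hx]
  ring

/-- `r = ρ ratio` -/
theorem r_near (A : An M f D q U) {x : E n} (hx : 0 < ‖x‖) :
    M.r =ᶠ[𝓝 (uv f x)] fun p => rho p * M.ratio p := by
  have h1 : ∀ᶠ p : ℝ × ℝ in 𝓝 (uv f x), p.1 < p.2 := by
    refine (isOpen_lt continuous_fst continuous_snd).mem_nhds ?_
    show f x - Stmt.len x < f x + Stmt.len x
    unfold Stmt.len; linarith
  filter_upwards [h1] with p hp
  unfold Spacetime.ratio rho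
  have : p.2 - p.1 ≠ 0 := by
    have : 0 < p.2 - p.1 := by linarith
    exact this.ne'
  field_simp

theorem dr (A : An M f D q U) : ∀ᶠ x : E n in far n,
    M.r (uv f x) = ‖x‖ * M.ratio (uv f x) ∧
    du M.r (uv f x) = (‖x‖ * dT M.ratio (uv f x) - ‖x‖ * dX M.ratio (uv f x)
      - M.ratio (uv f x)) / 2 ∧
    dv M.r (uv f x) = (‖x‖ * dT M.ratio (uv f x) + ‖x‖ * dX M.ratio (uv f x)
      + M.ratio (uv f x)) / 2 := by
  filter_upwards [A.mem, far_gt 0] with x hx h0
  have hn := A.r_near h0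
  have hs := diff_of A.openU A.sms hx
  have hprod : DifferentiableAt ℝ (fun p : ℝ × ℝ => rho p * M.ratio p) (uv f x) :=
    (diff_rho _).mul hs
  have hrd : DifferentiableAt ℝ M.r (uv f x) := hprod.congr_of_eventuallyEq hn
  have hT : dT M.r (uv f x) = ‖x‖ * dT M.ratio (uv f x) := by
    rw [dT_congr hn, dT_mul (diff_rho _) hs, dT_rho, rho_uv]; ring
  have hX : dX M.r (uv f x) = ‖x‖ * dX M.ratio (uv f x) + M.ratio (uv f x) := by
    rw [dX_congr hn, dX_mul (diff_rho _) hs, dX_rho, rho_uv]; ring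
  rw [dT_eq hrd] at hT
  rw [dX_eq hrd] at hX
  refine ⟨?_, by linarith, by linarith⟩
  rw [hn.eq_of_nhds, rho_uv]

end An

end Vale.Agent.P366.T1.A919
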