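import Vale.Agent.P366.T1.A919a
import Vale.Agent.P366.T1.A919e

/-! T1, block B4, part f: the ADM energy is the limit of the mass function. -/

set_option linter.all false

open MeasureTheory Metric Filter Topology Set Asymptotics
open scoped ContDiff ENNReal RealInnerProductSpace

noncomputable section
namespace Vale.Agent.P366.T1.A919

variable {n : ℕ}

/-- the ADM energy integrand -/
def hE (D : Stmt.Exterior n) (x : E n) : ℝ :=
  ∑ i, (∑ j, (pd j (fun y => D.g y i j) x - pd i (fun y => D.g y j j) x)) / 2 * Nc i x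

/-- the leading part of the mass function -/
def Gm (M : Spacetime) (p : ℝ × ℝ) : ℝ :=
  M.F p - M.ratio p * M.ratio p - 2 * (M.ratio p * (rho p * dX M.ratio p))

theorem le_powers {a b : ℝ} {x : E n} (hx : 1 ≤ ‖x‖) (hab : a ≤ b) : ‖x‖ ^ a ≤ ‖x‖ ^ b :=
  Real.rpow_le_rpow_of_exponent_le hx hab

namespace An

variable {M : Spacetime} {f : E n → ℝ} {D : Stmt.Exterior n} {q : ℝ} {U : Set (ℝ × ℝ)}

theorem smG (A : An M f D q U) : ContDiffOn ℝ ∞ (Gm M) U := by
  unfold Gm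
  exact (A.smF.sub (A.sms.mul A.sms)).sub
    (contDiffOn_const.mul (A.sms.mul (smooth_rho.contDiffOn.mul (A.smdX A.sms))))

/-- `‖x‖ h = O(q)` for `h = O(q + 1)` -/
theorem O_norm_mul {p r : ℝ} {h : E n → ℝ} (hh : O p h) (hr : r ≤ p - 1) :
    O r (fun x => ‖x‖ * h x) := by
  have h1 : O (-1) (fun x : E n => ‖x‖) := by
    refine O.of_bound (C := 1) (far_of 0 fun x hx => ?_)
    rw [neg_neg, Real.rpow_one, one_mul, abs_norm]
  exact h1.mul' hh (by linarith)

theorem dTG (A : An M f D q U) : O (q + 1) (fun x : E n => dT (Gm M) (uv f x)) := by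
  have h1 : O (q + 1) (fun x : E n => dT M.F (uv f x) -
      2 * (M.ratio (uv f x) * dT M.ratio (uv f x)) -
      2 * (dT M.ratio (uv f x) * (‖x‖ * dX M.ratio (uv f x)) +
        M.ratio (uv f x) * (‖x‖ * dT (dX M.ratio) (uv f x)))) := by
    have hq := A.q0
    refine (A.FT.sub ((A.sb.mul' A.sT (by linarith)).const_mul 2)).sub
      (((A.sT.mul' (O_norm_mul A.sX (r := 0) (by linarith)) (by linarith)).add
        (A.sb.mul' (O_norm_mul A.sTX (r := q + 1) (by linarith)) (by linarith))).const_mul 2)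
  refine h1.congr ?_
  filter_upwards [A.mem] with x hx
  have dF := diff_of A.openU A.smF hx
  have ds := diff_of A.openU A.sms hx
  have dX1 := diff_of A.openU (A.smdX A.sms) hx
  have dr := diff_rho (uv f x)
  unfold Gm
  rw [dT_sub (dF.fun_sub (ds.fun_mul ds)) ((ds.fun_mul (dr.fun_mul dX1)).const_mul 2),
    dT_sub dF (ds.fun_mul ds), dT_mul ds ds]
  have h2 : dT (fun p => 2 * (M.ratio p * (rho p * dX M.ratio p))) (uv f x) =
      2 * dT (fun p => M.ratio p * (rho p * dX M.ratio p)) (uv f x) := by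
    unfold dT
    rw [fderiv_const_mul (ds.fun_mul (dr.fun_mul dX1))]
    rfl
  rw [h2, dT_mul ds (dr.fun_mul dX1), dT_mul dr dX1, dT_rho, rho_uv]
  ring

theorem oscG (hn : 2 ≤ n) (A : An M f D q U) : ∃ C R : ℝ, 0 ≤ C ∧ 1 ≤ R ∧
    ∀ x y : E n, R < ‖x‖ → ‖y‖ = ‖x‖ →
      |Gm M (uv f x) - Gm M (uv f y)| ≤ C * ‖x‖ ^ (-(q + q)) := A.osc hn A.smG A.dTG

/-- the metric error term -/
def Sij (M : Spacetime) (f : E n → ℝ) (i j : Fin n) (x : E n) : ℝ :=
  M.F (uv f x) * (pd i f x * pd j f x)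

theorem diffS (A : An M f D q U) : ∀ᶠ x : E n in far n, ∀ i j, DifferentiableAt ℝ (Sij M f i j) x := by
  filter_upwards [A.diffF] with x hx i j
  exact hx.fun_mul (((A.smpd i).differentiable (by simp) x).fun_mul
    ((A.smpd j).differentiable (by simp) x))

theorem dS (A : An M f D q U) (i j k : Fin n) : O (q + q + 1) (pd k (Sij M f i j)) := by
  have hq := A.q0
  have h1 : O (q + q + 1) (fun x => pd k (fun y => M.F (uv f y)) x * (pd i f x * pd j f x) +
      M.F (uv f x) * (pd k (pd i f) x * pd j f x + pd i f x * pd k (pd j f) x)) := by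
    refine ((A.dF1 k).mul' ((A.df i).mul' (A.df j) (r := q) (by linarith)) (by linarith)).add
      (A.Fb.mul' (q := q + q + 1) (((A.d2f k i).mul' (A.df j) (by linarith)).add
        ((A.df i).mul' (A.d2f k j) (by linarith))) (by linarith))
  refine h1.congr ?_
  filter_upwards [A.diffF] with x hx
  have d1 := (A.smpd i).differentiable (by simp) x
  have d2 := (A.smpd j).differentiable (by simp) x
  have h2 : Sij M f i j = fun x => (fun y => M.F (uv f y)) x * (fun x => pd i f x * pd j f x) x := rfl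
  rw [h2, pd_mul hx (d1.fun_mul d2), pd_mul d1 d2]
  ring

/-- the energy integrand against the leading part of the mass function -/
theorem hE_near (A : An M f D q U) : O (q + q + 1)
    (fun x => hE D x - ((n : ℝ) - 1) / 2 * (Gm M (uv f x) / ‖x‖)) := by
  have hq := A.q0
  have h1 : O (q + q + 1) (fun x : E n => -(((n : ℝ) - 1) / 2 *
      (2 * (M.ratio (uv f x) * dT M.ratio (uv f x) * ∑ k, Nc k x * pd k f x))) -
      ∑ i, (∑ j, (pd j (Sij M f i j) x - pd i (Sij M f j j) x)) / 2 * Nc i x) := by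
    refine (O.neg (O.const_mul _ (O.const_mul _ ?_))).sub (O.sum fun i _ => ?_)
    · exact (A.sb.mul' A.sT (r := q + 1) (by linarith)).mul'
        (O.sum fun k _ => (O_Nc k).mul' (A.df k) (r := q) (by linarith)) (by linarith)
    · have h2 : O (q + q + 1) (fun x => ∑ j, (pd j (Sij M f i j) x - pd i (Sij M f j j) x)) :=
        O.sum fun j _ => (A.dS i j j).sub (A.dS j j i)
      have h3 := (h2.const_mul (1 / 2)).mul' (O_Nc i) (r := q + q + 1) (by linarith)
      exact h3.congr (Eventually.of_forall fun x => by ring)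
  refine h1.congr ?_
  filter_upwards [far_nhds A.gform, A.diffF, A.diffS, A.mem, far_gt 0] with x hg hdF hdS hm h0
  have hx0 : x ≠ 0 := norm_pos_iff.mp h0
  have ds := diff_of A.openU A.sms hm
  have hds : DifferentiableAt ℝ (fun y => M.ratio (uv f y) * M.ratio (uv f y)) x :=
    (diff_uv hx0 (A.fd x) ds).fun_mul (diff_uv hx0 (A.fd x) ds)
  have hE1 := energy_pt (g := fun i j y => D.g y i j) (A := fun y => M.ratio (uv f y) * M.ratio (uv f y))
    (B := fun y => M.F (uv f y)) (S := Sij M f) hx0 hds hdF hdS (fun i j => by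
      filter_upwards [hg] with y hy
      rw [hy i j]
      unfold Sij
      ring)
  have hE2 : hE D x = _ := hE1
  rw [hE2]
  have h4 : ∀ k, pd k (fun y => M.ratio (uv f y) * M.ratio (uv f y)) x =
      2 * (M.ratio (uv f x) * dT M.ratio (uv f x)) * pd k f x +
      2 * (M.ratio (uv f x) * dX M.ratio (uv f x)) * Nc k x := by
    intro k
    have h5 := pd_uv (G := fun p => M.ratio p * M.ratio p) hx0 (A.fd x) (ds.fun_mul ds) k
    rw [h5, dT_mul ds ds, dX_mul ds ds]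
    ring
  have hN : ∑ i, Nc i x * Nc i x = 1 := by
    rw [← sum_Nc_sq hx0]; exact Finset.sum_congr rfl fun i _ => (sq _).symm
  have h6 : ∑ k, Nc k x * pd k (fun y => M.ratio (uv f y) * M.ratio (uv f y)) x =
      2 * (M.ratio (uv f x) * dT M.ratio (uv f x)) * (∑ k, Nc k x * pd k f x) +
      2 * (M.ratio (uv f x) * dX M.ratio (uv f x)) := by
    simp only [h4]
    have h7 : ∀ k, Nc k x * (2 * (M.ratio (uv f x) * dT M.ratio (uv f x)) * pd k f x +
        2 * (M.ratio (uv f x) * dX M.ratio (uv f x)) * Nc k x) =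
        2 * (M.ratio (uv f x) * dT M.ratio (uv f x)) * (Nc k x * pd k f x) +
        2 * (M.ratio (uv f x) * dX M.ratio (uv f x)) * (Nc k x * Nc k x) := by
      intro k; ring
    simp only [h7, Finset.sum_add_distrib, ← Finset.mul_sum, hN]
    ring
  rw [h6]
  unfold Gm
  rw [rho_uv]
  have := h0.ne'
  field_simp
  ring

/-- the mass function against its leading part -/
theorem mass_lead (A : An M f D q U) : ∃ C R : ℝ, 0 ≤ C ∧ 1 ≤ R ∧ ∀ x : E n, R < ‖x‖ →
    |M.mass n (uv f x) - 1 / 2 * ‖x‖ ^ (n - 2) * Gm M (uv f x)| ≤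
      C * (‖x‖ ^ (n - 2) * ‖x‖ ^ (-(q + q))) := by
  obtain ⟨C0, hC0, hmn⟩ := mass_near (n - 2)
  have hq := A.q0
  have hO : O q (fun x : E n => |M.ratio (uv f x) - 1| + |M.F (uv f x) - 1| +
      |‖x‖ * dX M.ratio (uv f x)| + |‖x‖ * dT M.ratio (uv f x)|) :=
    ((A.s1.abs.add A.F1.abs).add (O_norm_mul A.sX (by linarith)).abs).add
      (O_norm_mul A.sT (by linarith)).abs
  obtain ⟨C1, R1, hC1, hR1, hb⟩ := O_iff.mp hO
  obtain ⟨R2, hsm⟩ := far_iff.mp (hO.small hq (show (0 : ℝ) < 1 / 2 by norm_num))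
  obtain ⟨R3, hR3⟩ := far_iff.mp A.dr
  obtain ⟨R4, hR4⟩ := far_iff.mp A.mem
  refine ⟨1 / 2 * (C0 * C1 ^ 2), max (max R1 R2) (max R3 R4), by positivity,
    le_trans hR1 ((le_max_left _ _).trans (le_max_left _ _)), ?_⟩
  intro x hx
  have hx1 : R1 < ‖x‖ := lt_of_le_of_lt ((le_max_left _ _).trans (le_max_left _ _)) hx
  have hx2 : R2 < ‖x‖ := lt_of_le_of_lt ((le_max_right _ _).trans (le_max_left _ _)) hx
  have hx3 : R3 < ‖x‖ := lt_of_le_of_lt ((le_max_left _ _).trans (le_max_right _ _)) hx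
  have hx4 : R4 < ‖x‖ := lt_of_le_of_lt ((le_max_right _ _).trans (le_max_right _ _)) hx
  have h0 : 0 < ‖x‖ := by linarith
  have hb1 := hb x hx1
  have hs1 := hsm x hx2
  obtain ⟨hr, hu, hv⟩ := hR3 x hx3
  have hF : M.F (uv f x) ≠ 0 := (M.pos _ (A.subU (hR4 x hx4))).1.ne'
  set δ := |M.ratio (uv f x) - 1| + |M.F (uv f x) - 1| +
      |‖x‖ * dX M.ratio (uv f x)| + |‖x‖ * dT M.ratio (uv f x)| with hδ
  have n1 := abs_nonneg (M.ratio (uv f x) - 1)
  have n2 := abs_nonneg (M.F (uv f x) - 1)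
  have n3 := abs_nonneg (‖x‖ * dX M.ratio (uv f x))
  have n4 := abs_nonneg (‖x‖ * dT M.ratio (uv f x))
  have hδ0 : 0 ≤ δ := by rw [hδ]; positivity
  rw [abs_of_nonneg hδ0] at hb1 hs1
  have key := hmn δ (M.ratio (uv f x)) (M.F (uv f x)) (‖x‖ * dX M.ratio (uv f x))
    (‖x‖ * dT M.ratio (uv f x)) hδ0 hs1 (by rw [hδ]; linarith) (by rw [hδ]; linarith)
    (by rw [hδ]; linarith) (by rw [hδ]; linarith)
  have e1 : M.mass n (uv f x) - 1 / 2 * ‖x‖ ^ (n - 2) * Gm M (uv f x) =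
      1 / 2 * ‖x‖ ^ (n - 2) * (M.ratio (uv f x) ^ (n - 2) *
        (1 - ((M.ratio (uv f x) + ‖x‖ * dX M.ratio (uv f x)) ^ 2 -
          (‖x‖ * dT M.ratio (uv f x)) ^ 2) / M.F (uv f x)) -
        (M.F (uv f x) - M.ratio (uv f x) ^ 2 - 2 * M.ratio (uv f x) *
          (‖x‖ * dX M.ratio (uv f x)))) := by
    unfold Spacetime.mass Gm
    rw [hu, hv, hr, rho_uv, mul_pow]
    field_simp
    ring
  rw [e1, abs_mul, abs_of_pos (by positivity : (0 : ℝ) < 1 / 2 * ‖x‖ ^ (n - 2))]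
  have h2 : δ ^ 2 ≤ C1 ^ 2 * ‖x‖ ^ (-(q + q)) := by
    have h3 : δ ^ 2 ≤ (C1 * ‖x‖ ^ (-q)) ^ 2 := pow_le_pow_left₀ hδ0 hb1 2
    rw [mul_pow] at h3
    have h4 : (‖x‖ ^ (-q)) ^ 2 = ‖x‖ ^ (-(q + q)) := by
      rw [sq, ← Real.rpow_add h0]; congr 1; ring
    rwa [h4] at h3
  calc 1 / 2 * ‖x‖ ^ (n - 2) * _ ≤ 1 / 2 * ‖x‖ ^ (n - 2) * (C0 * δ ^ 2) :=
        mul_le_mul_of_nonneg_left key (by positivity)
    _ ≤ 1 / 2 * ‖x‖ ^ (n - 2) * (C0 * (C1 ^ 2 * ‖x‖ ^ (-(q + q)))) :=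
        mul_le_mul_of_nonneg_left (mul_le_mul_of_nonneg_left h2 hC0) (by positivity)
    _ = _ := by ring

/-- the energy integrand against the mass function at any point of the sphere -/
theorem hE_mass (hn : 3 ≤ n) (A : An M f D q U) : ∃ C R : ℝ, 0 ≤ C ∧ 1 ≤ R ∧
    ∀ x y : E n, R < ‖x‖ → ‖y‖ = ‖x‖ →
      |‖x‖ ^ (n - 1) * hE D x - ((n : ℝ) - 1) * M.mass n (uv f y)| ≤
        C * (‖x‖ ^ (n - 2) * ‖x‖ ^ (-(q + q))) := by
  obtain ⟨C1, R1, hC1, hR1, h1⟩ := O_iff.mp A.hE_near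
  obtain ⟨C2, R2, hC2, hR2, h2⟩ := A.mass_lead
  obtain ⟨C3, R3, hC3, hR3, h3⟩ := A.oscG (by omega)
  have hn1 : (0 : ℝ) ≤ (n : ℝ) - 1 := by
    have : (3 : ℝ) ≤ n := by exact_mod_cast hn
    linarith
  refine ⟨C1 + ((n : ℝ) - 1) / 2 * C3 + ((n : ℝ) - 1) * C2, max R1 (max R2 R3), by positivity,
    le_max_of_le_left hR1, ?_⟩
  intro x y hx hy
  have hx1 : R1 < ‖x‖ := lt_of_le_of_lt (le_max_left _ _) hx
  have hx2 : R2 < ‖x‖ := lt_of_le_of_lt ((le_max_left _ _).trans (le_max_right _ _)) hx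
  have hx3 : R3 < ‖x‖ := lt_of_le_of_lt ((le_max_right _ _).trans (le_max_right _ _)) hx
  have h0 : 0 < ‖x‖ := by linarith
  have k1 := h1 x hx1
  have k2 := h2 y (by rw [hy]; exact hx2)
  have k3 := h3 x y hx3 hy
  rw [hy] at k2
  have e1 : ‖x‖ ^ (n - 1) = ‖x‖ ^ (n - 2) * ‖x‖ := by
    rw [← pow_succ]; congr 1; omega
  have e2 : ‖x‖ ^ (-(q + q + 1)) * ‖x‖ = ‖x‖ ^ (-(q + q)) := by
    have := Real.rpow_add h0 (-(q + q + 1)) 1
    rw [Real.rpow_one] at this
    rw [← this]; congr 1; ring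
  set N := ‖x‖ ^ (n - 2) with hN
  have hN0 : 0 < N := by rw [hN]; positivity
  set T := ‖x‖ ^ (-(q + q)) with hT
  have e3 : ‖x‖ ^ (n - 1) * hE D x - ((n : ℝ) - 1) * M.mass n (uv f y) =
      N * ‖x‖ * (hE D x - ((n : ℝ) - 1) / 2 * (Gm M (uv f x) / ‖x‖)) +
      ((n : ℝ) - 1) / 2 * N * (Gm M (uv f x) - Gm M (uv f y)) -
      ((n : ℝ) - 1) * (M.mass n (uv f y) - 1 / 2 * N * Gm M (uv f y)) := by
    rw [e1]
    field_simp
    ring
  rw [e3]
  have a1 : |N * ‖x‖ * (hE D x - ((n : ℝ) - 1) / 2 * (Gm M (uv f x) / ‖x‖))| ≤ C1 * (N * T) := by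
    rw [abs_mul, abs_of_pos (by positivity : 0 < N * ‖x‖)]
    calc N * ‖x‖ * _ ≤ N * ‖x‖ * (C1 * ‖x‖ ^ (-(q + q + 1))) :=
          mul_le_mul_of_nonneg_left k1 (by positivity)
      _ = C1 * (N * (‖x‖ ^ (-(q + q + 1)) * ‖x‖)) := by ring
      _ = C1 * (N * T) := by rw [e2]
  have a2 : |((n : ℝ) - 1) / 2 * N * (Gm M (uv f x) - Gm M (uv f y))| ≤
      ((n : ℝ) - 1) / 2 * C3 * (N * T) := by
    rw [abs_mul, abs_of_nonneg (by positivity : 0 ≤ ((n : ℝ) - 1) / 2 * N)]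
    calc ((n : ℝ) - 1) / 2 * N * _ ≤ ((n : ℝ) - 1) / 2 * N * (C3 * T) :=
          mul_le_mul_of_nonneg_left k3 (by positivity)
      _ = _ := by ring
  have a3 : |((n : ℝ) - 1) * (M.mass n (uv f y) - 1 / 2 * N * Gm M (uv f y))| ≤
      ((n : ℝ) - 1) * C2 * (N * T) := by
    rw [abs_mul, abs_of_nonneg hn1]
    calc ((n : ℝ) - 1) * _ ≤ ((n : ℝ) - 1) * (C2 * (N * T)) :=
          mul_le_mul_of_nonneg_left k2 hn1
      _ = _ := by ring
  calc _ ≤ C1 * (N * T) + ((n : ℝ) - 1) / 2 * C3 * (N * T) + ((n : ℝ) - 1) * C2 * (N * T) := by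
        refine (abs_sub _ _).trans (add_le_add ((abs_add_le _ _).trans (add_le_add a1 a2)) a3)
    _ = _ := by ring

theorem tend_pow (hn : 3 ≤ n) (hq : (n : ℝ) / 2 - 1 < q) :
    Tendsto (fun R : ℝ => R ^ (n - 2) * R ^ (-(q + q))) atTop (𝓝 0) := by
  have h1 : 0 < q + q - ((n : ℝ) - 2) := by linarith
  refine (tendsto_rpow_neg_atTop h1).congr' ?_
  filter_upwards [eventually_gt_atTop 0] with R hR
  rw [← Real.rpow_natCast R (n - 2), ← Real.rpow_add hR]
  congr 1
  rw [Nat.cast_sub (by omega)]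
  push_cast
  ring

/-- the energy is the limit of the mass function along any family of points of the spheres -/
theorem mass_lim (hn : 3 ≤ n) (A : An M f D q U) (hq : (n : ℝ) / 2 - 1 < q) {m : ℝ}
    (hm : D.IsEnergy m) (x : E n) (hx : x ≠ 0) :
    Tendsto (fun s : ℝ => M.mass n (uv f (s • x))) atTop (𝓝 m) := by
  haveI : Nonempty (Fin n) := ⟨⟨0, by omega⟩⟩
  haveI : Nontrivial (E n) := inferInstance
  obtain ⟨C, R0, hC, hR0, hb⟩ := A.hE_mass hn
  have hn1 : (0 : ℝ) < (n : ℝ) - 1 := by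
    have : (3 : ℝ) ≤ n := by exact_mod_cast hn
    linarith
  have hx0 : 0 < ‖x‖ := norm_pos_iff.mpr hx
  -- the radii
  have hrad : Tendsto (fun s : ℝ => s * ‖x‖) atTop atTop := tendsto_id.atTop_mul_const hx0
  have hE' : Tendsto (fun R : ℝ => sphInt R (hE D) / (((n : ℝ) - 1) * omega n)) atTop (𝓝 m) := by
    refine Tendsto.congr (fun R => ?_) hm
    rw [flx_eq]
    congr 1
    congr 1
    funext y
    refine Finset.sum_congr rfl fun i _ => ?_
    rw [Finset.sum_congr rfl fun j _ => by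
      rw [pd_eq_of_smooth (D.smooth i j).1, pd_eq_of_smooth (D.smooth j j).1]]
    rfl
  have hcont : ContinuousOn (hE D) {y : E n | 0 < ‖y‖} := by
    unfold hE
    refine continuousOn_finsetSum _ fun i _ => ContinuousOn.mul ?_ ?_
    · refine ContinuousOn.div_const (continuousOn_finsetSum _ fun j _ => ?_) 2
      have hc : ∀ a b c, Continuous (pd a (fun y => D.g y b c)) := fun a b c =>
        continuous_iff_continuousAt.mpr fun y =>
          (Bridge.pd_smooth (D.smooth b c).1.contDiffAt a).continuousAt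
      exact ((hc _ _ _).sub (hc _ _ _)).continuousOn
    · intro y hy
      exact (contDiffAt_Nc (m := 1) i (norm_pos_iff.mp hy)).continuousAt.continuousWithinAt
  have hlim2 : Tendsto (fun s : ℝ => C / ((n : ℝ) - 1) *
      ((s * ‖x‖) ^ (n - 2) * (s * ‖x‖) ^ (-(q + q)))) atTop (𝓝 0) := by
    have := ((tend_pow hn hq).comp hrad).const_mul (C / ((n : ℝ) - 1))
    rwa [mul_zero] at this
  have hdiff : Tendsto (fun s : ℝ => sphInt (s * ‖x‖) (hE D) / (((n : ℝ) - 1) * omega n) -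
      M.mass n (uv f (s • x))) atTop (𝓝 0) := by
    refine squeeze_zero_norm' ?_ hlim2
    filter_upwards [hrad.eventually (eventually_gt_atTop R0), eventually_gt_atTop 0] with s hs hs0
    have hR : 0 < s * ‖x‖ := by positivity
    have hns : ‖s • x‖ = s * ‖x‖ := by rw [norm_smul, Real.norm_of_nonneg hs0.le]
    rw [Real.norm_eq_abs]
    refine avg_close (by omega) hR (integrable_sph (b := 0) le_rfl hR hcont) ?_
    intro y hy
    have h1 := hb y (s • x) (by rw [hy]; exact hs) (by rw [hy, hns])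
    rw [hy] at h1
    refine h1.trans (le_of_eq ?_)
    field_simp
  have h3 := (hE'.comp hrad).sub hdiff
  rw [sub_zero] at h3
  refine h3.congr fun s => ?_
  simp only [Function.comp]
  ring

end An

end Vale.Agent.P366.T1.A919
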