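import Vale.Agent.P366.T1.A919f

/-! T1, block B4, part g: the ADM momentum vanishes. -/

set_option linter.all false

open MeasureTheory Metric Filter Topology Set Asymptotics
open scoped ContDiff ENNReal RealInnerProductSpace

noncomputable section
namespace Vale.Agent.P366.T1.A919

variable {n : ℕ}

theorem symm_pd {f : E n → ℝ} (hf : ContDiff ℝ ∞ f) (i j : Fin n) (x : E n) :
    pd i (pd j f) x = pd j (pd i f) x := by
  have hs : IsSymmSndFDerivAt ℝ f x :=
    ContDiffAt.isSymmSndFDerivAt ((hf.contDiffAt (x := x)).of_le (m := 2)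
      (WithTop.coe_le_coe.2 le_top)) (by simp)
  have h1 : ∀ (a b : Fin n), pd a (pd b f) x
      = fderiv ℝ (fderiv ℝ f) x (EuclideanSpace.single a 1) (EuclideanSpace.single b 1) := by
    intro a b
    have hd : DifferentiableAt ℝ (fderiv ℝ f) x :=
      (hf.fderiv_right (m := ∞) (by simp)).differentiable (by simp) x
    unfold pd
    rw [fderiv_clm_apply hd (differentiableAt_const _)]
    simp
  rw [h1, h1]
  exact hs _ _

theorem smooth_pd {f : E n → ℝ} (hf : ContDiff ℝ ∞ f) (i : Fin n) : ContDiff ℝ ∞ (pd i f) := by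
  rw [contDiff_iff_contDiffAt]
  exact fun x => Bridge.pd_smooth hf.contDiffAt i

/-- an integral over a sphere near a function with zero integral -/
theorem sphI_le {R B : ℝ} (hR : 0 ≤ R) (hB : 0 ≤ B) {h h0 : E n → ℝ}
    (hi : Integrable (fun θ : sphere (0 : E n) 1 => h0 (R • (θ : E n))) (sphM n))
    (h00 : sphI h0 R = 0) (hb : ∀ x : E n, ‖x‖ = R → |h x - h0 x| ≤ B) :
    |sphI h R| ≤ B * omega n := by
  have hω : 0 ≤ omega n := ENNReal.toReal_nonneg
  by_cases hint : Integrable (fun θ : sphere (0 : E n) 1 => h (R • (θ : E n))) (sphM n)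
  · have e : sphI h R = ∫ θ : sphere (0 : E n) 1, (h (R • (θ : E n)) - h0 (R • (θ : E n))) ∂(sphM n) := by
      rw [integral_sub hint hi]
      have : ∫ θ : sphere (0 : E n) 1, h0 (R • (θ : E n)) ∂(sphM n) = 0 := h00
      rw [this, sub_zero]; rfl
    rw [e, ← Real.norm_eq_abs]
    have := norm_integral_le_of_norm_le_const (μ := sphM n)
      (f := fun θ : sphere (0 : E n) 1 => h (R • (θ : E n)) - h0 (R • (θ : E n)))
      (C := B) (Eventually.of_forall fun θ => by
        rw [Real.norm_eq_abs]; exact hb _ (norm_smul_sph hR θ))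
    rw [measureReal_def] at this
    exact this
  · have : sphI h R = 0 := integral_undef hint
    rw [this, abs_zero]
    positivity

/-- the divergence-free field `∂_i ∂_j f - δ_ij Δ f` -/
def Wf (f : E n → ℝ) (i j : Fin n) (x : E n) : ℝ :=
  pd i (pd j f) x - (if i = j then 1 else 0) * ∑ k, pd k (pd k f) x

theorem smooth_Wf {f : E n → ℝ} (hf : ContDiff ℝ ∞ f) (i j : Fin n) : ContDiff ℝ ∞ (Wf f i j) := by
  unfold Wf
  exact (smooth_pd (smooth_pd hf j) i).sub
    (contDiff_const.mul (ContDiff.sum fun k _ => smooth_pd (smooth_pd hf k) k))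

theorem dvg_Wf {f : E n → ℝ} (hf : ContDiff ℝ ∞ f) (i : Fin n) (x : E n) :
    dvg (Wf f i) x = 0 := by
  have hd : ∀ {h : E n → ℝ}, ContDiff ℝ ∞ h → DifferentiableAt ℝ h x := fun h =>
    h.differentiable (by simp) x
  have hL : ContDiff ℝ ∞ (fun x => ∑ k, pd k (pd k f) x) :=
    ContDiff.sum fun k _ => smooth_pd (smooth_pd hf k) k
  have h1 : ∀ j, pd j (Wf f i j) x = pd i (pd j (pd j f)) x -
      (if i = j then 1 else 0) * pd j (fun x => ∑ k, pd k (pd k f) x) x := by
    intro j
    have e : Wf f i j = fun x => pd i (pd j f) x -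
      (fun x => ∑ k, pd k (pd k f) x) x * (if i = j then 1 else 0) := by
      funext x; unfold Wf; ring
    rw [e, pd_sub (hd (smooth_pd (smooth_pd hf j) i)) ((hd hL).mul_const _),
      pd_mul_const (hd hL), symm_pd (smooth_pd hf j) j i]
    ring
  unfold dvg
  simp only [h1, ite_mul, one_mul, zero_mul, Finset.sum_sub_distrib, Finset.sum_ite_eq,
    Finset.mem_univ, if_true]
  rw [pd_sum _ (fun k _ => hd (smooth_pd (smooth_pd hf k) k))]
  exact sub_self _

namespace An

variable {M : Spacetime} {f : E n → ℝ} {D : Stmt.Exterior n} {q : ℝ} {U : Set (ℝ × ℝ)}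

/-- the leading part of the second fundamental form apart from the Hessian -/
def kap (M : Spacetime) (f : E n → ℝ) (i j : Fin n) (x : E n) : ℝ :=
  1 / 2 * dT M.F (uv f x) * (Nc i x * Nc j x) +
    dT M.ratio (uv f x) * ((if i = j then 1 else 0) - Nc i x * Nc j x)

theorem K_near (A : An M f D q U) (i j : Fin n) : O (q + q + 1)
    (fun x => D.K x i j - (pd i (pd j f) x + kap M f i j x)) := by
  have hq := A.q0
  have hN : O 0 (fun x : E n => Nc i x * Nc j x) := (O_Nc i).mul' (O_Nc j) (by linarith)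
  have h1 : O (q + q + 1) (fun x =>
      -((lapse M f x - 1) * D.K x i j) + (M.F (uv f x) - 1) * pd i (pd j f) x +
      1 / 2 * (-(dT M.F (uv f x) * (pd i f x * pd j f x)) +
        2 * ((M.ratio (uv f x) - 1) * dT M.ratio (uv f x) *
          ((if i = j then 1 else 0) - Nc i x * Nc j x))) +
      1 / 2 * (pd i (fun y => M.F (uv f y)) x * pd j f x +
        pd j (fun y => M.F (uv f y)) x * pd i f x) -
      1 / 2 * ∑ k, (Stmt.chr D.g k i j x + Stmt.chr D.g k j i x) * (M.F (uv f x) * pd k f x)) := by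
    refine ((((A.lapse1.mul' (A.K1 i j) (by linarith)).neg.add
      (A.F1.mul' (A.d2f i j) (by linarith))).add (O.const_mul _ ?_)).add
      (((A.dF1 i).mul' (A.df j) (r := q + q + 1) (by linarith)).add
        ((A.dF1 j).mul' (A.df i) (by linarith)) |>.const_mul _)).sub
      ((O.sum fun k _ => ((A.chr1 k i j).add (A.chr1 k j i)).mul'
        (A.Fb.mul' (A.df k) (r := q) (by linarith)) (by linarith)).const_mul _)
    refine (A.FT.mul' ((A.df i).mul' (A.df j) (r := q) (by linarith)) (by linarith)).neg.add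
      (O.const_mul _ ((A.s1.mul' A.sT (r := q + q + 1) (by linarith)).mul'
        ((O_const _).sub hN) (by linarith)))
  refine h1.congr ?_
  filter_upwards [A.Kform, A.Gt_form] with x hx hG
  have h2 := hx i j
  rw [hG i j] at h2
  unfold kap
  linarith

/-- the trace -/
theorem tr_near (A : An M f D q U) : O (q + q + 1)
    (fun x => Stmt.tr D.g D.K x - ∑ k, D.K x k k) := by
  have h1 : O (q + q + 1) (fun x => ∑ i, ∑ j,
      (Stmt.up D.g i j x - if i = j then 1 else 0) * D.K x i j) :=
    O.sum fun i _ => O.sum fun j _ => (A.up1 i j).mul' (A.K1 i j) (by linarith)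
  refine h1.congr (Eventually.of_forall fun x => ?_)
  unfold Stmt.tr
  simp only [sub_mul, ite_mul, one_mul, zero_mul, Finset.sum_sub_distrib, Finset.sum_ite_eq,
    Finset.mem_univ, if_true]

theorem momT_near' (A : An M f D q U) (i j : Fin n) : O (q + q + 1)
    (fun x => Stmt.momT D.g D.K x i j - (D.K x i j - (∑ k, D.K x k k) * if i = j then 1 else 0)) := by
  have hq := A.q0
  have hgb : O 0 (fun x => D.g x i j) := (A.g1 i j).bdd hq.le
  have hT : O (q + 1) (fun x => ∑ k, D.K x k k) := O.sum fun k _ => A.K1 k k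
  have h1 := (A.tr_near.mul' hgb (r := q + q + 1) (by linarith)).neg.sub
    (hT.mul' (A.g1 i j) (r := q + q + 1) (by linarith))
  refine h1.congr (Eventually.of_forall fun x => ?_)
  unfold Stmt.momT
  ring

/-- the momentum integrand -/
def hP (D : Stmt.Exterior n) (i : Fin n) (x : E n) : ℝ :=
  ∑ j, Stmt.momT D.g D.K x i j * (x j / ‖x‖)

theorem hP_near (A : An M f D q U) (i : Fin n) : O (q + q + 1)
    (fun x => hP D i x - (∑ j, Wf f i j x * (x j / ‖x‖) -
      ((n : ℝ) - 1) * dT M.ratio (uv f x) * Nc i x)) := by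
  have h1 : O (q + q + 1) (fun x =>
      ∑ j, (Stmt.momT D.g D.K x i j - (D.K x i j - (∑ k, D.K x k k) * if i = j then 1 else 0)) *
        Nc j x + (∑ j, (D.K x i j - (pd i (pd j f) x + kap M f i j x)) * Nc j x -
        (∑ k, (D.K x k k - (pd k (pd k f) x + kap M f k k x))) * Nc i x)) := by
    refine (O.sum fun j _ => (A.momT_near' i j).mul' (O_Nc j) (by linarith)).add
      ((O.sum fun j _ => (A.K_near i j).mul' (O_Nc j) (by linarith)).sub
        ((O.sum fun k _ => A.K_near k k).mul' (O_Nc i) (by linarith)))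
  refine h1.congr ?_
  filter_upwards [far_gt 0] with x h0
  have hx0 : x ≠ 0 := norm_pos_iff.mp h0
  have hN : ∑ i, Nc i x * Nc i x = 1 := by
    rw [← sum_Nc_sq hx0]; exact Finset.sum_congr rfl fun i _ => (sq _).symm
  have e1 : ∑ j, kap M f i j x * Nc j x = 1 / 2 * dT M.F (uv f x) * Nc i x := by
    have e : ∀ j, kap M f i j x * Nc j x = (1 / 2 * dT M.F (uv f x) * Nc i x) * (Nc j x * Nc j x) +
        ((if i = j then dT M.ratio (uv f x) * Nc j x else 0) -
        dT M.ratio (uv f x) * Nc i x * (Nc j x * Nc j x)) := by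
      intro j; unfold kap; split_ifs <;> ring
    simp only [e, Finset.sum_add_distrib, Finset.sum_sub_distrib, ← Finset.mul_sum, hN,
      Finset.sum_ite_eq, Finset.mem_univ, if_true]
    ring
  have e2 : ∑ k, kap M f k k x = 1 / 2 * dT M.F (uv f x) + ((n : ℝ) - 1) * dT M.ratio (uv f x) := by
    have e : ∀ k, kap M f k k x = (1 / 2 * dT M.F (uv f x)) * (Nc k x * Nc k x) +
        (dT M.ratio (uv f x) - dT M.ratio (uv f x) * (Nc k x * Nc k x)) := by
      intro k; unfold kap; rw [if_pos rfl]; ring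
    simp only [e, Finset.sum_add_distrib, Finset.sum_sub_distrib, ← Finset.mul_sum, hN,
      Finset.sum_const, Finset.card_univ, Fintype.card_fin, nsmul_eq_mul]
    ring
  have e3 : ∀ j, x j / ‖x‖ = Nc j x := fun j => rfl
  unfold hP Wf
  simp only [e3, sub_mul, add_mul, Finset.sum_sub_distrib, Finset.sum_add_distrib, e1, e2]
  have e4 : ∀ c : ℝ, ∑ j, c * (if i = j then 1 else 0) * Nc j x = c * Nc i x := by
    intro c
    simp only [mul_ite, mul_one, mul_zero, ite_mul, zero_mul, Finset.sum_ite_eq, Finset.mem_univ,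
      if_true]
  have e5 : ∀ c : ℝ, ∑ j, (if i = j then (1 : ℝ) else 0) * c * Nc j x = c * Nc i x := by
    intro c
    simp only [ite_mul, one_mul, zero_mul, Finset.sum_ite_eq, Finset.mem_univ, if_true]
  rw [e4, e5]
  ring

theorem P_zero (hn : 3 ≤ n) (A : An M f D q U) (hq : (n : ℝ) / 2 - 1 < q) {P : Fin n → ℝ}
    (hPm : D.IsMomentum P) : P = 0 := by
  haveI : Nonempty (Fin n) := ⟨⟨0, by omega⟩⟩
  haveI : Nontrivial (E n) := inferInstance
  have hn1 : (0 : ℝ) < (n : ℝ) - 1 := by
    have : (3 : ℝ) ≤ n := by exact_mod_cast hn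
    linarith
  have hω : 0 < omega n := omega_pos'
  funext i
  obtain ⟨C1, R1, hC1, hR1, h1⟩ := O_iff.mp (A.hP_near i)
  obtain ⟨C2, R2, hC2, hR2, h2⟩ := A.osc (by omega) (A.smdT A.sms) A.sTT
  have hlim : Tendsto (fun R : ℝ => (C1 + ((n : ℝ) - 1) * C2) / ((n : ℝ) - 1) *
      (R ^ (n - 2) * R ^ (-(q + q)))) atTop (𝓝 0) := by
    have := (tend_pow hn hq).const_mul ((C1 + ((n : ℝ) - 1) * C2) / ((n : ℝ) - 1))
    rwa [mul_zero] at this
  have hflx : Tendsto (Stmt.flx fun j x => Stmt.momT D.g D.K x i j) atTop (𝓝 0) := by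
    refine squeeze_zero_norm' ?_ hlim
    filter_upwards [eventually_gt_atTop (max R1 R2)] with R hR
    have hRR1 : R1 < R := lt_of_le_of_lt (le_max_left _ _) hR
    have hRR2 : R2 < R := lt_of_le_of_lt (le_max_right _ _) hR
    have hR0 : 0 < R := by linarith
    -- a reference point
    obtain ⟨y, hy⟩ : ∃ y : E n, ‖y‖ = R := by
      obtain ⟨u, hu⟩ := exists_norm_eq (E n) (hR0.le)
      exact ⟨u, hu⟩
    set c : ℝ := ((n : ℝ) - 1) * dT M.ratio (uv f y) with hc
    set h0 : E n → ℝ := fun x => ∑ j, Wf f i j x * (x j / ‖x‖) - c * Nc i x with hh0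
    have hcW : ContinuousOn (fun x : E n => ∑ j, Wf f i j x * (x j / ‖x‖)) {x : E n | 0 < ‖x‖} :=
      continuousOn_finsetSum _ fun j _ => (smooth_Wf A.smf i j).continuous.continuousOn.mul
        (contDiffOn_coord_div (m := 0) le_rfl j).continuousOn
    have hcN : ContinuousOn (fun x : E n => c * Nc i x) {x : E n | 0 < ‖x‖} :=
      continuousOn_const.mul (contDiffOn_coord_div (m := 0) le_rfl i).continuousOn
    have hi := integrable_sph (b := 0) le_rfl hR0 (hcW.sub hcN)
    have h00 : sphI h0 R = 0 := by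
      rw [hh0, sphI_sub le_rfl hR0 hcW hcN, sphI_const_mul, sphI_Nc (by omega) i hR0, mul_zero,
        sub_zero]
      have hz := flux_zero (by omega) (W := Wf f i)
        (fun j => (smooth_Wf A.smf i j).of_le (by simp)) (dvg_Wf A.smf i) hR0
      unfold flux at hz
      rcases mul_eq_zero.mp hz with h | h
      · exact absurd h (by positivity)
      · exact h
    have e1 : R ^ (n - 1) = R ^ (n - 2) * R := by
      rw [← pow_succ]; congr 1; omega
    have e2 : R ^ (-(q + q + 1)) * R = R ^ (-(q + q)) := by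
      have := Real.rpow_add hR0 (-(q + q + 1)) 1
      rw [Real.rpow_one] at this
      rw [← this]; congr 1; ring
    have hb : ∀ x : E n, ‖x‖ = R → |hP D i x - h0 x| ≤
        (C1 + ((n : ℝ) - 1) * C2) * R ^ (-(q + q + 1)) := by
      intro x hx
      have k1 := h1 x (by rw [hx]; exact hRR1)
      have k2 := h2 x y (by rw [hx]; exact hRR2) (by rw [hx, hy])
      rw [hx] at k1 k2
      rw [show q + 1 + q = q + q + 1 by ring] at k2
      have e3 : hP D i x - h0 x = (hP D i x - (∑ j, Wf f i j x * (x j / ‖x‖) -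
          ((n : ℝ) - 1) * dT M.ratio (uv f x) * Nc i x)) -
          ((n : ℝ) - 1) * ((dT M.ratio (uv f x) - dT M.ratio (uv f y)) * Nc i x) := by
        rw [hh0, hc]; ring
      have hNc : |Nc i x| ≤ 1 := by
        unfold Nc
        rw [abs_div, abs_norm]
        refine div_le_one_of_le₀ ?_ (norm_nonneg _)
        rw [← Real.norm_eq_abs]
        exact PiLp.norm_apply_le _ i
      have k3 : |((n : ℝ) - 1) * ((dT M.ratio (uv f x) - dT M.ratio (uv f y)) * Nc i x)| ≤
          ((n : ℝ) - 1) * (C2 * R ^ (-(q + q + 1))) := by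
        rw [abs_mul, abs_of_pos hn1, abs_mul]
        refine mul_le_mul_of_nonneg_left ?_ hn1.le
        calc _ ≤ C2 * R ^ (-(q + q + 1)) * 1 :=
              mul_le_mul k2 hNc (abs_nonneg _) (by positivity)
          _ = _ := mul_one _
      rw [e3]
      calc _ ≤ C1 * R ^ (-(q + q + 1)) + ((n : ℝ) - 1) * (C2 * R ^ (-(q + q + 1))) := by
            refine (abs_sub _ _).trans (add_le_add ?_ k3)
            rw [hx]
            exact k1
        _ = _ := by ring
    have k4 := sphI_le hR0.le (by positivity) hi h00 hb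
    rw [Real.norm_eq_abs, flx_eq]
    have e4 : sphInt R (fun x : E n => ∑ j, Stmt.momT D.g D.K x i j * (x j / ‖x‖)) =
        R ^ (n - 1) * sphI (hP D i) R := rfl
    rw [e4, abs_div, abs_of_pos (mul_pos hn1 hω), abs_mul, abs_of_pos (pow_pos hR0 _),
      div_le_iff₀ (mul_pos hn1 hω)]
    calc R ^ (n - 1) * |sphI (hP D i) R| ≤
          R ^ (n - 1) * ((C1 + ((n : ℝ) - 1) * C2) * R ^ (-(q + q + 1)) * omega n) :=
          mul_le_mul_of_nonneg_left k4 (by positivity)
      _ = (C1 + ((n : ℝ) - 1) * C2) * (R ^ (n - 2) * (R ^ (-(q + q + 1)) * R)) * omega n := by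
          rw [e1]; ring
      _ = (C1 + ((n : ℝ) - 1) * C2) / ((n : ℝ) - 1) * (R ^ (n - 2) * R ^ (-(q + q))) *
          (((n : ℝ) - 1) * omega n) := by
          rw [e2]; field_simp
  exact tendsto_nhds_unique (hPm i) hflx

end An

end Vale.Agent.P366.T1.A919
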