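import Mathlib.LinearAlgebra.Matrix.SchurComplement
import Vale.Agent.P366.T1.Stmt

open Matrix

noncomputable section
namespace Vale.Agent.P366.T1

variable {n : ℕ}

/-- The determinant of the induced metric. -/
theorem det_slice (N f : Fin n → ℝ) {F w a b : ℝ} (hw : w ≠ 0) (hN : ∑ i, N i ^ 2 = 1)
    (ha : ∑ i, N i * f i = a) (hb : ∑ i, f i ^ 2 = b) {A : Matrix (Fin n) (Fin n) ℝ}
    (hA : ∀ i j, A i j = F * N i * N j + w * ((if i = j then 1 else 0) - N i * N j) -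
      F * f i * f j) :
    w * A.det = w ^ n * (F * (1 - a ^ 2 - F * (b - a ^ 2) / w)) := by
  set Um : Matrix (Fin n) (Fin 2) ℝ := Matrix.of fun i k => ![(F - w) * N i, -(F * f i)] k
  set Vm : Matrix (Fin 2) (Fin n) ℝ := Matrix.of fun k j => ![N j, f j] k
  have h1 : A = w • (1 + (w⁻¹ • Um) * Vm) := by
    ext i j
    rw [hA]
    simp only [Matrix.smul_apply, Matrix.add_apply, Matrix.mul_apply, Fin.sum_univ_two, Um, Vm,
      Matrix.of_apply, smul_eq_mul, Matrix.cons_val_zero, Matrix.cons_val_one, Matrix.one_apply]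
    split_ifs <;> field_simp <;> ring
  have h2 : ∀ k l, (Vm * (w⁻¹ • Um)) k l = w⁻¹ * ∑ i, Vm k i * Um i l := by
    intro k l
    rw [Matrix.mul_smul, Matrix.smul_apply, Matrix.mul_apply, smul_eq_mul]
  have e00 : ∑ i, Vm 0 i * Um i 0 = F - w := by
    have : ∀ i, Vm 0 i * Um i 0 = (F - w) * N i ^ 2 := fun i => by simp [Um, Vm]; ring
    simp only [this]
    rw [← Finset.mul_sum, hN, mul_one]
  have e01 : ∑ i, Vm 0 i * Um i 1 = -(F * a) := by
    have : ∀ i, Vm 0 i * Um i 1 = -F * (N i * f i) := fun i => by simp [Um, Vm]; ring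
    simp only [this]
    rw [← Finset.mul_sum, ha]; ring
  have e10 : ∑ i, Vm 1 i * Um i 0 = (F - w) * a := by
    have : ∀ i, Vm 1 i * Um i 0 = (F - w) * (N i * f i) := fun i => by simp [Um, Vm]; ring
    simp only [this]
    rw [← Finset.mul_sum, ha]
  have e11 : ∑ i, Vm 1 i * Um i 1 = -(F * b) := by
    have : ∀ i, Vm 1 i * Um i 1 = -F * (f i ^ 2) := fun i => by simp [Um, Vm]; ring
    simp only [this]
    rw [← Finset.mul_sum, hb]; ring
  rw [h1, Matrix.det_smul, Fintype.card_fin, Matrix.det_one_add_mul_comm, Matrix.det_fin_two]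
  simp only [Matrix.add_apply, h2, e00, e01, e10, e11, Matrix.one_apply_eq]
  simp
  field_simp
  ring

/-- The pointwise flux inequality for the two null functions `σ f + |x|`. -/
theorem flux_ineq (N f X : Fin n → ℝ) {F w a b σ : ℝ} (hF : 0 < F) (hw : 0 < w) (hσ : σ ^ 2 = 1)
    (hN : ∑ i, N i ^ 2 = 1) (ha : ∑ i, N i * f i = a) (hb : ∑ i, f i ^ 2 = b)
    {z Q : ℝ} (hz : ∑ i, (σ * f i + N i) * X i = z)
    (hQ : Q = F * (∑ i, N i * X i) ^ 2 + w * (∑ i, X i ^ 2 - (∑ i, N i * X i) ^ 2) -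
      F * (∑ i, f i * X i) ^ 2) :
    (F * (1 - a ^ 2 - F * (b - a ^ 2) / w)) * z ^ 2 ≤ (1 + σ * a) ^ 2 * Q := by
  set ξ := ∑ i, N i * X i with hξ
  set x2 := ∑ i, X i ^ 2 with hx2
  set c := ∑ i, f i * X i with hc
  have hz' : z = σ * c + ξ := by
    rw [← hz, hc, hξ, Finset.mul_sum, ← Finset.sum_add_distrib]
    exact Finset.sum_congr rfl fun i _ => by ring
  -- the square
  have hsq : 0 ≤ ∑ i, (F * z * (f i - a * N i) - σ * w * (1 + σ * a) * (X i - ξ * N i)) ^ 2 :=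
    Finset.sum_nonneg fun i _ => sq_nonneg _
  have hexp : ∑ i, (F * z * (f i - a * N i) - σ * w * (1 + σ * a) * (X i - ξ * N i)) ^ 2 =
      (F * z) ^ 2 * (b - a ^ 2) - 2 * (F * z) * (σ * w * (1 + σ * a)) * (c - a * ξ) +
        (σ * w * (1 + σ * a)) ^ 2 * (x2 - ξ ^ 2) := by
    have h1 : ∀ i, (F * z * (f i - a * N i) - σ * w * (1 + σ * a) * (X i - ξ * N i)) ^ 2 =
        (F * z) ^ 2 * (f i ^ 2 - 2 * a * (N i * f i) + a ^ 2 * N i ^ 2) -
        2 * (F * z) * (σ * w * (1 + σ * a)) *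
          (f i * X i - ξ * (N i * f i) - a * (N i * X i) + a * ξ * N i ^ 2) +
        (σ * w * (1 + σ * a)) ^ 2 * (X i ^ 2 - 2 * ξ * (N i * X i) + ξ ^ 2 * N i ^ 2) := by
      intro i; ring
    simp only [h1, Finset.sum_add_distrib, Finset.sum_sub_distrib, ← Finset.mul_sum, hN, ha, hb,
      ← hξ, ← hx2, ← hc]
    ring
  rw [hexp] at hsq
  have key : w * ((1 + σ * a) ^ 2 * Q - (F * (1 - a ^ 2 - F * (b - a ^ 2) / w)) * z ^ 2) =
      (F * z) ^ 2 * (b - a ^ 2) - 2 * (F * z) * (σ * w * (1 + σ * a)) * (c - a * ξ) +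
        (σ * w * (1 + σ * a)) ^ 2 * (x2 - ξ ^ 2) := by
    have h1 : w * ((F * (1 - a ^ 2 - F * (b - a ^ 2) / w)) * z ^ 2) =
        (F * (w * (1 - a ^ 2) - F * (b - a ^ 2))) * z ^ 2 := by
      field_simp
    rw [mul_sub, h1, hQ, hz']
    have hs : (σ - 1) * (σ + 1) = 0 := by linear_combination hσ
    rcases mul_eq_zero.1 hs with h | h
    · obtain rfl : σ = 1 := by linarith
      ring
    · obtain rfl : σ = -1 := by linarith
      ring
  have hpos : 0 ≤ w * ((1 + σ * a) ^ 2 * Q - (F * (1 - a ^ 2 - F * (b - a ^ 2) / w)) * z ^ 2) := by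
    rw [key]; exact hsq
  have := nonneg_of_mul_nonneg_right hpos hw
  linarith

end Vale.Agent.P366.T1
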