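import Vale.Agent.P366.T1.Choice

open MeasureTheory Metric Filter Topology Set
open scoped ContDiff ENNReal Pointwise

noncomputable section
namespace Vale.Agent.P366.T1

open Vale.Agent.P366.Stmt

variable {n : ℕ}

lemma vol_eq' (n : ℕ) : Stmt.vol n = (volume : Measure (E n)) :=
  (PiLp.volume_preserving_toLp (Fin n)).map_eq

lemma omega_eq' (hn : 0 < n) :
    Stmt.omega n = n * (volume : Measure (E n)).real (ball 0 1) := by
  have : Nonempty (Fin n) := ⟨⟨0, hn⟩⟩
  have : Nontrivial (E n) := inferInstance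
  rw [Stmt.omega, sphInt, sph, vol_eq', one_pow, one_mul, integral_const, smul_eq_mul, mul_one,
    measureReal_def, Measure.toSphere_apply_univ, ENNReal.toReal_mul]
  simp [measureReal_def]

/-! ### The smooth transition -/

/-- The smooth transition function. -/
abbrev T (t : ℝ) : ℝ := Real.smoothTransition t

lemma T_smooth : ContDiff ℝ ∞ T := Real.smoothTransition.contDiff

lemma T_diff (t : ℝ) : DifferentiableAt ℝ T t := (T_smooth.differentiable (by simp)) t

lemma T_deriv_nonneg (t : ℝ) : 0 ≤ deriv T t := Real.smoothTransition.monotone.deriv_nonneg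

lemma T_deriv_zero {t : ℝ} (ht : t ≤ 0) : deriv T t = 0 := by
  have : IsLocalMin T t := by
    refine Filter.Eventually.of_forall fun s => ?_
    show Real.smoothTransition t ≤ Real.smoothTransition s
    rw [Real.smoothTransition.zero_of_nonpos ht]
    exact Real.smoothTransition.nonneg s
  exact this.deriv_eq_zero

lemma T_deriv_one {t : ℝ} (ht : 1 ≤ t) : deriv T t = 0 := by
  have : IsLocalMax T t := by
    refine Filter.Eventually.of_forall fun s => ?_
    show Real.smoothTransition s ≤ Real.smoothTransition t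
    rw [Real.smoothTransition.one_of_one_le ht]
    exact Real.smoothTransition.le_one s
  exact this.deriv_eq_zero

/-! ### Partial derivatives and integrals -/

lemma pd_fderiv {f : E n → ℝ} {x : E n} (hf : DifferentiableAt ℝ f x) (i : Fin n) :
    Stmt.pd i f x = fderiv ℝ f x (EuclideanSpace.single i 1) := hf.lineDeriv_eq_fderiv

lemma pd_mul' {f g : E n → ℝ} {x : E n} (hf : DifferentiableAt ℝ f x)
    (hg : DifferentiableAt ℝ g x) (i : Fin n) :
    Stmt.pd i (fun y => f y * g y) x = f x * Stmt.pd i g x + Stmt.pd i f x * g x := by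
  have hm : DifferentiableAt ℝ (fun y => f y * g y) x := hf.mul hg
  rw [pd_fderiv hm, pd_fderiv hf, pd_fderiv hg]
  have h : HasFDerivAt (fun y => f y * g y) (f x • fderiv ℝ g x + g x • fderiv ℝ f x) x :=
    hf.hasFDerivAt.mul hg.hasFDerivAt
  rw [h.fderiv]
  simp
  ring

lemma pd_congr' {f g : E n → ℝ} {x : E n} (h : f =ᶠ[𝓝 x] g) (i : Fin n) :
    Stmt.pd i f x = Stmt.pd i g x := by
  unfold Stmt.pd
  exact h.lineDeriv_eq

lemma integral_pd_eq_zero {Z : E n → ℝ} (hZ : ContDiff ℝ 1 Z) (hc : HasCompactSupport Z)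
    (i : Fin n) : ∫ x, Stmt.pd i Z x = 0 := by
  have hd : Differentiable ℝ Z := hZ.differentiable one_ne_zero
  have h1 : ∀ x, Stmt.pd i Z x = fderiv ℝ Z x (EuclideanSpace.single i 1) :=
    fun x => pd_fderiv (hd x) i
  simp only [h1]
  have hcont : Continuous fun x => fderiv ℝ Z x (EuclideanSpace.single i 1) :=
    (hZ.continuous_fderiv one_ne_zero).clm_apply continuous_const
  have hcs : HasCompactSupport fun x => fderiv ℝ Z x (EuclideanSpace.single i 1) :=
    hc.fderiv_apply (𝕜 := ℝ) _
  have := integral_mul_fderiv_eq_neg_fderiv_mul_of_integrable (μ := (volume : Measure (E n)))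
    (f := fun _ => (1 : ℝ)) (g := Z) (v := EuclideanSpace.single i (1 : ℝ)) (𝕜 := ℝ)
    (by simp) (by simpa using hcont.integrable_of_hasCompactSupport hcs)
    (by simpa using hd.continuous.integrable_of_hasCompactSupport hc)
    (fun x _ => differentiableAt_const _) (fun x _ => hd x)
  simpa using this

/-! ### Integration by parts with the cutoff of a superlevel set -/

section Cutoff

variable {G : E n → ℝ} (hG : Smooth G)

include hG in
lemma cut_smooth (k : ℝ) : ContDiff ℝ ∞ fun x => T (k * G x) :=
  T_smooth.comp (contDiff_const.mul hG)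

include hG in
lemma pd_cut (k : ℝ) (i : Fin n) (x : E n) :
    Stmt.pd i (fun x => T (k * G x)) x = deriv T (k * G x) * (k * Stmt.pd i G x) := by
  have hd : DifferentiableAt ℝ G x := (hG.differentiable (by simp)) x
  rw [pd_fderiv (((cut_smooth hG k).differentiable (by simp)) x), pd_fderiv hd]
  have h1 : HasFDerivAt (fun x => T (k * G x)) (deriv T (k * G x) • (k • fderiv ℝ G x)) x :=
    (T_diff _).hasDerivAt.comp_hasFDerivAt x (hd.hasFDerivAt.const_mul k)
  rw [h1.fderiv]
  simp

include hG in
lemma cut_ibp {O : Set (E n)} (hO : IsOpen O) (hGO : ∀ x, 0 ≤ G x → x ∈ O)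
    {Y : Fin n → E n → ℝ} (hY : ∀ i, ContDiffOn ℝ ∞ (Y i) O) {R : ℝ}
    (hR : ∀ i x, R < len x → Y i x = 0) {k : ℝ} (hk : 0 < k) :
    Integrable (fun x => T (k * G x) * ∑ i, Stmt.pd i (Y i) x) ∧
    Integrable (fun x => ∑ i, deriv T (k * G x) * (k * Stmt.pd i G x) * Y i x) ∧
    ∫ x, T (k * G x) * ∑ i, Stmt.pd i (Y i) x =
      -∫ x, ∑ i, deriv T (k * G x) * (k * Stmt.pd i G x) * Y i x := by
  have hGc : Continuous G := hG.continuous
  have hneg : IsOpen {x | G x < 0} := isOpen_lt hGc continuous_const
  have hcov : ∀ x, x ∈ O ∨ G x < 0 := fun x => by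
    rcases lt_or_ge (G x) 0 with h | h
    · exact Or.inr h
    · exact Or.inl (hGO x h)
  have hT0 : ∀ x, G x < 0 → T (k * G x) = 0 := fun x hx =>
    Real.smoothTransition.zero_of_nonpos (mul_neg_of_pos_of_neg hk hx).le
  -- the product field
  have hZ : ∀ i, ContDiff ℝ ∞ fun x => T (k * G x) * Y i x := by
    intro i
    rw [contDiff_iff_contDiffAt]
    intro x
    rcases hcov x with h | h
    · exact (cut_smooth hG k).contDiffAt.mul ((hY i).contDiffAt (hO.mem_nhds h))
    · refine (contDiffAt_const (c := (0 : ℝ))).congr_of_eventuallyEq ?_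
      filter_upwards [hneg.mem_nhds h] with y hy
      rw [hT0 y hy, zero_mul]
  have hcs : ∀ h : E n → ℝ, (∀ x, R < len x → h x = 0) → HasCompactSupport h := by
    intro h hh
    refine HasCompactSupport.intro (isCompact_closedBall (0 : E n) R) fun x hx => hh x ?_
    simpa [len] using hx
  have hZc : ∀ i, HasCompactSupport fun x => T (k * G x) * Y i x :=
    fun i => hcs _ fun x hx => by rw [hR i x hx, mul_zero]
  have hYpd : ∀ i x, R < len x → Stmt.pd i (Y i) x = 0 := by
    intro i x hx
    have h1 : Y i =ᶠ[𝓝 x] fun _ => 0 := by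
      filter_upwards [(isOpen_lt continuous_const len_continuous).mem_nhds hx] with y hy
      exact hR i y hy
    rw [pd_congr' h1]
    simp [Stmt.pd, lineDeriv]
  have hYcont : ∀ i, ContinuousOn (fun x => Stmt.pd i (Y i) x) O := by
    intro i
    have h1 : ContinuousOn (fun x => fderiv ℝ (Y i) x (EuclideanSpace.single i 1)) O :=
      ((hY i).continuousOn_fderiv_of_isOpen hO (by simp)).clm_apply continuousOn_const
    refine h1.congr fun x hx => ?_
    exact pd_fderiv (((hY i).contDiffAt (hO.mem_nhds hx)).differentiableAt (by simp)) i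
  -- first integrand
  have hac : Continuous fun x => T (k * G x) * ∑ i, Stmt.pd i (Y i) x := by
    rw [continuous_iff_continuousAt]
    intro x
    rcases hcov x with h | h
    · refine (cut_smooth hG k).continuous.continuousAt.mul ?_
      exact (continuousOn_finsetSum _ fun i _ => hYcont i).continuousAt (hO.mem_nhds h)
    · refine (continuousAt_const (y := (0 : ℝ))).congr ?_
      filter_upwards [hneg.mem_nhds h] with y hy
      rw [hT0 y hy, zero_mul]
  have ha : Integrable fun x => T (k * G x) * ∑ i, Stmt.pd i (Y i) x :=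
    hac.integrable_of_hasCompactSupport (hcs _ fun x hx => by
      rw [Finset.sum_eq_zero fun i _ => hYpd i x hx, mul_zero])
  -- second integrand
  have hdT0 : ∀ x, G x < 0 → deriv T (k * G x) = 0 := fun x hx =>
    T_deriv_zero (mul_neg_of_pos_of_neg hk hx).le
  have hbc : Continuous fun x => ∑ i, deriv T (k * G x) * (k * Stmt.pd i G x) * Y i x := by
    rw [continuous_iff_continuousAt]
    intro x
    rcases hcov x with h | h
    · refine tendsto_finsetSum _ fun i _ => ?_
      have h1 : Continuous fun x => deriv T (k * G x) * (k * Stmt.pd i G x) := by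
        have h2 : Continuous (deriv T) := T_smooth.continuous_deriv (by simp)
        have h3 : Continuous fun x => Stmt.pd i G x := by
          have h4 : (fun x => Stmt.pd i G x) = fun x => fderiv ℝ G x (EuclideanSpace.single i 1) :=
            funext fun x => pd_fderiv ((hG.differentiable (by simp)) x) i
          rw [h4]
          exact (hG.continuous_fderiv (by simp)).clm_apply continuous_const
        exact (h2.comp (continuous_const.mul hGc)).mul (continuous_const.mul h3)
      exact (h1.continuousAt.mul ((hY i).continuousOn.continuousAt (hO.mem_nhds h)))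
    · refine (continuousAt_const (y := (0 : ℝ))).congr ?_
      filter_upwards [hneg.mem_nhds h] with y hy
      rw [Finset.sum_eq_zero fun i _ => by rw [hdT0 y hy, zero_mul, zero_mul]]
  have hb : Integrable fun x => ∑ i, deriv T (k * G x) * (k * Stmt.pd i G x) * Y i x :=
    hbc.integrable_of_hasCompactSupport (hcs _ fun x hx => by
      rw [Finset.sum_eq_zero fun i _ => by rw [hR i x hx, mul_zero]])
  refine ⟨ha, hb, ?_⟩
  have hsum : ∀ x, T (k * G x) * ∑ i, Stmt.pd i (Y i) x +
      ∑ i, deriv T (k * G x) * (k * Stmt.pd i G x) * Y i x =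
      ∑ i, Stmt.pd i (fun x => T (k * G x) * Y i x) x := by
    intro x
    rw [Finset.mul_sum, ← Finset.sum_add_distrib]
    refine Finset.sum_congr rfl fun i _ => ?_
    rcases hcov x with h | h
    · rw [pd_mul' (((cut_smooth hG k).differentiable (by simp)) x)
        (((hY i).contDiffAt (hO.mem_nhds h)).differentiableAt (by simp)), pd_cut hG]
    · have h1 : (fun x => T (k * G x) * Y i x) =ᶠ[𝓝 x] fun _ => 0 := by
        filter_upwards [hneg.mem_nhds h] with y hy
        rw [hT0 y hy, zero_mul]
      rw [pd_congr' h1, hT0 x h, hdT0 x h]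
      simp [Stmt.pd, lineDeriv]
  have h0 : ∫ x, (T (k * G x) * ∑ i, Stmt.pd i (Y i) x +
      ∑ i, deriv T (k * G x) * (k * Stmt.pd i G x) * Y i x) = 0 := by
    simp only [hsum]
    rw [integral_finsetSum]
    · exact Finset.sum_eq_zero fun i _ => integral_pd_eq_zero ((hZ i).of_le (by simp)) (hZc i) i
    · intro i _
      have h2 : Stmt.pd i (fun x => T (k * G x) * Y i x) =
          fun x => fderiv ℝ (fun x => T (k * G x) * Y i x) x (EuclideanSpace.single i 1) :=
        funext fun x => pd_fderiv (((hZ i).differentiable (by simp)) x) i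
      rw [h2]
      exact (((hZ i).continuous_fderiv (by simp)).clm_apply
        continuous_const).integrable_of_hasCompactSupport ((hZc i).fderiv_apply (𝕜 := ℝ) _)
  rw [integral_add ha hb] at h0
  linarith

end Cutoff

/-! ### The radial field -/

lemma contDiffAt_len {x : E n} (hx : x ≠ 0) : ContDiffAt ℝ ∞ (len : E n → ℝ) x :=
  contDiffAt_norm ℝ hx

lemma pd_len {x : E n} (hx : x ≠ 0) (i : Fin n) : Stmt.pd i len x = x i / len x := by
  have hl := len_pos hx
  rw [pd_fderiv ((contDiffAt_len hx).differentiableAt (by simp))]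
  have h1 : HasFDerivAt (fun y : E n => len y ^ 2) (2 • innerSL ℝ x) x :=
    (hasStrictFDerivAt_norm_sq x).hasFDerivAt
  have h2 : HasFDerivAt (len : E n → ℝ) (fderiv ℝ len x) x :=
    ((contDiffAt_len hx).differentiableAt (by simp)).hasFDerivAt
  have h3 := (h2.pow 2).unique h1
  have h4 := congrArg (fun L => L (EuclideanSpace.single i (1 : ℝ))) h3
  have h8 : inner ℝ x (EuclideanSpace.single i (1 : ℝ)) = x i := by
    rw [EuclideanSpace.inner_single_right]; simp
  simp [innerSL_apply_apply, h8] at h4
  rw [eq_div_iff hl.ne']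
  linarith

lemma pd_coord' (i j : Fin n) (x : E n) :
    Stmt.pd i (fun y : E n => y j) x = if i = j then 1 else 0 := by
  have h1 : HasFDerivAt (fun y : E n => y j) (EuclideanSpace.proj (𝕜 := ℝ) j) x :=
    (EuclideanSpace.proj (𝕜 := ℝ) j).hasFDerivAt
  rw [pd_fderiv h1.differentiableAt, h1.fderiv]
  simp [eq_comm]

/-- The field `x / |x|^n` is divergence free. -/
lemma div_radial (hn : 0 < n) {x : E n} (hx : x ≠ 0) :
    ∑ i, Stmt.pd i (fun y : E n => y i * (len y ^ n)⁻¹) x = 0 := by
  have hl := len_pos hx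
  have hd : ∀ i : Fin n, DifferentiableAt ℝ (fun y : E n => y i) x := fun i =>
    (EuclideanSpace.proj (𝕜 := ℝ) i).differentiableAt
  have hlen : HasFDerivAt (len : E n → ℝ) (fderiv ℝ len x) x :=
    ((contDiffAt_len hx).differentiableAt (by simp)).hasFDerivAt
  have hinv : HasFDerivAt (fun y : E n => (len y ^ n)⁻¹)
      ((-((n : ℝ) * len x ^ (n - 1)) / (len x ^ n) ^ 2) • fderiv ℝ len x) x := by
    have h1 : HasDerivAt (fun t : ℝ => (t ^ n)⁻¹) (-((n : ℝ) * len x ^ (n - 1)) / (len x ^ n) ^ 2)
        (len x) := (hasDerivAt_pow n (len x)).inv (pow_ne_zero _ hl.ne')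
    exact h1.comp_hasFDerivAt x hlen
  have h2 : ∀ i : Fin n, Stmt.pd i (fun y : E n => y i * (len y ^ n)⁻¹) x =
      (len x ^ n)⁻¹ - (n : ℝ) * len x ^ (n - 1) / (len x ^ n) ^ 2 / len x * x i ^ 2 := by
    intro i
    rw [pd_mul' (hd i) hinv.differentiableAt, pd_coord', if_pos rfl, pd_fderiv hinv.differentiableAt,
      hinv.fderiv]
    have h3 := pd_len hx i
    rw [pd_fderiv hlen.differentiableAt] at h3
    simp only [smul_apply, smul_eq_mul, h3]
    field_simp
    ring
  simp only [h2, Finset.sum_sub_distrib, ← Finset.mul_sum]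
  have h4 : ∑ i, x i ^ 2 = len x ^ 2 := by
    rw [len, EuclideanSpace.real_norm_sq_eq]
  rw [h4]
  simp only [Finset.sum_const, Finset.card_univ, Fintype.card_fin, nsmul_eq_mul]
  obtain ⟨m, rfl⟩ : ∃ m, n = m + 1 := ⟨n - 1, by omega⟩
  simp only [Nat.add_sub_cancel]
  field_simp
  ring

/-- The total flux of the radial field through the level sets. -/
lemma radial_integral (hn : 0 < n) {R1 : ℝ} (hR1 : 0 < R1) :
    ∫ x : E n, deriv T (len x - R1) * (len x ^ (n - 1))⁻¹ = Stmt.omega n := by
  have : Nonempty (Fin n) := ⟨⟨0, hn⟩⟩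
  have : Nontrivial (E n) := inferInstance
  have h1 := integral_fun_norm_addHaar (volume : Measure (E n))
    (fun y => deriv T (y - R1) * (y ^ (n - 1))⁻¹)
  simp only [finrank_euclideanSpace, Fintype.card_fin] at h1
  show ∫ x : E n, deriv T (‖x‖ - R1) * (‖x‖ ^ (n - 1))⁻¹ = _
  rw [h1, omega_eq' hn]
  have h2 : ∫ y in Ioi (0 : ℝ), y ^ (n - 1) • (deriv T (y - R1) * (y ^ (n - 1))⁻¹) = 1 := by
    have h3 : ∀ y ∈ Ioi (0 : ℝ), y ^ (n - 1) • (deriv T (y - R1) * (y ^ (n - 1))⁻¹) =
        deriv T (y - R1) := by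
      intro y hy
      have hy' : (0 : ℝ) < y := hy
      rw [smul_eq_mul]
      field_simp
    rw [setIntegral_congr_fun measurableSet_Ioi h3]
    have hd : ∀ y : ℝ, HasDerivAt (fun y => T (y - R1)) (deriv T (y - R1)) y := by
      intro y
      have := (T_diff (y - R1)).hasDerivAt.comp y ((hasDerivAt_id y).sub_const R1)
      rw [mul_one] at this
      exact this
    have hcont : Continuous (fun y : ℝ => deriv T (y - R1)) :=
      (T_smooth.continuous_deriv (by simp)).comp (continuous_id.sub continuous_const)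
    have hint : Integrable (fun y : ℝ => deriv T (y - R1)) := by
      refine hcont.integrable_of_hasCompactSupport ?_
      refine HasCompactSupport.intro (isCompact_Icc (a := R1) (b := R1 + 1)) fun y hy => ?_
      rw [mem_Icc, not_and_or, not_le, not_le] at hy
      rcases hy with h | h
      · exact T_deriv_zero (by linarith)
      · exact T_deriv_one (by linarith)
    have h4 := integral_Ioi_of_hasDerivAt_of_tendsto (f := fun y => T (y - R1))
      (f' := fun y => deriv T (y - R1)) (a := 0) (m := 1)
      (hd 0).continuousAt.continuousWithinAt (fun y _ => hd y) hint.integrableOn ?_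
    · rw [h4, show T (0 - R1) = 0 from Real.smoothTransition.zero_of_nonpos (by linarith)]
      norm_num
    · refine Tendsto.congr' ?_ tendsto_const_nhds
      filter_upwards [eventually_ge_atTop (R1 + 1)] with y hy
      exact (Real.smoothTransition.one_of_one_le (by linarith)).symm
  rw [h2]
  simp

/-- The coarea identity for the level sets of `G`, which are radial graphs. -/
lemma cut_flux (hn : 0 < n) {G : E n → ℝ} (hG : Smooth G) (h0 : G 0 < 0) {R1 : ℝ} (hR1 : 0 < R1)
    (hinf : ∀ x, R1 < len x → 1 ≤ G x) {k : ℝ} (hk : 1 ≤ k) :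
    Integrable (fun x => ∑ i, deriv T (k * G x) * (k * Stmt.pd i G x) *
      ((1 - T (len x - R1)) * (x i * (len x ^ n)⁻¹))) ∧
    ∫ x, ∑ i, deriv T (k * G x) * (k * Stmt.pd i G x) *
      ((1 - T (len x - R1)) * (x i * (len x ^ n)⁻¹)) = Stmt.omega n := by
  have hO : IsOpen {x : E n | x ≠ 0} := isOpen_ne
  have hGO : ∀ x, 0 ≤ G x → x ∈ {x : E n | x ≠ 0} := by
    rintro x hx rfl
    exact absurd hx (not_le.2 h0)
  have hη : ∀ x : E n, x ≠ 0 → ContDiffAt ℝ ∞ (fun x : E n => 1 - T (len x - R1)) x := fun x hx =>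
    contDiffAt_const.sub (T_smooth.contDiffAt.comp x ((contDiffAt_len hx).sub contDiffAt_const))
  have hrad : ∀ (i : Fin n) (x : E n), x ≠ 0 →
      ContDiffAt ℝ ∞ (fun x : E n => x i * (len x ^ n)⁻¹) x := by
    intro i x hx
    refine ContDiffAt.mul ?_ ?_
    · exact (EuclideanSpace.proj (𝕜 := ℝ) i).contDiff.contDiffAt
    · exact ((contDiffAt_len hx).pow n).inv (pow_ne_zero _ (len_pos hx).ne')
  have hY : ∀ i : Fin n, ContDiffOn ℝ ∞
      (fun x : E n => (1 - T (len x - R1)) * (x i * (len x ^ n)⁻¹)) {x | x ≠ 0} := fun i x hx =>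
    ((hη x hx).mul (hrad i x hx)).contDiffWithinAt
  have hYR : ∀ (i : Fin n) (x : E n), R1 + 1 < len x →
      (1 - T (len x - R1)) * (x i * (len x ^ n)⁻¹) = 0 := by
    intro i x hx
    rw [show T (len x - R1) = 1 from Real.smoothTransition.one_of_one_le (by linarith)]
    ring
  obtain ⟨-, h2, h3⟩ := cut_ibp hG hO hGO hY hYR (by linarith : (0 : ℝ) < k)
  refine ⟨h2, ?_⟩
  rw [← neg_eq_iff_eq_neg.2 h3, ← integral_neg, ← radial_integral hn hR1]
  refine integral_congr_ae (Eventually.of_forall fun x => ?_)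
  simp only
  rcases lt_or_ge (G x) 0 with hx | hx
  · rw [show T (k * G x) = 0 from Real.smoothTransition.zero_of_nonpos (by nlinarith)]
    have h4 : len x ≤ R1 := by
      by_contra hc
      have := hinf x (not_le.1 hc)
      linarith
    rw [T_deriv_zero (by linarith)]
    simp
  · have hx0 : x ≠ 0 := hGO x hx
    have hl := len_pos hx0
    have h4 : ∑ i, Stmt.pd i (fun x : E n => (1 - T (len x - R1)) * (x i * (len x ^ n)⁻¹)) x =
        -(deriv T (len x - R1) * (len x ^ (n - 1))⁻¹) := by
      have h5 : ∀ i, Stmt.pd i (fun x : E n => (1 - T (len x - R1)) * (x i * (len x ^ n)⁻¹)) x =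
          (1 - T (len x - R1)) * Stmt.pd i (fun x : E n => x i * (len x ^ n)⁻¹) x -
            deriv T (len x - R1) * (len x ^ n)⁻¹ / len x * x i ^ 2 := by
        intro i
        rw [pd_mul' ((hη x hx0).differentiableAt (by simp)) ((hrad i x hx0).differentiableAt
          (by simp))]
        have h6 : HasFDerivAt (fun x : E n => 1 - T (len x - R1))
            (-(deriv T (len x - R1) • fderiv ℝ len x)) x := by
          have h7 : HasFDerivAt (len : E n → ℝ) (fderiv ℝ len x) x :=
            ((contDiffAt_len hx0).differentiableAt (by simp)).hasFDerivAt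
          have h8 := (T_diff (len x - R1)).hasDerivAt.comp_hasFDerivAt x (h7.sub_const R1)
          exact h8.const_sub 1
        rw [pd_fderiv h6.differentiableAt, h6.fderiv]
        have h9 := pd_len hx0 i
        rw [pd_fderiv ((contDiffAt_len hx0).differentiableAt (by simp))] at h9
        simp only [neg_apply, smul_apply, smul_eq_mul, h9]
        field_simp
        ring
      simp only [h5, Finset.sum_sub_distrib, ← Finset.mul_sum]
      rw [div_radial hn hx0]
      have h6 : ∑ i, x i ^ 2 = len x ^ 2 := by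
        rw [len, EuclideanSpace.real_norm_sq_eq]
      rw [h6]
      obtain ⟨m, rfl⟩ : ∃ m, n = m + 1 := ⟨n - 1, by omega⟩
      simp only [Nat.add_sub_cancel]
      field_simp
      ring
    rw [h4]
    rcases le_or_gt (len x) R1 with h5 | h5
    · rw [T_deriv_zero (by linarith)]; ring
    · have h6 := hinf x h5
      rw [show T (k * G x) = 1 from Real.smoothTransition.one_of_one_le (by nlinarith)]
      ring

/-! ### The area of the boundary of a superlevel set -/

/-- A level set which meets each ray at most once is a null set. -/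
lemma level_null (hn : 0 < n) {G : E n → ℝ} (hG : Continuous G)
    (hray : ∀ x, 0 ≤ G x → ∀ s : ℝ, 1 < s → G x < G (s • x)) {R1 : ℝ}
    (hinf : ∀ x, R1 < len x → 0 < G x) : (volume : Measure (E n)) {x | G x = 0} = 0 := by
  have : Nonempty (Fin n) := ⟨⟨0, hn⟩⟩
  have : Nontrivial (E n) := inferInstance
  set A : Set (E n) := {x | G x = 0} with hA
  have hAm : MeasurableSet A := (isClosed_eq hG continuous_const).measurableSet
  by_contra hne
  have hpos : 0 < (volume : Measure (E n)) A := pos_iff_ne_zero.2 hne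
  set s : ℕ → ℝ := fun j => 1 + 1 / ((j : ℝ) + 1) with hs
  have hs1 : ∀ j, 1 < s j := fun j => by
    have : (0 : ℝ) < 1 / ((j : ℝ) + 1) := by positivity
    simp only [hs]; linarith
  have hs2 : ∀ j, s j ≤ 2 := fun j => by
    have : 1 / ((j : ℝ) + 1) ≤ 1 := by
      rw [div_le_one (by positivity)]; linarith [Nat.cast_nonneg (α := ℝ) j]
    simp only [hs]; linarith
  have hsinj : ∀ i j, s i = s j → i = j := by
    intro i j h
    simp only [hs, add_right_inj] at h
    have h2 : ((i : ℝ) + 1) = (j : ℝ) + 1 := by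
      have := congrArg (fun t => 1 / t) h
      simpa using this
    exact_mod_cast (add_right_cancel h2)
  have hdis : Pairwise (Function.onFun Disjoint fun j => s j • A) := by
    intro i j hij
    have key : ∀ a b : ℝ, 1 < a → a < b → Disjoint (a • A) (b • A) := by
      intro a b ha hab
      rw [Set.disjoint_left]
      rintro y ⟨x, hx, rfl⟩ ⟨z, hz, hzx⟩
      have ha0 : a ≠ 0 := by linarith
      have h1 : x = (b / a) • z := by
        have h2 : a • x = b • z := hzx.symm
        rw [div_eq_inv_mul, mul_smul, ← h2, inv_smul_smul₀ ha0]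
      have h3 : 1 < b / a := by rw [lt_div_iff₀ (by linarith)]; linarith
      have h4 := hray z (le_of_eq (show (0 : ℝ) = G z from hz.symm)) _ h3
      rw [← h1] at h4
      have h5 : G x = 0 := hx
      have h6 : G z = 0 := hz
      linarith
    rcases lt_trichotomy (s i) (s j) with h | h | h
    · exact key _ _ (hs1 i) h
    · exact absurd (hsinj i j h) hij
    · exact (key _ _ (hs1 j) h).symm
  have hm : ∀ j, MeasurableSet (s j • A) := fun j =>
    hAm.const_smul_of_ne_zero (by linarith [hs1 j] : s j ≠ 0)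
  have hfin : (volume : Measure (E n)) (⋃ j, s j • A) ≠ ⊤ := by
    refine ne_top_of_le_ne_top (measure_closedBall_lt_top (x := (0 : E n)) (r := 2 * |R1|)).ne
      (measure_mono ?_)
    rintro y hy
    obtain ⟨j, x, hx, rfl⟩ := mem_iUnion.1 hy
    have h1 : len x ≤ R1 := by
      by_contra hc
      exact absurd (show G x = 0 from hx) (hinf x (not_le.1 hc)).ne'
    rw [mem_closedBall, dist_zero_right]
    show len (s j • x) ≤ _
    have hsj := hs1 j
    rw [len_smul (by linarith)]
    have h2 : 0 ≤ len x := norm_nonneg x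
    calc s j * len x ≤ 2 * len x := by gcongr; exact hs2 j
      _ ≤ 2 * |R1| := by gcongr; exact h1.trans (le_abs_self _)
  have hbig : ∀ j, (volume : Measure (E n)) A ≤ (volume : Measure (E n)) (s j • A) := by
    intro j
    rw [Measure.addHaar_smul]
    have h1 : (1 : ℝ≥0∞) ≤ ENNReal.ofReal |s j ^ Module.finrank ℝ (E n)| := by
      rw [ENNReal.one_le_ofReal, abs_pow]
      exact one_le_pow₀ (by rw [abs_of_pos (by linarith [hs1 j])]; exact (hs1 j).le)
    calc (volume : Measure (E n)) A = 1 * (volume : Measure (E n)) A := (one_mul _).symm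
      _ ≤ _ := by gcongr
  have h := Measure.finite_const_le_meas_of_disjoint_iUnion (volume : Measure (E n)) hpos hm hdis
    hfin
  have h2 : {j | (volume : Measure (E n)) A ≤ (volume : Measure (E n)) (s j • A)} = univ :=
    eq_univ_of_forall hbig
  rw [h2] at h
  exact infinite_univ h

/-- The area of the boundary of `{0 ≤ G}` is controlled by the area radius on `{G = 0}`. -/
theorem area_bound (hn : 2 ≤ n) (D : Exterior n) {G Rf : E n → ℝ} (hG : Smooth G)
    (hGF : ∀ x, 0 ≤ G x → 0 ≤ D.F x) (h0 : G 0 < 0)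
    (hray : ∀ x, 0 ≤ G x → ∀ s : ℝ, 1 < s → G x < G (s • x))
    {R1 : ℝ} (hinf : ∀ x, R1 < len x → 1 ≤ G x)
    (hRc : ContinuousOn Rf {x | 0 ≤ G x}) (hR0 : ∀ x, 0 ≤ G x → 0 ≤ Rf x)
    (hflux : ∀ x, 0 ≤ G x → ∀ X : Fin n → ℝ, ∑ i, ∑ j, D.g x i j * X i * X j ≤ 1 →
      √(mat D.g x).det * |∑ i, Stmt.pd i G x * X i| ≤
        (Rf x / len x) ^ (n - 1) * ∑ i, Stmt.pd i G x * (x i / len x))
    (hpos : ∀ x, 0 ≤ G x → 0 ≤ ∑ i, Stmt.pd i G x * (x i / len x))
    {r0 : ℝ} (hr0 : 0 ≤ r0) (hlev : ∀ x, G x = 0 → Rf x ≤ r0) :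
    D.area G ≤ ENNReal.ofReal (Stmt.omega n * r0 ^ (n - 1)) := by
  have hn0 : 0 < n := by omega
  have hGc : Continuous G := hG.continuous
  have hω : 0 ≤ Stmt.omega n := by rw [omega_eq' hn0]; positivity
  refine sSup_le ?_
  rintro _ ⟨X, ⟨hX1, ⟨R, hX2⟩, hX3⟩, rfl⟩
  refine ENNReal.ofReal_le_ofReal ?_
  rw [vol_eq']
  set W : Fin n → E n → ℝ := fun i y => √(mat D.g y).det * X i y with hW
  -- the region where the metric is positive
  have hdet : ContDiff ℝ ∞ (fun x => (mat D.g x).det) := by
    simp only [Matrix.det_apply]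
    refine ContDiff.sum fun σ _ => ?_
    have h1 : ContDiff ℝ ∞ (fun x => ∏ i, mat D.g x (σ i) i) :=
      contDiff_prod fun i _ => (D.smooth (σ i) i).1
    have h2 : ContDiff ℝ ∞ (fun x => ((Equiv.Perm.sign σ : ℤ) : ℝ) *
        ∏ i, mat D.g x (σ i) i) := contDiff_const.mul h1
    have h3 : (fun x => Equiv.Perm.sign σ • ∏ i, mat D.g x (σ i) i) =
        fun x => ((Equiv.Perm.sign σ : ℤ) : ℝ) * ∏ i, mat D.g x (σ i) i := by
      funext x
      rw [Units.smul_def, zsmul_eq_mul]
    rw [h3]
    exact h2
  have hO : IsOpen {x : E n | 0 < (mat D.g x).det} := isOpen_lt continuous_const hdet.continuous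
  have hGO : ∀ x, 0 ≤ G x → x ∈ {x : E n | 0 < (mat D.g x).det} := fun x hx =>
    (D.pos x (hGF x hx)).det_pos
  have hWs : ∀ i, ContDiffOn ℝ ∞ (W i) {x : E n | 0 < (mat D.g x).det} := fun i =>
    (hdet.contDiffOn.sqrt fun x hx => (show 0 < (mat D.g x).det from hx).ne').mul
      (hX1 i).contDiffOn
  have hWR : ∀ i x, R < len x → W i x = 0 := fun i x hx => by
    simp only [hW, hX2 x hx i, mul_zero]
  -- it is enough to allow a small error in the radius
  have hmain : ∀ ε > 0, ∫ x in {x | 0 ≤ G x}, ∑ i, Stmt.pd i (W i) x ≤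
      Stmt.omega n * (r0 + ε) ^ (n - 1) := by
    intro ε hε
    set R2 : ℝ := max R1 1 with hR2
    have hR2pos : 0 < R2 := lt_of_lt_of_le one_pos (le_max_right _ _)
    have hinf2 : ∀ x, R2 < len x → 1 ≤ G x := fun x hx => hinf x (lt_of_le_of_lt (le_max_left _ _) hx)
    -- near the level set the radius is almost at most `r0`
    obtain ⟨δ, hδ, hδ2⟩ : ∃ δ > 0, ∀ x, 0 ≤ G x → len x ≤ R2 → G x < δ → Rf x ≤ r0 + ε := by
      have hcl : IsClosed {x : E n | 0 ≤ G x ∧ r0 + ε ≤ Rf x} :=
        hRc.preimage_isClosed_of_isClosed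
          (isClosed_le continuous_const hGc) isClosed_Ici
      have hK : IsCompact ({x : E n | 0 ≤ G x ∧ r0 + ε ≤ Rf x} ∩ closedBall 0 R2) :=
        (isCompact_closedBall _ _).inter_left hcl
      rcases ({x : E n | 0 ≤ G x ∧ r0 + ε ≤ Rf x} ∩ closedBall 0 R2).eq_empty_or_nonempty
        with he | hne
      · refine ⟨1, one_pos, fun x hx hl _ => ?_⟩
        by_contra hc
        have : x ∈ ({x : E n | 0 ≤ G x ∧ r0 + ε ≤ Rf x} ∩ closedBall 0 R2) :=
          ⟨⟨hx, (not_le.1 hc).le⟩, by simpa [len] using hl⟩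
        rw [he] at this
        exact this
      · obtain ⟨z, hz, hmin⟩ := hK.exists_isMinOn hne hGc.continuousOn
        have hGz : 0 < G z := by
          rcases hz.1.1.eq_or_lt with h | h
          · have h1 := hlev z h.symm
            have h2 := hz.1.2
            linarith
          · exact h
        refine ⟨G z, hGz, fun x hx hl hlt => ?_⟩
        by_contra hc
        have hm : x ∈ ({x : E n | 0 ≤ G x ∧ r0 + ε ≤ Rf x} ∩ closedBall 0 R2) :=
          ⟨⟨hx, (not_le.1 hc).le⟩, by simpa [len] using hl⟩
        exact absurd (hmin (a := x) hm) (not_le.2 hlt)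
    -- the inequality for the cutoff
    have hcut : ∀ k : ℝ, 1 ≤ k → 1 < k * δ → ∫ x, T (k * G x) * ∑ i, Stmt.pd i (W i) x ≤
        Stmt.omega n * (r0 + ε) ^ (n - 1) := by
      intro k hk hkδ
      have hk0 : 0 < k := by linarith
      obtain ⟨-, hb, hab⟩ := cut_ibp hG hO hGO hWs hWR hk0
      obtain ⟨hc, hcv⟩ := cut_flux hn0 hG h0 hR2pos hinf2 hk
      rw [hab, ← integral_neg, ← hcv, mul_comm, ← integral_const_mul]
      refine integral_mono hb.neg (hc.const_mul _) fun x => ?_
      simp only
      by_cases hT : deriv T (k * G x) = 0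
      · simp [hT]
      have hT0 : 0 < deriv T (k * G x) := lt_of_le_of_ne (T_deriv_nonneg _) (Ne.symm hT)
      have h1 : 0 < k * G x := by
        by_contra hc
        exact hT (T_deriv_zero (not_lt.1 hc))
      have h2 : k * G x < 1 := by
        by_contra hc
        exact hT (T_deriv_one (not_lt.1 hc))
      have hGx : 0 < G x := (mul_pos_iff_of_pos_left hk0).1 h1
      have hGx1 : G x < 1 := by
        refine lt_of_le_of_lt ?_ h2
        exact le_mul_of_one_le_left hGx.le hk
      have hlx : len x ≤ R2 := by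
        by_contra hc
        exact absurd (hinf2 x (not_le.1 hc)) (not_le.2 hGx1)
      have hx0 : x ≠ 0 := by
        rintro rfl
        linarith
      have hl := len_pos hx0
      have hδx : G x < δ := by
        have h3 : k * G x < k * δ := h2.trans hkδ
        exact lt_of_mul_lt_mul_left h3 hk0.le
      have hRx := hδ2 x hGx.le hlx hδx
      have hRx0 := hR0 x hGx.le
      have hfl := hflux x hGx.le (fun i => X i x) (hX3 x (hGF x hGx.le))
      have hps := hpos x hGx.le
      rw [show T (len x - R2) = 0 from Real.smoothTransition.zero_of_nonpos (by linarith)]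
      have e1 : ∑ i, deriv T (k * G x) * (k * Stmt.pd i G x) * ((1 - 0) * (x i * (len x ^ n)⁻¹)) =
          deriv T (k * G x) * k * (∑ i, Stmt.pd i G x * (x i / len x)) * (len x ^ (n - 1))⁻¹ := by
        rw [Finset.mul_sum, Finset.sum_mul]
        refine Finset.sum_congr rfl fun i _ => ?_
        obtain ⟨m, rfl⟩ : ∃ m, n = m + 1 := ⟨n - 1, by omega⟩
        simp only [Nat.add_sub_cancel]
        field_simp
        ring
      have e2 : ∑ i, deriv T (k * G x) * (k * Stmt.pd i G x) * W i x =
          deriv T (k * G x) * k * (√(mat D.g x).det * ∑ i, Stmt.pd i G x * X i x) := by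
        rw [Finset.mul_sum, Finset.mul_sum]
        refine Finset.sum_congr rfl fun i _ => ?_
        simp only [hW]
        ring
      rw [e1, e2]
      have hdk : 0 ≤ deriv T (k * G x) * k := by positivity
      have e3 : -(√(mat D.g x).det * ∑ i, Stmt.pd i G x * X i x) ≤
          ((r0 + ε) ^ (n - 1)) * ((∑ i, Stmt.pd i G x * (x i / len x)) * (len x ^ (n - 1))⁻¹) := by
        calc -(√(mat D.g x).det * ∑ i, Stmt.pd i G x * X i x)
            ≤ √(mat D.g x).det * |∑ i, Stmt.pd i G x * X i x| := by
              rw [← mul_neg]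
              gcongr
              exact neg_le_abs _
          _ ≤ _ := hfl
          _ ≤ ((r0 + ε) / len x) ^ (n - 1) * ∑ i, Stmt.pd i G x * (x i / len x) := by
              gcongr
          _ = _ := by rw [div_pow]; field_simp
      calc -(deriv T (k * G x) * k * (√(mat D.g x).det * ∑ i, Stmt.pd i G x * X i x))
          = deriv T (k * G x) * k * -(√(mat D.g x).det * ∑ i, Stmt.pd i G x * X i x) := by ring
        _ ≤ deriv T (k * G x) * k * (((r0 + ε) ^ (n - 1)) *
            ((∑ i, Stmt.pd i G x * (x i / len x)) * (len x ^ (n - 1))⁻¹)) := by gcongr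
        _ = _ := by ring
    -- pass to the limit
    have hdivc : ContinuousOn (fun x => ∑ i, Stmt.pd i (W i) x)
        {x : E n | 0 < (mat D.g x).det} := by
      refine continuousOn_finsetSum _ fun i _ => ?_
      have h1 : ContinuousOn (fun x => fderiv ℝ (W i) x (EuclideanSpace.single i 1))
          {x : E n | 0 < (mat D.g x).det} :=
        ((hWs i).continuousOn_fderiv_of_isOpen hO (by simp)).clm_apply continuousOn_const
      refine h1.congr fun x hx => ?_
      exact pd_fderiv (((hWs i).contDiffAt (hO.mem_nhds hx)).differentiableAt (by simp)) i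
    have hcl : IsClosed {x : E n | 0 ≤ G x} := isClosed_le continuous_const hGc
    have hint : IntegrableOn (fun x => ∑ i, Stmt.pd i (W i) x) {x : E n | 0 ≤ G x} := by
      have hK : IsCompact ({x : E n | 0 ≤ G x} ∩ closedBall 0 R) :=
        (isCompact_closedBall _ _).inter_left hcl
      have h0 : ContinuousOn (fun x => ∑ i, Stmt.pd i (W i) x)
          ({x : E n | 0 ≤ G x} ∩ closedBall 0 R) := hdivc.mono fun x hx => hGO x hx.1
      have h1 := h0.integrableOn_compact hK (μ := volume)
      refine h1.of_forall_sdiff_eq_zero hcl.measurableSet fun x hx => ?_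
      have hx2 : R < len x := by
        by_contra hc
        exact hx.2 ⟨hx.1, by simpa [len] using not_lt.1 hc⟩
      refine Finset.sum_eq_zero fun i _ => ?_
      have h2 : W i =ᶠ[𝓝 x] fun _ => 0 := by
        filter_upwards [(isOpen_lt continuous_const len_continuous).mem_nhds hx2] with y hy
        exact hWR i y hy
      rw [pd_congr' h2]
      simp [Stmt.pd, lineDeriv]
    have hnull : ∀ᵐ x ∂(volume.restrict {x : E n | 0 ≤ G x}), 0 < G x := by
      rw [ae_restrict_iff' hcl.measurableSet]
      have h1 := level_null hn0 hGc hray (R1 := R1) fun x hx => lt_of_lt_of_le one_pos (hinf x hx)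
      have h2 : ∀ᵐ x ∂(volume : Measure (E n)), G x ≠ 0 := by
        rw [ae_iff]; simpa using h1
      filter_upwards [h2] with x hx hx0
      exact lt_of_le_of_ne hx0 (Ne.symm hx)
    have hlimk : Tendsto (fun j : ℕ => ∫ x, T (((j : ℝ) + 1) * G x) * ∑ i, Stmt.pd i (W i) x)
        atTop (𝓝 (∫ x in {x | 0 ≤ G x}, ∑ i, Stmt.pd i (W i) x)) := by
      have h1 : ∀ j : ℕ, ∫ x, T (((j : ℝ) + 1) * G x) * ∑ i, Stmt.pd i (W i) x =
          ∫ x in {x | 0 ≤ G x}, T (((j : ℝ) + 1) * G x) * ∑ i, Stmt.pd i (W i) x := by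
        intro j
        refine (setIntegral_eq_integral_of_forall_compl_eq_zero fun x hx => ?_).symm
        have hx' : G x < 0 := not_le.1 hx
        rw [show T (((j : ℝ) + 1) * G x) = 0 from
          Real.smoothTransition.zero_of_nonpos (mul_neg_of_pos_of_neg (by positivity) hx').le,
          zero_mul]
      simp only [h1]
      refine tendsto_integral_of_dominated_convergence
        (fun x => ‖∑ i, Stmt.pd i (W i) x‖) (fun j => ?_) hint.norm (fun j => ?_) ?_
      · exact ((cut_smooth hG _).continuous.aestronglyMeasurable).mul hint.aestronglyMeasurable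
      · refine Eventually.of_forall fun x => ?_
        rw [norm_mul]
        have h2 : ‖T (((j : ℝ) + 1) * G x)‖ ≤ 1 := by
          rw [Real.norm_eq_abs, abs_of_nonneg (Real.smoothTransition.nonneg _)]
          exact Real.smoothTransition.le_one _
        exact mul_le_of_le_one_left (norm_nonneg _) h2
      · filter_upwards [hnull] with x hx
        refine Tendsto.congr' ?_ tendsto_const_nhds
        obtain ⟨N, hN⟩ := exists_nat_gt (1 / G x)
        filter_upwards [eventually_ge_atTop N] with j hj
        have h3 : 1 ≤ ((j : ℝ) + 1) * G x := by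
          have h4 : (N : ℝ) ≤ j := by exact_mod_cast hj
          have h5 : 1 / G x ≤ (j : ℝ) + 1 := by linarith
          rwa [div_le_iff₀ hx] at h5
        rw [show T (((j : ℝ) + 1) * G x) = 1 from Real.smoothTransition.one_of_one_le h3, one_mul]
    refine le_of_tendsto hlimk ?_
    obtain ⟨N, hN⟩ := exists_nat_gt (1 / δ)
    filter_upwards [eventually_ge_atTop N] with j hj
    have h4 : (N : ℝ) ≤ j := by exact_mod_cast hj
    refine hcut _ (by linarith [Nat.cast_nonneg (α := ℝ) j]) ?_
    have h5 : 1 / δ < (j : ℝ) + 1 := by linarith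
    rwa [div_lt_iff₀ hδ] at h5
  -- let the error tend to zero
  have hlim : Tendsto (fun ε : ℝ => Stmt.omega n * (r0 + ε) ^ (n - 1)) (𝓝[>] 0)
      (𝓝 (Stmt.omega n * r0 ^ (n - 1))) := by
    have hc : Continuous fun ε : ℝ => Stmt.omega n * (r0 + ε) ^ (n - 1) := by fun_prop
    have := hc.tendsto 0
    rw [add_zero] at this
    exact this.mono_left nhdsWithin_le_nhds
  refine ge_of_tendsto hlim ?_
  filter_upwards [self_mem_nhdsWithin] with ε hε using hmain ε hε

end Vale.Agent.P366.T1
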