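import Vale.Agent.P366.T1.A919g

/-! T1, block B4: the asymptotics of the slice `t = f(x)`. The ADM momentum vanishes and the ADM
energy is the limit of the mass function along the rays of the slice. -/

set_option linter.all false

open MeasureTheory Metric Filter Topology Set Asymptotics
open scoped ContDiff ENNReal RealInnerProductSpace

noncomputable section
namespace Vale.Agent.P366.T1

open Vale.Agent.P366.Stmt

variable {n : ℕ}

/-- the signs of the derivatives of the area radius near infinity -/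
theorem A919.An.signs {M : Spacetime} {f : Stmt.E n → ℝ} {D : Stmt.Exterior n} {q : ℝ}
    {U : Set (ℝ × ℝ)} (A : A919.An M f D q U) : ∀ᶠ x in A919.far n,
    du M.r (uv f x) < 0 ∧ 0 < dv M.r (uv f x) := by
  have hq := A.q0
  have h1 := A.s1.small hq (show (0 : ℝ) < 1 / 4 by norm_num)
  have h2 := (A919.An.O_norm_mul A.sT (r := q) (by linarith)).small hq
    (show (0 : ℝ) < 1 / 4 by norm_num)
  have h3 := (A919.An.O_norm_mul A.sX (r := q) (by linarith)).small hq
    (show (0 : ℝ) < 1 / 4 by norm_num)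
  filter_upwards [h1, h2, h3, A.dr] with x k1 k2 k3 k4
  rw [k4.2.1, k4.2.2]
  have l1 := abs_le.mp k1
  have l2 := abs_le.mp k2
  have l3 := abs_le.mp k3
  constructor <;> linarith [l1.1, l1.2, l2.1, l2.2, l3.1, l3.2]

/-- **Block B4.** -/
theorem asympt (hn : 3 ≤ n) (M : Spacetime) (hM : M.IsAF n) {f : Stmt.E n → ℝ}
    {D : Stmt.Exterior n} (hS : IsSlice M f D)
    (hf : ∀ ε > 0, ∃ R, ∀ x, R < len x → |f x| ≤ ε * len x) (hAF : D.IsAF) {m : ℝ}
    {P : Fin n → ℝ} (hm : D.IsEnergy m) (hP : D.IsMomentum P) :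
    P = 0 ∧
      (∀ x : Stmt.E n, x ≠ 0 → Tendsto (fun s : ℝ => M.mass n (uv f (s • x))) atTop (𝓝 m)) ∧
      ∃ R, ∀ x, R < len x → uv f x ∈ M.Q ∧ du M.r (uv f x) < 0 ∧ 0 < dv M.r (uv f x) := by
  obtain ⟨q, hq, A⟩ := A919.an_of hn M hM hS hf hAF
  refine ⟨A.P_zero hn hq hP, fun x hx => A.mass_lim hn hq hm x hx, ?_⟩
  obtain ⟨R, hR⟩ := A919.far_iff.mp (A.mem.and A.signs)
  exact ⟨R, fun x hx => ⟨A.subU (hR x hx).1, (hR x hx).2.1, (hR x hx).2.2⟩⟩

end Vale.Agent.P366.T1
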