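import Vale.Agent.P366.Stmt
import Mathlib.Analysis.InnerProductSpace.Positive

/-!
Traces over the tangent space of a level set: lower bounds, and the touching lemma for the null
expansion (block B1 of T1).
-/

open MeasureTheory Metric Filter Topology Set Matrix
open scoped ContDiff

noncomputable section
namespace Vale.Agent.P366.T1.B526

open Vale.Agent.P366.Stmt

variable {n : ℕ}

/-! ### Linear algebra -/

/-- The value of the bilinear form `A` at `(X, X)`. -/
def qf (A : Fin n → Fin n → ℝ) (X : Fin n → ℝ) : ℝ := ∑ i, ∑ j, A i j * X i * X j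

lemma qf_eq (A : Matrix (Fin n) (Fin n) ℝ) (X : Fin n → ℝ) : qf A X = X ⬝ᵥ (A *ᵥ X) := by
  unfold qf
  simp only [dotProduct, mulVec, Finset.mul_sum]
  refine Finset.sum_congr rfl fun i _ => Finset.sum_congr rfl fun j _ => ?_
  ring

/-- The bilinear form `(p, y) ↦ pᵀ h y`. -/
def bf (h : Matrix (Fin n) (Fin n) ℝ) (p y : Fin n → ℝ) : ℝ := p ⬝ᵥ (h *ᵥ y)

lemma bf_symm {h : Matrix (Fin n) (Fin n) ℝ} (hs : h.IsHermitian) (p y : Fin n → ℝ) :
    bf h p y = bf h y p := by
  unfold bf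
  rw [dotProduct_mulVec, ← mulVec_transpose, dotProduct_comm]
  have : hᵀ = h := by
    rw [← conjTranspose_eq_transpose_of_trivial]
    exact hs
  rw [this]

lemma bf_pos {h : Matrix (Fin n) (Fin n) ℝ} (hp : h.PosDef) {p : Fin n → ℝ} (h0 : p ≠ 0) :
    0 < bf h p p := by
  have := hp.dotProduct_mulVec_pos h0
  simpa [bf] using this

lemma bf_nonneg {h : Matrix (Fin n) (Fin n) ℝ} (hp : h.PosDef) (p : Fin n → ℝ) :
    0 ≤ bf h p p := by
  rcases eq_or_ne p 0 with rfl | h0
  · simp [bf]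
  · exact (bf_pos hp h0).le

lemma bf_sub_smul (h : Matrix (Fin n) (Fin n) ℝ) (p y : Fin n → ℝ) (s : ℝ)
    (hs : h.IsHermitian) :
    bf h (y - s • p) (y - s • p) = bf h y y - 2 * s * bf h p y + s ^ 2 * bf h p p := by
  have h1 := bf_symm hs y p
  unfold bf at h1 ⊢
  rw [mulVec_sub, mulVec_smul, sub_dotProduct, dotProduct_sub, dotProduct_sub, smul_dotProduct,
    smul_dotProduct, dotProduct_smul, dotProduct_smul, h1]
  simp only [smul_eq_mul]
  ring

/-- The unit normal vector. -/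
def nv (h : Matrix (Fin n) (Fin n) ℝ) (p : Fin n → ℝ) : Fin n → ℝ :=
  fun i => (h *ᵥ p) i / √(bf h p p)

/-- The inverse metric of the tangent space. -/
def tg (h : Matrix (Fin n) (Fin n) ℝ) (p : Fin n → ℝ) : Matrix (Fin n) (Fin n) ℝ :=
  h - vecMulVec (nv h p) (nv h p)

lemma nv_dot {h : Matrix (Fin n) (Fin n) ℝ} (hs : h.IsHermitian) (p y : Fin n → ℝ) :
    nv h p ⬝ᵥ y = bf h p y / √(bf h p p) := by
  have h1 := bf_symm hs y p
  unfold nv
  rw [← h1]
  conv_rhs => unfold bf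
  simp only [dotProduct, Finset.sum_div]
  refine Finset.sum_congr rfl fun i _ => ?_
  simp only [bf, dotProduct]
  ring

lemma tg_form {h : Matrix (Fin n) (Fin n) ℝ} (hs : h.IsHermitian) (p y : Fin n → ℝ) :
    y ⬝ᵥ (tg h p *ᵥ y) = bf h y y - (bf h p y / √(bf h p p)) ^ 2 := by
  unfold tg
  rw [sub_mulVec, dotProduct_sub, vecMulVec_mulVec, op_smul_eq_smul, dotProduct_smul,
    dotProduct_comm y (nv h p), nv_dot hs]
  simp only [bf, smul_eq_mul]
  ring

lemma tg_posSemidef {h : Matrix (Fin n) (Fin n) ℝ} (hp : h.PosDef) {p : Fin n → ℝ}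
    (h0 : p ≠ 0) : (tg h p).PosSemidef := by
  have hs := hp.isHermitian
  have hN := bf_pos hp h0
  refine PosSemidef.of_dotProduct_mulVec_nonneg ?_ fun y => ?_
  · ext i j
    have h1 : h j i = h i j := by
      have := congrFun (congrFun hs i) j
      simpa using this
    simp [tg, vecMulVec_apply, h1, mul_comm]
  · have h1 := bf_nonneg hp (y - (bf h p y / bf h p p) • p)
    rw [bf_sub_smul h p y _ hs] at h1
    have h2 : star y = y := by simp
    rw [h2, tg_form hs, div_pow, Real.sq_sqrt hN.le]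
    have h3 : bf h y y - 2 * (bf h p y / bf h p p) * bf h p y
        + (bf h p y / bf h p p) ^ 2 * bf h p p = bf h y y - bf h p y ^ 2 / bf h p p := by
      field_simp; ring
    linarith only [h1, h3]

lemma tg_self {h : Matrix (Fin n) (Fin n) ℝ} (hp : h.PosDef) {p : Fin n → ℝ}
    (h0 : p ≠ 0) : p ⬝ᵥ (tg h p *ᵥ p) = 0 := by
  have hN := bf_pos hp h0
  rw [tg_form hp.isHermitian, div_pow, Real.sq_sqrt hN.le]
  field_simp
  ring

/-- The trace of `A` over the tangent space. -/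
def tt (h : Matrix (Fin n) (Fin n) ℝ) (p : Fin n → ℝ) (A : Fin n → Fin n → ℝ) : ℝ :=
  ∑ i, ∑ j, tg h p i j * A i j

lemma tt_ge {h : Matrix (Fin n) (Fin n) ℝ} (hp : h.PosDef) {p : Fin n → ℝ} (h0 : p ≠ 0)
    {A B : Fin n → Fin n → ℝ} (hAB : ∀ X : Fin n → ℝ, p ⬝ᵥ X = 0 → qf A X ≤ qf B X) :
    tt h p A ≤ tt h p B := by
  obtain ⟨m, v, hv⟩ := posSemidef_iff_eq_sum_vecMulVec.mp (tg_posSemidef hp h0)
  have hv' : ∀ i j, tg h p i j = ∑ a, v a i * v a j := by
    intro i j
    rw [hv, Matrix.sum_apply]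
    simp [vecMulVec_apply]
  have hz : ∀ a, p ⬝ᵥ v a = 0 := by
    have h1 : ∑ a, (p ⬝ᵥ v a) ^ 2 = 0 := by
      rw [← tg_self hp h0]
      simp only [dotProduct, mulVec, hv', Finset.sum_mul, Finset.mul_sum, sq]
      rw [Finset.sum_comm]
      refine Finset.sum_congr rfl fun i _ => ?_
      rw [Finset.sum_comm]
      refine Finset.sum_congr rfl fun j _ => Finset.sum_congr rfl fun a _ => ?_
      ring
    intro a
    have h2 := (Finset.sum_eq_zero_iff_of_nonneg (fun a _ => sq_nonneg (p ⬝ᵥ v a))).1 h1 a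
      (Finset.mem_univ a)
    exact pow_eq_zero_iff (two_ne_zero) |>.1 h2
  have hsum : ∀ A : Fin n → Fin n → ℝ, tt h p A = ∑ a, qf A (v a) := by
    intro A
    unfold tt qf
    simp only [hv', Finset.sum_mul]
    rw [Finset.sum_comm (s := (Finset.univ : Finset (Fin m)))]
    refine Finset.sum_congr rfl fun i _ => ?_
    rw [Finset.sum_comm (s := (Finset.univ : Finset (Fin m)))]
    refine Finset.sum_congr rfl fun j _ => Finset.sum_congr rfl fun a _ => ?_
    ring
  rw [hsum, hsum]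
  exact Finset.sum_le_sum fun a _ => hAB _ (hz a)

lemma tt_inv {g : Matrix (Fin n) (Fin n) ℝ} (hp : g.PosDef) {p : Fin n → ℝ} (h0 : p ≠ 0) :
    tt g⁻¹ p g = (n : ℝ) - 1 := by
  have hi := hp.inv
  have hN := bf_pos hi h0
  have hdet : IsUnit g.det := hp.isUnit.map detMonoidHom
  have hgs : ∀ i j, g i j = g j i := by
    intro i j
    have := congrFun (congrFun hp.isHermitian i) j
    simpa using this.symm
  have h1 : ∑ i, ∑ j, g⁻¹ i j * g i j = n := by
    have h2 : ∀ i, ∑ j, g⁻¹ i j * g i j = (g⁻¹ * g) i i := by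
      intro i
      rw [mul_apply]
      exact Finset.sum_congr rfl fun j _ => by rw [hgs i j]
    simp only [h2, nonsing_inv_mul g hdet, one_apply_eq, Finset.sum_const, Finset.card_univ,
      Fintype.card_fin, nsmul_eq_mul, mul_one]
  have h3 : ∑ i, ∑ j, nv g⁻¹ p i * nv g⁻¹ p j * g i j = 1 := by
    have h4 : ∑ i, ∑ j, nv g⁻¹ p i * nv g⁻¹ p j * g i j = nv g⁻¹ p ⬝ᵥ (g *ᵥ nv g⁻¹ p) := by
      simp only [dotProduct, mulVec, Finset.mul_sum]
      refine Finset.sum_congr rfl fun i _ => Finset.sum_congr rfl fun j _ => ?_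
      ring
    have h5 : nv g⁻¹ p = (√(bf g⁻¹ p p))⁻¹ • (g⁻¹ *ᵥ p) := by
      ext i
      simp only [nv, Pi.smul_apply, smul_eq_mul]
      rw [div_eq_inv_mul]
    have h6 : g *ᵥ nv g⁻¹ p = (√(bf g⁻¹ p p))⁻¹ • p := by
      rw [h5, mulVec_smul, mulVec_mulVec, mul_nonsing_inv g hdet, one_mulVec]
    rw [h4, h6, dotProduct_smul, nv_dot hi.isHermitian, smul_eq_mul, div_eq_inv_mul, ← mul_assoc,
      ← sq, inv_pow, Real.sq_sqrt hN.le]
    exact inv_mul_cancel₀ hN.ne'
  have h7 : ∀ i j, tg g⁻¹ p i j * g i j = g⁻¹ i j * g i j - nv g⁻¹ p i * nv g⁻¹ p j * g i j := by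
    intro i j
    rw [tg, Matrix.sub_apply, vecMulVec_apply]
    ring
  unfold tt
  simp only [h7, Finset.sum_sub_distrib]
  rw [h1, h3]

/-! ### The trace over the tangent space in the notation of the statement -/

/-- The differential of `F` at `x`. -/
def dd (F : E n → ℝ) (x : E n) : Fin n → ℝ := fun i => pd i F x

lemma covNorm_eq (g : Field n) (F : E n → ℝ) (x : E n) :
    covNorm g (fun j => pd j F) x = √(bf (mat g x)⁻¹ (dd F x) (dd F x)) := by
  unfold covNorm bf
  congr 1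
  simp only [dotProduct, mulVec, Finset.mul_sum]
  refine Finset.sum_congr rfl fun i _ => Finset.sum_congr rfl fun j _ => ?_
  simp only [up, dd]
  ring

lemma nrm_eq (g : Field n) (F : E n → ℝ) (x : E n) (i : Fin n) :
    nrm g F i x = nv (mat g x)⁻¹ (dd F x) i := by
  unfold nrm nv
  rw [covNorm_eq]
  rfl

lemma trS_eq (g A : Field n) (F : E n → ℝ) (x : E n) :
    trS g A F x = tt (mat g x)⁻¹ (dd F x) (A x) := by
  have h7 : ∀ i j, tg (mat g x)⁻¹ (dd F x) i j * A x i j = (mat g x)⁻¹ i j * A x i j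
      - A x i j * nv (mat g x)⁻¹ (dd F x) i * nv (mat g x)⁻¹ (dd F x) j := by
    intro i j
    rw [tg, Matrix.sub_apply, vecMulVec_apply]
    ring
  unfold trS tt tr
  simp only [h7, Finset.sum_sub_distrib, nrm_eq, up]

lemma tt_lin (h : Matrix (Fin n) (Fin n) ℝ) (p : Fin n → ℝ) (A B : Fin n → Fin n → ℝ) (s : ℝ) :
    tt h p (fun i j => A i j / s + B i j) = tt h p A / s + tt h p B := by
  unfold tt
  simp only [mul_add, Finset.sum_add_distrib, Finset.sum_div, mul_div_assoc]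

lemma tt_smul (h : Matrix (Fin n) (Fin n) ℝ) (p : Fin n → ℝ) (A : Fin n → Fin n → ℝ) (s : ℝ) :
    tt h p (fun i j => s * A i j) = s * tt h p A := by
  unfold tt
  simp only [Finset.mul_sum]
  refine Finset.sum_congr rfl fun i _ => Finset.sum_congr rfl fun j _ => ?_
  ring

lemma qf_lin (A B : Fin n → Fin n → ℝ) (s : ℝ) (X : Fin n → ℝ) :
    qf (fun i j => A i j / s + B i j) X = qf A X / s + qf B X := by
  unfold qf
  simp only [add_mul, Finset.sum_add_distrib, Finset.sum_div, div_mul_eq_mul_div]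

lemma qf_smul (A : Fin n → Fin n → ℝ) (s : ℝ) (X : Fin n → ℝ) :
    qf (fun i j => s * A i j) X = s * qf A X := by
  unfold qf
  simp only [Finset.mul_sum]
  refine Finset.sum_congr rfl fun i _ => Finset.sum_congr rfl fun j _ => ?_
  ring

/-- A lower bound of the null expansion. -/
theorem theta_ge {g K : Field n} {F : E n → ℝ} {x : E n} (hp : (mat g x).PosDef)
    (hF : dd F x ≠ 0) (c : ℝ) (h : ∀ X : Fin n → ℝ, dd F x ⬝ᵥ X = 0 →
      c * qf (g x) X ≤ qf (hess g F x) X / covNorm g (fun j => pd j F) x + qf (K x) X) :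
    ((n : ℝ) - 1) * c ≤ thetaPlus g K F x := by
  have h1 := tt_ge hp.inv hF (A := fun i j => c * g x i j)
    (B := fun i j => hess g F x i j / covNorm g (fun j => pd j F) x + K x i j)
    (fun X hX => by rw [qf_smul, qf_lin]; exact h X hX)
  rw [tt_smul, tt_lin] at h1
  have h2 := tt_inv hp hF
  unfold thetaPlus
  rw [trS_eq, trS_eq]
  change c * tt (mat g x)⁻¹ (dd F x) (mat g x) ≤ _ at h1
  rw [h2] at h1
  linarith only [h1]

end Vale.Agent.P366.T1.B526
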