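import Vale.Agent.P366.T1.B526a

/-!
The touching lemma for the null expansion (block B1 of T1).
-/

open MeasureTheory Metric Filter Topology Set Matrix
open scoped ContDiff

noncomputable section
namespace Vale.Agent.P366.T1.B526

open Vale.Agent.P366.Stmt

variable {n : ℕ}

/-! ### Curves with a given 2-jet -/

/-- The curve `x + t X + t² / 2 Z`. -/
def cv (x X Z : E n) (t : ℝ) : E n := x + t • X + (t ^ 2 / 2) • Z

lemma cv_zero (x X Z : E n) : cv x X Z 0 = x := by simp [cv]

lemma cv_hasDerivAt (x X Z : E n) (t : ℝ) : HasDerivAt (cv x X Z) (X + t • Z) t := by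
  have h1 : HasDerivAt (fun t : ℝ => t • X) X t := by
    simpa using (hasDerivAt_id t).smul_const X
  have h2 : HasDerivAt (fun t : ℝ => (t ^ 2 / 2) • Z) (t • Z) t := by
    have h3 : HasDerivAt (fun t : ℝ => t ^ 2 / 2) t t := by
      have := (hasDerivAt_pow 2 t).div_const 2
      refine this.congr_deriv ?_
      simp
    exact h3.smul_const Z
  exact (h1.const_add x).add h2

lemma cv_cont (x X Z : E n) : Continuous (cv x X Z) := by
  unfold cv; fun_prop

/-- The first two derivatives of a function along the curve. -/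
lemma curve2 {H : E n → ℝ} {x : E n} (hH : ContDiffAt ℝ 2 H x) (X Z : E n) :
    ContinuousAt (fun t => H (cv x X Z t)) 0 ∧
    HasDerivAt (fun t => H (cv x X Z t)) (fderiv ℝ H x X) 0 ∧
    (∀ᶠ t in 𝓝 (0 : ℝ), HasDerivAt (fun t => H (cv x X Z t))
      (fderiv ℝ H (cv x X Z t) (X + t • Z)) t) ∧
    deriv (deriv fun t => H (cv x X Z t)) 0 =
      fderiv ℝ (fderiv ℝ H) x X X + fderiv ℝ H x Z := by
  have hev : ∀ᶠ y in 𝓝 x, ContDiffAt ℝ 2 H y := hH.eventually (by norm_num)
  have hc : Tendsto (cv x X Z) (𝓝 0) (𝓝 x) := by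
    have := (cv_cont x X Z).tendsto 0
    rwa [cv_zero] at this
  have hd : ∀ᶠ t in 𝓝 (0 : ℝ), HasDerivAt (fun t => H (cv x X Z t))
      (fderiv ℝ H (cv x X Z t) (X + t • Z)) t := by
    filter_upwards [hc.eventually hev] with t ht
    exact (ht.differentiableAt (by norm_num)).hasFDerivAt.comp_hasDerivAt t
      (cv_hasDerivAt x X Z t)
  have h0 : HasDerivAt (fun t => H (cv x X Z t)) (fderiv ℝ H x X) 0 := by
    have := hd.self_of_nhds
    rw [cv_zero] at this
    simpa using this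
  refine ⟨h0.continuousAt, h0, hd, ?_⟩
  have hf : HasFDerivAt (fderiv ℝ H) (fderiv ℝ (fderiv ℝ H) x) x :=
    ((hH.fderiv_right (m := 1) (by norm_num)).differentiableAt (by norm_num)).hasFDerivAt
  have h1 : HasDerivAt (fun t => fderiv ℝ H (cv x X Z t)) (fderiv ℝ (fderiv ℝ H) x X) 0 := by
    have h2 := cv_hasDerivAt x X Z 0
    rw [zero_smul, add_zero] at h2
    have h3 : HasFDerivAt (fderiv ℝ H) (fderiv ℝ (fderiv ℝ H) x) (cv x X Z 0) := by
      rw [cv_zero]; exact hf
    exact h3.comp_hasDerivAt 0 h2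
  have h4 : HasDerivAt (fun t : ℝ => X + t • Z) Z 0 := by
    have := ((hasDerivAt_id (0 : ℝ)).smul_const Z).const_add X
    simpa using this
  have h5 := h1.clm_apply h4
  have h6 : deriv (fun t => H (cv x X Z t)) =ᶠ[𝓝 0]
      fun t => fderiv ℝ H (cv x X Z t) (X + t • Z) := by
    filter_upwards [hd] with t ht
    exact ht.deriv
  rw [h6.deriv_eq, h5.deriv, cv_zero]
  simp

/-- second derivative test: necessary condition -/
theorem second_deriv_nonneg {φ : ℝ → ℝ} (hmin : IsLocalMin φ 0) (hc : ContinuousAt φ 0) :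
    0 ≤ deriv (deriv φ) 0 := by
  by_contra hlt
  push Not at hlt
  have h1 : deriv φ 0 = 0 := hmin.deriv_eq_zero
  have hmax := isLocalMax_of_deriv_deriv_neg hlt h1 hc
  have hconst : φ =ᶠ[𝓝 0] fun _ => φ 0 := by
    filter_upwards [hmin, hmax] with t h2 h3
    exact le_antisymm h3 h2
  have h4 : deriv φ =ᶠ[𝓝 0] fun _ => 0 := by
    have := hconst.deriv
    refine this.trans ?_
    filter_upwards with t
    simp
  have h5 := h4.deriv_eq
  simp at h5
  linarith only [h5, hlt]

/-- First and second order conditions at a point where `{V > V x}` lies on one side of the level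
set of `G`. -/
theorem touch_jet {G V : E n → ℝ} {x : E n} (hG : ContDiffAt ℝ 2 G x) (hV : ContDiffAt ℝ 2 V x)
    {e : E n} (he : fderiv ℝ V x e = 1) (hloc : ∀ᶠ y in 𝓝 x, V x < V y → G x ≤ G y) :
    0 ≤ fderiv ℝ G x e ∧ (∀ X, fderiv ℝ G x X = fderiv ℝ G x e * fderiv ℝ V x X) ∧
    ∀ X, fderiv ℝ V x X = 0 → fderiv ℝ G x e * fderiv ℝ (fderiv ℝ V) x X X ≤
      fderiv ℝ (fderiv ℝ G) x X X := by
  have hfirst : ∀ Y, 0 < fderiv ℝ V x Y → 0 ≤ fderiv ℝ G x Y := by
    intro Y hY
    obtain ⟨-, hG1, -, -⟩ := curve2 hG Y 0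
    obtain ⟨-, hV1, -, -⟩ := curve2 hV Y 0
    have hc : Tendsto (cv x Y 0) (𝓝 0) (𝓝 x) := by
      have := (cv_cont x Y 0).tendsto 0
      rwa [cv_zero] at this
    have h1 := hV1.tendsto_slope_zero_right
    have h2 : ∀ᶠ t in 𝓝[>] (0 : ℝ), V x < V (cv x Y 0 t) := by
      filter_upwards [h1.eventually (lt_mem_nhds hY), self_mem_nhdsWithin] with t ht ht0
      have ht0' : (0 : ℝ) < t := ht0
      simp only [zero_add, cv_zero, smul_eq_mul] at ht
      have h3 := (mul_pos_iff_of_pos_left (inv_pos.2 ht0')).1 ht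
      linarith only [h3]
    refine ge_of_tendsto hG1.tendsto_slope_zero_right ?_
    filter_upwards [h2, nhdsWithin_le_nhds (hc.eventually hloc), self_mem_nhdsWithin]
      with t ht h3 ht0
    have ht0' : (0 : ℝ) < t := ht0
    simp only [zero_add, cv_zero, smul_eq_mul]
    exact mul_nonneg (inv_pos.2 ht0').le (by linarith only [h3 ht])
  set lam := fderiv ℝ G x e with hlam
  have hlam0 : 0 ≤ lam := hfirst e (by rw [he]; exact one_pos)
  have hgrad1 : ∀ X, lam * fderiv ℝ V x X ≤ fderiv ℝ G x X := by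
    intro X
    refine le_of_forall_pos_le_add fun ε hε => ?_
    have h1 := hfirst (X - (fderiv ℝ V x X - ε / (lam + 1)) • e) (by
      rw [map_sub, map_smul, he]
      simp only [smul_eq_mul, mul_one, sub_sub_cancel]
      positivity)
    rw [map_sub, map_smul, ← hlam, smul_eq_mul] at h1
    have h2 : ε / (lam + 1) * lam ≤ ε := by
      rw [div_mul_eq_mul_div, div_le_iff₀ (by positivity)]
      nlinarith only [hε, hlam0]
    linarith only [h1, h2]
  have hgrad : ∀ X, fderiv ℝ G x X = lam * fderiv ℝ V x X := by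
    intro X
    have h1 := hgrad1 X
    have h2 := hgrad1 (-X)
    rw [map_neg, map_neg] at h2
    linarith only [h1, h2]
  refine ⟨hlam0, hgrad, fun X hX => ?_⟩
  refine le_of_forall_pos_le_add fun ε hε => ?_
  set δ : ℝ := ε / (lam + 1) with hδ
  have hδ0 : 0 < δ := by positivity
  set κ : ℝ := δ - fderiv ℝ (fderiv ℝ V) x X X with hκ
  obtain ⟨hGc, -, -, hG2⟩ := curve2 hG X (κ • e)
  obtain ⟨hVc, hV1, hVe, hV2⟩ := curve2 hV X (κ • e)
  have hc : Tendsto (cv x X (κ • e)) (𝓝 0) (𝓝 x) := by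
    have := (cv_cont x X (κ • e)).tendsto 0
    rwa [cv_zero] at this
  -- `V` increases along the curve
  have hq : ∀ t : ℝ, HasDerivAt (fun t : ℝ => δ / 4 * t ^ 2) (δ / 2 * t) t := by
    intro t
    refine ((hasDerivAt_pow 2 t).const_mul (δ / 4)).congr_deriv ?_
    simp only [Nat.cast_ofNat, Nat.add_one_sub_one, pow_one]
    ring
  have hWd : HasDerivAt (fun t => V (cv x X (κ • e) t) - δ / 4 * t ^ 2)
      (fderiv ℝ V x X - δ / 2 * 0) 0 := hV1.sub (hq 0)
  have hW1 : deriv (fun t => V (cv x X (κ • e) t) - δ / 4 * t ^ 2) 0 = 0 := by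
    rw [hWd.deriv, hX]
    simp
  have hW2 : deriv (deriv fun t => V (cv x X (κ • e) t) - δ / 4 * t ^ 2) 0 = δ / 2 := by
    have h1 : deriv (fun t => V (cv x X (κ • e) t) - δ / 4 * t ^ 2) =ᶠ[𝓝 0]
        fun t => deriv (fun t => V (cv x X (κ • e) t)) t - δ / 2 * t := by
      filter_upwards [hVe] with t ht
      have h0 : HasDerivAt (fun t => V (cv x X (κ • e) t) - δ / 4 * t ^ 2)
        (fderiv ℝ V (cv x X (κ • e) t) (X + t • κ • e) - δ / 2 * t) t := ht.sub (hq t)
      rw [h0.deriv, ht.deriv]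
    rw [h1.deriv_eq]
    have h2 : DifferentiableAt ℝ (deriv fun t => V (cv x X (κ • e) t)) 0 := by
      have hf : HasFDerivAt (fderiv ℝ V) (fderiv ℝ (fderiv ℝ V) x) x :=
        ((hV.fderiv_right (m := 1) (by norm_num)).differentiableAt (by norm_num)).hasFDerivAt
      have h6 : deriv (fun t => V (cv x X (κ • e) t)) =ᶠ[𝓝 0]
          fun t => fderiv ℝ V (cv x X (κ • e) t) (X + t • (κ • e)) := by
        filter_upwards [hVe] with t ht
        exact ht.deriv
      refine DifferentiableAt.congr_of_eventuallyEq ?_ h6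
      have h3 : HasFDerivAt (fderiv ℝ V) (fderiv ℝ (fderiv ℝ V) x) (cv x X (κ • e) 0) := by
        rw [cv_zero]; exact hf
      have h7 := h3.comp_hasDerivAt 0 (cv_hasDerivAt x X (κ • e) 0)
      have h4 : HasDerivAt (fun t : ℝ => X + t • (κ • e)) (κ • e) 0 := by
        have := ((hasDerivAt_id (0 : ℝ)).smul_const (κ • e)).const_add X
        simpa using this
      exact (h7.clm_apply h4).differentiableAt
    have h3 : HasDerivAt (fun t : ℝ => δ / 2 * t) (δ / 2) 0 := by
      simpa using (hasDerivAt_id (0 : ℝ)).const_mul (δ / 2)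
    have h8 : HasDerivAt (fun t => deriv (fun t => V (cv x X (κ • e) t)) t - δ / 2 * t)
      (deriv (deriv fun t => V (cv x X (κ • e) t)) 0 - δ / 2) 0 := h2.hasDerivAt.sub h3
    rw [h8.deriv, hV2, map_smul, he, smul_eq_mul, hκ]
    ring
  have hWc : ContinuousAt (fun t => V (cv x X (κ • e) t) - δ / 4 * t ^ 2) 0 :=
    hWd.continuousAt
  have hWmin : IsLocalMin (fun t => V (cv x X (κ • e) t) - δ / 4 * t ^ 2) 0 :=
    isLocalMin_of_deriv_deriv_pos (by rw [hW2]; positivity) hW1 hWc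
  have hGmin : IsLocalMin (fun t => G (cv x X (κ • e) t)) 0 := by
    filter_upwards [hWmin, hc.eventually hloc] with t h1 h2
    simp only [cv_zero] at h1 ⊢
    rcases eq_or_ne t 0 with h0 | h0
    · rw [h0, cv_zero]
    · apply h2
      have : 0 < δ / 4 * t ^ 2 := by positivity
      linarith only [h1, this]
  have hfin := second_deriv_nonneg hGmin hGc
  rw [hG2, map_smul, ← hlam, smul_eq_mul, hκ] at hfin
  have h2 : δ * lam ≤ ε := by
    rw [hδ, div_mul_eq_mul_div, div_le_iff₀ (by positivity)]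
    nlinarith only [hε, hlam0]
  nlinarith only [hfin, h2]

/-! ### Partial derivatives -/

/-- The `i`-th coordinate vector. -/
def sg (i : Fin n) : E n := EuclideanSpace.single i 1

lemma pd_eq {F : E n → ℝ} {x : E n} (hF : DifferentiableAt ℝ F x) (i : Fin n) :
    pd i F x = fderiv ℝ F x (sg i) := hF.lineDeriv_eq_fderiv

lemma toLp_sum (X : Fin n → ℝ) : (WithLp.toLp 2 X : E n) = ∑ i, X i • sg i := by
  ext j
  simp only [sg, WithLp.ofLp_sum, WithLp.ofLp_smul, PiLp.ofLp_single, Finset.sum_apply,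
    Pi.smul_apply, Pi.single_apply, smul_eq_mul, mul_ite, mul_one, mul_zero, Finset.sum_ite_eq,
    Finset.mem_univ, if_true]

lemma dd_dot {F : E n → ℝ} {x : E n} (hF : DifferentiableAt ℝ F x) (X : Fin n → ℝ) :
    dd F x ⬝ᵥ X = fderiv ℝ F x (WithLp.toLp 2 X) := by
  rw [toLp_sum, map_sum]
  simp only [dotProduct, dd, pd_eq hF, map_smul, smul_eq_mul]
  exact Finset.sum_congr rfl fun i _ => by ring

lemma pd_pd {F : E n → ℝ} {x : E n} (hF : ContDiffAt ℝ 2 F x) (i j : Fin n) :
    pd i (pd j F) x = fderiv ℝ (fderiv ℝ F) x (sg i) (sg j) := by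
  have hev : ∀ᶠ y in 𝓝 x, ContDiffAt ℝ 2 F y := hF.eventually (by norm_num)
  have h1 : pd j F =ᶠ[𝓝 x] fun y => fderiv ℝ F y (sg j) := by
    filter_upwards [hev] with y hy
    exact pd_eq (hy.differentiableAt (by norm_num)) j
  have hf : HasFDerivAt (fderiv ℝ F) (fderiv ℝ (fderiv ℝ F) x) x :=
    ((hF.fderiv_right (m := 1) (by norm_num)).differentiableAt (by norm_num)).hasFDerivAt
  have h3 : HasFDerivAt (fun y => fderiv ℝ F y (sg j))
      ((fderiv ℝ (fderiv ℝ F) x).flip (sg j)) x := by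
    simpa using hf.clm_apply (hasFDerivAt_const (sg j) x)
  change lineDeriv ℝ (pd j F) x (sg i) = _
  rw [h1.lineDeriv_eq]
  exact (h3.hasLineDerivAt _).lineDeriv

/-- The flat Hessian as a field. -/
def fh (F : E n → ℝ) (x : E n) : Fin n → Fin n → ℝ := fun i j => pd i (pd j F) x

lemma qf_fh {F : E n → ℝ} {x : E n} (hF : ContDiffAt ℝ 2 F x) (X : Fin n → ℝ) :
    qf (fh F x) X = fderiv ℝ (fderiv ℝ F) x (WithLp.toLp 2 X) (WithLp.toLp 2 X) := by
  have h1 : fderiv ℝ (fderiv ℝ F) x (WithLp.toLp 2 X) (WithLp.toLp 2 X) =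
      fderiv ℝ (fderiv ℝ F) x (∑ i, X i • sg i) (∑ j, X j • sg j) := by rw [← toLp_sum]
  rw [h1, map_sum]
  simp only [map_smul, map_sum, qf, fh, pd_pd hF, _root_.sum_apply, _root_.smul_apply,
    smul_eq_mul, Finset.mul_sum]
  rw [Finset.sum_comm]
  refine Finset.sum_congr rfl fun i _ => Finset.sum_congr rfl fun j _ => ?_
  ring

/-- The value of the contracted Christoffel symbols `Γ^k(X, X) p_k`. -/
def qc (g : Field n) (x : E n) (p X : Fin n → ℝ) : ℝ :=
  qf (fun i j => ∑ k, chr g k i j x * p k) X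

lemma qf_hess (g : Field n) (F : E n → ℝ) (x : E n) (X : Fin n → ℝ) :
    qf (hess g F x) X = qf (fh F x) X - qc g x (dd F x) X := by
  unfold qc qf hess fh dd
  rw [← Finset.sum_sub_distrib]
  refine Finset.sum_congr rfl fun i _ => ?_
  rw [← Finset.sum_sub_distrib]
  refine Finset.sum_congr rfl fun j _ => ?_
  ring

lemma qc_smul (g : Field n) (x : E n) (p X : Fin n → ℝ) (s : ℝ) :
    qc g x (s • p) X = s * qc g x p X := by
  unfold qc
  rw [← qf_smul]
  congr 1
  funext i j
  rw [Finset.mul_sum]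
  refine Finset.sum_congr rfl fun k _ => ?_
  simp only [Pi.smul_apply, smul_eq_mul]
  ring

/-- **The touching lemma.** Near `x` the set `{V > V x}` lies in `{G ≥ G x}`. Then the null
expansion of the level set of `G` at `x` is bounded below by that of the level set of `V`. -/
theorem theta_touch_aux {g K : Field n} {G V : E n → ℝ} {x : E n} (hp : (mat g x).PosDef)
    (hG : ContDiffAt ℝ 2 G x) (hV : ContDiffAt ℝ 2 V x) (hGne : dd G x ≠ 0)
    (hVne : dd V x ≠ 0) (hloc : ∀ᶠ y in 𝓝 x, V x < V y → G x ≤ G y) (c : ℝ)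
    (h : ∀ X : Fin n → ℝ, dd V x ⬝ᵥ X = 0 →
      c * qf (g x) X ≤ qf (hess g V x) X / covNorm g (fun j => pd j V) x + qf (K x) X) :
    ((n : ℝ) - 1) * c ≤ thetaPlus g K G x := by
  have hGd := hG.differentiableAt (by norm_num : (2 : WithTop ℕ∞) ≠ 0)
  have hVd := hV.differentiableAt (by norm_num : (2 : WithTop ℕ∞) ≠ 0)
  -- a vector with `dV(e) = 1`
  have hVV : 0 < dd V x ⬝ᵥ dd V x := by
    rcases (dotProduct_self_star_nonneg (dd V x)).eq_or_lt with h0 | h0
    · exact absurd (dotProduct_self_star_eq_zero.1 h0.symm) hVne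
    · simpa using h0
  set e : E n := WithLp.toLp 2 ((dd V x ⬝ᵥ dd V x)⁻¹ • dd V x) with he
  have he1 : fderiv ℝ V x e = 1 := by
    rw [he, ← dd_dot hVd, dotProduct_smul, smul_eq_mul]
    exact inv_mul_cancel₀ hVV.ne'
  obtain ⟨hlam0, hgrad, hsec⟩ := touch_jet hG hV he1 hloc
  set lam := fderiv ℝ G x e with hlam
  have hdd : dd G x = lam • dd V x := by
    funext i
    simp only [dd, Pi.smul_apply, smul_eq_mul, pd_eq hGd, pd_eq hVd]
    exact hgrad _
  have hlam1 : 0 < lam := by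
    rcases hlam0.eq_or_lt with h0 | h0
    · exact absurd (by rw [hdd, ← h0, zero_smul]) hGne
    · exact h0
  have hN : 0 < bf (mat g x)⁻¹ (dd V x) (dd V x) := bf_pos hp.inv hVne
  have hcov : covNorm g (fun j => pd j G) x = lam * covNorm g (fun j => pd j V) x := by
    rw [covNorm_eq, covNorm_eq, hdd]
    have h1 : bf (mat g x)⁻¹ (lam • dd V x) (lam • dd V x) =
        lam ^ 2 * bf (mat g x)⁻¹ (dd V x) (dd V x) := by
      unfold bf
      rw [mulVec_smul, dotProduct_smul, smul_dotProduct, smul_eq_mul, smul_eq_mul]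
      ring
    rw [h1, Real.sqrt_mul (sq_nonneg _), Real.sqrt_sq hlam1.le]
  have hcV : 0 < covNorm g (fun j => pd j V) x := by
    rw [covNorm_eq]; exact Real.sqrt_pos.2 hN
  refine theta_ge hp hGne c fun X hX => ?_
  have hX' : dd V x ⬝ᵥ X = 0 := by
    rw [hdd, smul_dotProduct, smul_eq_mul] at hX
    exact (mul_eq_zero.1 hX).resolve_left hlam1.ne'
  have h1 := h X hX'
  have h2 := hsec (WithLp.toLp 2 X) (by rw [← dd_dot hVd]; exact hX')
  rw [← qf_fh hG, ← qf_fh hV] at h2
  rw [qf_hess, hdd, qc_smul, hcov]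
  rw [qf_hess] at h1
  have h3 : (qf (fh V x) X - qc g x (dd V x) X) / covNorm g (fun j => pd j V) x ≤
      (qf (fh G x) X - lam * qc g x (dd V x) X) / (lam * covNorm g (fun j => pd j V) x) := by
    rw [div_le_div_iff₀ hcV (by positivity)]
    have h4 : lam * (qf (fh V x) X - qc g x (dd V x) X) ≤
        qf (fh G x) X - lam * qc g x (dd V x) X := by linarith only [h2]
    calc (qf (fh V x) X - qc g x (dd V x) X) * (lam * covNorm g (fun j => pd j V) x)
        = (lam * (qf (fh V x) X - qc g x (dd V x) X)) * covNorm g (fun j => pd j V) x := by ring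
      _ ≤ _ := mul_le_mul_of_nonneg_right h4 hcV.le
  linarith only [h1, h3]

end Vale.Agent.P366.T1.B526
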