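import Vale.Agent.P366.T1.B526b

/-!
The side lemma: at a point where `V` is maximal on `{G = 0}` and `G ≥ 0` on the outward ray, the
set `{V > V x}` lies in `{G ≥ 0}` near `x` (block B1 of T1).
-/

open MeasureTheory Metric Filter Topology Set
open scoped ContDiff

noncomputable section
namespace Vale.Agent.P366.T1.B526

open Vale.Agent.P366.Stmt

variable {n : ℕ}

lemma seg_pos {G : E n → ℝ} (hG : Continuous G) {a b : E n}
    (hne : ∀ t ∈ Icc (0 : ℝ) 1, G (a + t • (b - a)) ≠ 0) (hb : 0 < G b) : 0 < G a := by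
  by_contra hcon
  push Not at hcon
  have hc : ContinuousOn (fun t : ℝ => G (a + t • (b - a))) (Icc 0 1) := by
    apply Continuous.continuousOn
    fun_prop
  have h1 := intermediate_value_Icc (zero_le_one' ℝ) hc
  have h2 : (0 : ℝ) ∈ Icc ((fun t : ℝ => G (a + t • (b - a))) 0)
      ((fun t : ℝ => G (a + t • (b - a))) 1) := by
    simp only [zero_smul, add_zero, one_smul, add_sub_cancel]
    exact ⟨hcon, hb.le⟩
  obtain ⟨t, ht, hGt⟩ := h1 h2
  exact hne t ht hGt

/-- The side lemma. -/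
theorem side {G V : E n → ℝ} {x : E n} (hG : Continuous G) (hV : ContDiffAt ℝ 2 V x)
    (h0 : G x = 0) (he : 0 < fderiv ℝ V x x) (hmax : ∀ᶠ y in 𝓝 x, G y = 0 → V y ≤ V x)
    (hdir : ∀ᶠ s in 𝓝[>] (1 : ℝ), 0 ≤ G (s • x)) : ∀ᶠ y in 𝓝 x, V x < V y → G x ≤ G y := by
  have hev : ∀ᶠ y in 𝓝 x, ContDiffAt ℝ 2 V y := hV.eventually (by norm_num)
  have hcf : ContinuousAt (fderiv ℝ V) x := hV.continuousAt_fderiv (by norm_num)
  have hpos : ∀ᶠ y in 𝓝 x, 0 < fderiv ℝ V y x := by
    have h1 : ContinuousAt (fun y => fderiv ℝ V y x) x :=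
      hcf.clm_apply continuousAt_const
    exact h1.eventually (lt_mem_nhds he)
  obtain ⟨r, hr, hball⟩ := Metric.eventually_nhds_iff_ball.1 ((hev.and hpos).and hmax)
  -- monotonicity along `x` in the ball
  have hmono : ∀ y, ∀ δ : ℝ, 0 ≤ δ → (∀ t ∈ Icc 0 δ, y + t • x ∈ ball x r) →
      StrictMonoOn (fun t : ℝ => V (y + t • x)) (Icc 0 δ) := by
    intro y δ hδ hin
    have hd : ∀ t ∈ Icc 0 δ, HasDerivAt (fun t : ℝ => V (y + t • x)) (fderiv ℝ V (y + t • x) x) t := by
      intro t ht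
      have h1 := ((hball _ (hin t ht)).1.1.differentiableAt (by norm_num)).hasFDerivAt
      have h2 : HasDerivAt (fun t : ℝ => y + t • x) x t := by
        simpa using ((hasDerivAt_id t).smul_const x).const_add y
      exact h1.comp_hasDerivAt t h2
    refine strictMonoOn_of_deriv_pos (convex_Icc 0 δ)
      (fun t ht => (hd t ht).continuousAt.continuousWithinAt) fun t ht => ?_
    rw [interior_Icc] at ht
    have ht' : t ∈ Icc 0 δ := Ioo_subset_Icc_self ht
    rw [(hd t ht').deriv]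
    exact (hball _ (hin t ht')).1.2
  -- the choice of `δ`
  obtain ⟨s0, hs0, hs⟩ : ∃ s0 > (1 : ℝ), ∀ s, 1 < s → s < s0 → 0 ≤ G (s • x) := by
    obtain ⟨s0, h1, h2⟩ := mem_nhdsGT_iff_exists_Ioo_subset.1 hdir
    exact ⟨s0, h1, fun s h3 h4 => h2 ⟨h3, h4⟩⟩
  set δ : ℝ := min ((s0 - 1) / 2) (r / (2 * (‖x‖ + 1))) with hδ
  have hx1 : 0 < ‖x‖ + 1 := by positivity
  have hδ0 : 0 < δ := lt_min (by linarith only [hs0]) (by positivity)
  have hδs : 1 + δ < s0 := by
    have := min_le_left ((s0 - 1) / 2) (r / (2 * (‖x‖ + 1)))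
    rw [← hδ] at this
    linarith only [this, hs0]
  have hδr : δ * ‖x‖ < r / 2 + r / 2 * 0 + 0 ∨ δ * ‖x‖ ≤ r / 2 := by
    right
    have h1 := min_le_right ((s0 - 1) / 2) (r / (2 * (‖x‖ + 1)))
    rw [← hδ] at h1
    calc δ * ‖x‖ ≤ r / (2 * (‖x‖ + 1)) * (‖x‖ + 1) :=
          mul_le_mul h1 (by linarith only) (norm_nonneg _) (by positivity)
      _ = r / 2 := by field_simp
  have hδr : δ * ‖x‖ ≤ r / 2 := by
    rcases hδr with h | h
    · linarith only [h]
    · exact h
  have hin : ∀ y ∈ ball x (r / 2), ∀ t ∈ Icc 0 δ, y + t • x ∈ ball x r := by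
    intro y hy t ht
    rw [mem_ball, dist_eq_norm] at hy ⊢
    have h1 : y + t • x - x = (y - x) + t • x := by abel
    have h2 : ‖t • x‖ ≤ r / 2 := by
      rw [norm_smul, Real.norm_eq_abs, abs_of_nonneg ht.1]
      exact (mul_le_mul_of_nonneg_right ht.2 (norm_nonneg _)).trans hδr
    rw [h1]
    calc ‖y - x + t • x‖ ≤ ‖y - x‖ + ‖t • x‖ := norm_add_le _ _
      _ < r := by linarith only [hy, h2]
  have hxr : x ∈ ball x (r / 2) := mem_ball_self (by positivity)
  have hVδ : V x < V (x + δ • x) := by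
    have := hmono x δ hδ0.le (hin x hxr) (left_mem_Icc.2 hδ0.le) (right_mem_Icc.2 hδ0.le) hδ0
    simpa using this
  have hnear : ∀ᶠ y in 𝓝 x, V x < V (y + δ • x) := by
    have h1 : ContinuousAt V (x + δ • x) :=
      ((hball _ (hin x hxr δ (right_mem_Icc.2 hδ0.le))).1.1).continuousAt
    have h2 : Tendsto (fun y => y + δ • x) (𝓝 x) (𝓝 (x + δ • x)) := by
      have : Continuous fun y : E n => y + δ • x := by fun_prop
      exact this.tendsto x
    exact (h1.tendsto.comp h2).eventually (lt_mem_nhds hVδ)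
  obtain ⟨η, hη, hηb⟩ := Metric.eventually_nhds_iff_ball.1 hnear
  have hGδ : 0 < G (x + δ • x) := by
    have h1 : x + δ • x = (1 + δ) • x := by rw [add_smul, one_smul]
    have h2 : 0 ≤ G (x + δ • x) := by
      rw [h1]; exact hs _ (by linarith only [hδ0]) hδs
    refine lt_of_le_of_ne h2 fun h3 => ?_
    have := (hball _ (hin x hxr δ (right_mem_Icc.2 hδ0.le))).2 h3.symm
    linarith only [this, hVδ]
  filter_upwards [ball_mem_nhds x (lt_min hη (half_pos hr))] with y hy hVy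
  have hyη : y ∈ ball x η := ball_subset_ball (min_le_left _ _) hy
  have hyr : y ∈ ball x (r / 2) := ball_subset_ball (min_le_right _ _) hy
  rw [h0]
  have hG1 : 0 < G (y + δ • x) := by
    refine seg_pos hG (b := x + δ • x) (fun t ht h3 => ?_) hGδ
    have h4 : y + δ • x + t • (x + δ • x - (y + δ • x)) = (y + t • (x - y)) + δ • x := by
      have : x + δ • x - (y + δ • x) = x - y := by abel
      rw [this]; abel
    rw [h4] at h3
    have h5 : ∀ ρ, y ∈ ball x ρ → y + t • (x - y) ∈ ball x ρ := by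
      intro ρ hρ
      rw [mem_ball, dist_eq_norm] at hρ ⊢
      have h6 : y + t • (x - y) - x = (1 - t) • (y - x) := by
        rw [sub_smul, one_smul, smul_sub, smul_sub]; abel
      rw [h6, norm_smul, Real.norm_eq_abs, abs_of_nonneg (by linarith only [ht.2])]
      calc (1 - t) * ‖y - x‖ ≤ 1 * ‖y - x‖ :=
            mul_le_mul_of_nonneg_right (by linarith only [ht.1]) (norm_nonneg _)
        _ < ρ := by rw [one_mul]; exact hρ
    have h7 := hηb _ (h5 η hyη)
    have h8 := (hball _ (hin _ (h5 _ hyr) δ (right_mem_Icc.2 hδ0.le))).2 h3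
    linarith only [h7, h8]
  refine (seg_pos hG (b := y + δ • x) (fun t ht h3 => ?_) hG1).le
  have h4 : y + t • (y + δ • x - y) = y + (t * δ) • x := by
    rw [add_sub_cancel_left, smul_smul]
  rw [h4] at h3
  have h5 : t * δ ∈ Icc 0 δ :=
    ⟨mul_nonneg ht.1 hδ0.le, by nlinarith only [ht.2, hδ0]⟩
  have h6 := (hball _ (hin _ hyr _ h5)).2 h3
  have h7 := (hmono y δ hδ0.le (hin y hyr)).monotoneOn (left_mem_Icc.2 hδ0.le) h5 h5.1
  simp only [zero_smul, add_zero] at h7
  linarith only [h6, h7, hVy]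

end Vale.Agent.P366.T1.B526
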