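import Vale.Agent.P366.T1.B526c
import Vale.Agent.P366.T1.Stmt
import Mathlib.Analysis.Calculus.FDeriv.Symmetric

/-!
Derivatives along lines of the quantities in the metric of a slice (block B1 of T1).
-/

open MeasureTheory Metric Filter Topology Set
open scoped ContDiff

noncomputable section
namespace Vale.Agent.P366.T1.B526

open Vale.Agent.P366.Stmt

variable {n : ℕ}

/-- The scalar product of coordinate vectors. -/
def ip (x : E n) (Y : Fin n → ℝ) : ℝ := ∑ i, x i * Y i

lemma ip_add_smul (x W : E n) (t : ℝ) (Y : Fin n → ℝ) :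
    ip (x + t • W) Y = ip x Y + t * ip W Y := by
  unfold ip
  rw [Finset.mul_sum, ← Finset.sum_add_distrib]
  refine Finset.sum_congr rfl fun i _ => ?_
  simp only [PiLp.add_apply, PiLp.smul_apply, smul_eq_mul]
  ring

lemma ip_self (x : E n) : ip x x = len x ^ 2 := by
  unfold ip len
  rw [EuclideanSpace.real_norm_sq_eq]
  exact Finset.sum_congr rfl fun i _ => by ring

lemma ip_comm (x y : E n) : ip x y = ip y x := by
  unfold ip
  exact Finset.sum_congr rfl fun i _ => by ring

/-- The line through `x` in the direction `W`. -/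
def ln (x W : E n) (t : ℝ) : E n := x + t • W

lemma ln_zero (x W : E n) : ln x W 0 = x := by simp [ln]

lemma ln_hasDerivAt (x W : E n) : HasDerivAt (ln x W) W 0 := by
  have h1 : HasDerivAt (fun t : ℝ => x + t • W) ((1 : ℝ) • W) 0 :=
    ((hasDerivAt_id (0 : ℝ)).smul_const W).const_add x
  rw [one_smul] at h1
  exact h1

lemma ln_tendsto (x W : E n) : Tendsto (ln x W) (𝓝 0) (𝓝 x) := by
  have := (ln_hasDerivAt x W).continuousAt.tendsto
  rwa [ln_zero] at this

lemma line_of_fderiv {F : Type} [NormedAddCommGroup F] [NormedSpace ℝ F] {H : E n → F}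
    {x : E n} (hH : DifferentiableAt ℝ H x) (W : E n) :
    HasDerivAt (fun t => H (ln x W t)) (fderiv ℝ H x W) 0 := by
  have h1 : HasFDerivAt H (fderiv ℝ H x) (ln x W 0) := by
    rw [ln_zero]; exact hH.hasFDerivAt
  exact h1.comp_hasDerivAt 0 (ln_hasDerivAt x W)

lemma ip_line (x W : E n) (Y : Fin n → ℝ) : HasDerivAt (fun t => ip (ln x W t) Y) (ip W Y) 0 := by
  have h1 : (fun t => ip (ln x W t) Y) = fun t => ip x Y + t * ip W Y := by
    funext t; exact ip_add_smul x W t Y
  rw [h1]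
  simpa using ((hasDerivAt_id (0 : ℝ)).mul_const (ip W Y)).const_add (ip x Y)

lemma len_pos {x : E n} (hx : x ≠ 0) : 0 < len x := norm_pos_iff.2 hx

lemma len_line {x : E n} (hx : x ≠ 0) (W : E n) :
    HasDerivAt (fun t => len (ln x W t)) (ip x W / len x) 0 := by
  have hl := len_pos hx
  have h1 : HasDerivAt (fun t => ip x x + t * (2 * ip x W) + t ^ 2 * ip W W) (2 * ip x W) 0 := by
    have h2 := (((hasDerivAt_id (0 : ℝ)).mul_const (2 * ip x W)).const_add (ip x x)).add
      ((hasDerivAt_pow 2 (0 : ℝ)).mul_const (ip W W))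
    refine h2.congr_deriv ?_
    simp
  have h3 : (fun t => len (ln x W t)) = fun t => √(ip x x + t * (2 * ip x W) + t ^ 2 * ip W W) := by
    funext t
    have h4 : len (ln x W t) ^ 2 = ip x x + t * (2 * ip x W) + t ^ 2 * ip W W := by
      rw [← ip_self]
      unfold ln
      rw [ip_add_smul, ip_comm x, ip_comm W, ip_add_smul, ip_add_smul, ip_comm W x]
      ring
    rw [← h4]
    exact (Real.sqrt_sq (norm_nonneg _)).symm
  rw [h3]
  have h5 : ip x x + 0 * (2 * ip x W) + 0 ^ 2 * ip W W ≠ 0 := by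
    rw [ip_self]
    have : 0 < len x ^ 2 := by positivity
    simp [this.ne']
  refine (h1.sqrt h5).congr_deriv ?_
  have h6 : √(ip x x + 0 * (2 * ip x W) + 0 ^ 2 * ip W W) = len x := by
    rw [ip_self]
    simp only [zero_mul, add_zero, ne_eq, OfNat.ofNat_ne_zero, not_false_eq_true, zero_pow]
    exact Real.sqrt_sq hl.le
  rw [h6]
  field_simp

/-- The component `x · Y / |x|`. -/
def nY (Y : Fin n → ℝ) (x : E n) : ℝ := ip x Y / len x

lemma nY_line {x : E n} (hx : x ≠ 0) (W : E n) (Y : Fin n → ℝ) :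
    HasDerivAt (fun t => nY Y (ln x W t)) ((ip W Y - nY Y x * nY W x) / len x) 0 := by
  have hl := len_pos hx
  have h1 := (ip_line x W Y).div (len_line hx W) (by rw [ln_zero]; exact hl.ne')
  refine h1.congr_deriv ?_
  rw [ln_zero]
  unfold nY
  field_simp

/-- The derivative of `f` in the direction `Y`. -/
def fY (f : E n → ℝ) (Y : E n) (x : E n) : ℝ := fderiv ℝ f x Y

/-- The second derivative of `f`. -/
def f2 (f : E n → ℝ) (x W Y : E n) : ℝ := fderiv ℝ (fderiv ℝ f) x W Y

lemma fY_line {f : E n → ℝ} {x : E n} (hf : ContDiffAt ℝ 2 f x) (W Y : E n) :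
    HasDerivAt (fun t => fY f Y (ln x W t)) (f2 f x W Y) 0 := by
  have h1 : DifferentiableAt ℝ (fderiv ℝ f) x :=
    (hf.fderiv_right (m := 1) (by norm_num)).differentiableAt (by norm_num)
  have h2 := (line_of_fderiv h1 W).clm_apply (hasDerivAt_const (0 : ℝ) Y)
  refine h2.congr_deriv ?_
  simp [f2]

lemma f2_symm {f : E n → ℝ} {x : E n} (hf : ContDiffAt ℝ 2 f x) (W Y : E n) :
    f2 f x W Y = f2 f x Y W := by
  have h1 := hf.isSymmSndFDerivAt (by simp)
  exact h1 W Y

/-! ### Functions of the null coordinates -/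

lemma uv_line {f : E n → ℝ} {x : E n} (hf : DifferentiableAt ℝ f x) (hx : x ≠ 0) (W : E n) :
    HasDerivAt (fun t => uv f (ln x W t)) (fY f W x - nY W x, fY f W x + nY W x) 0 := by
  have h1 := line_of_fderiv hf W
  have h2 := len_line hx W
  exact (h1.sub h2).prodMk (h1.add h2)

lemma uv_fun_line {M : Spacetime} {H : ℝ × ℝ → ℝ} (hH : ContDiffOn ℝ ∞ H M.Q) {f : E n → ℝ}
    {x : E n} (hf : DifferentiableAt ℝ f x) (hx : x ≠ 0) (hQ : uv f x ∈ M.Q) (W : E n) :
    HasDerivAt (fun t => H (uv f (ln x W t))) (du H (uv f x) * (fY f W x - nY W x) +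
      dv H (uv f x) * (fY f W x + nY W x)) 0 := by
  have hd : DifferentiableAt ℝ H (uv f x) :=
    (hH.contDiffAt (M.isOpen.mem_nhds hQ)).differentiableAt (by norm_num)
  have h1 : HasFDerivAt H (fderiv ℝ H (uv f x)) (uv f (ln x W 0)) := by
    rw [ln_zero]; exact hd.hasFDerivAt
  have h2 := h1.comp_hasDerivAt 0 (uv_line hf hx W)
  refine h2.congr_deriv ?_
  have h3 : (fY f W x - nY W x, fY f W x + nY W x) =
      (fY f W x - nY W x) • ((1 : ℝ), (0 : ℝ)) + (fY f W x + nY W x) • ((0 : ℝ), (1 : ℝ)) := by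
    ext <;> simp
  rw [h3, map_add, map_smul, map_smul]
  unfold du dv
  rw [hd.lineDeriv_eq_fderiv, hd.lineDeriv_eq_fderiv]
  simp only [smul_eq_mul]
  ring

end Vale.Agent.P366.T1.B526
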