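import Vale.Agent.P366.T1.B526d

/-!
Contracted Christoffel symbols of the metric of a slice (block B1 of T1).
-/

open MeasureTheory Metric Filter Topology Set Matrix
open scoped ContDiff

noncomputable section
namespace Vale.Agent.P366.T1.B526

open Vale.Agent.P366.Stmt

variable {n : ℕ}

/-- The function `y ↦ g_y(Y, Z)`. -/
def bil (g : Field n) (Y Z : Fin n → ℝ) (y : E n) : ℝ := ∑ i, ∑ j, g y i j * Y i * Z j

/-- Directional derivatives as sums of partial derivatives. -/
lemma sum_pd {H : E n → ℝ} {x : E n} (hH : DifferentiableAt ℝ H x) (W : E n) :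
    ∑ i, W i * pd i H x = fderiv ℝ H x W := by
  have h1 : fderiv ℝ H x W = fderiv ℝ H x (WithLp.toLp 2 (WithLp.ofLp W)) := rfl
  rw [h1, ← dd_dot hH]
  simp only [dotProduct, dd]
  exact Finset.sum_congr rfl fun i _ => by ring

lemma bil_fderiv {g : Field n} {x : E n} (hg : ∀ i j, DifferentiableAt ℝ (fun y => g y i j) x)
    (Y Z : Fin n → ℝ) (W : E n) :
    DifferentiableAt ℝ (bil g Y Z) x ∧ fderiv ℝ (bil g Y Z) x W =
      ∑ i, ∑ j, (∑ k, W k * pd k (fun y => g y i j) x) * Y i * Z j := by
  have h1 : HasFDerivAt (bil g Y Z)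
      (∑ i, ∑ j, Z j • (Y i • fderiv ℝ (fun y => g y i j) x)) x := by
    unfold bil
    refine HasFDerivAt.fun_sum fun i _ => HasFDerivAt.fun_sum fun j _ => ?_
    exact ((hg i j).hasFDerivAt.mul_const (Y i)).mul_const (Z j)
  refine ⟨h1.differentiableAt, ?_⟩
  rw [h1.fderiv]
  simp only [_root_.sum_apply, _root_.smul_apply, smul_eq_mul, sum_pd (hg _ _)]
  refine Finset.sum_congr rfl fun i _ => Finset.sum_congr rfl fun j _ => ?_
  ring

/-- The lowered Christoffel symbols. -/
lemma qc_low {g : Field n} {x : E n} (hp : (mat g x).PosDef)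
    (hg : ∀ i j, DifferentiableAt ℝ (fun y => g y i j) x)
    (N X : Fin n → ℝ) :
    qc g x (mat g x *ᵥ N) X = fderiv ℝ (bil g X N) x (WithLp.toLp 2 X) -
      fderiv ℝ (bil g X X) x (WithLp.toLp 2 N) / 2 := by
  have hdet : IsUnit (mat g x).det := hp.isUnit.map detMonoidHom
  have hsy : ∀ k l, up g k l x = up g l k x := by
    intro k l
    have := congrFun (congrFun hp.inv.isHermitian k) l
    simpa [up] using this.symm
  have h1 : ∀ l, ∑ k, up g k l x * (mat g x *ᵥ N) k = N l := by
    intro l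
    have h2 : ((mat g x)⁻¹ *ᵥ (mat g x *ᵥ N)) l = N l := by
      rw [mulVec_mulVec, nonsing_inv_mul _ hdet, one_mulVec]
    rw [← h2]
    simp only [mulVec, dotProduct]
    refine Finset.sum_congr rfl fun k _ => ?_
    rw [hsy]; rfl
  have h3 : ∀ i j, ∑ k, chr g k i j x * (mat g x *ᵥ N) k =
      ∑ l, (pd i (fun y => g y j l) x + pd j (fun y => g y i l) x
        - pd l (fun y => g y i j) x) * N l / 2 := by
    intro i j
    have h4 : ∀ k, chr g k i j x * (mat g x *ᵥ N) k =
        ∑ l, (pd i (fun y => g y j l) x + pd j (fun y => g y i l) x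
          - pd l (fun y => g y i j) x) / 2 * (up g k l x * (mat g x *ᵥ N) k) := by
      intro k
      unfold chr
      rw [Finset.sum_div, Finset.sum_mul]
      exact Finset.sum_congr rfl fun l _ => by ring
    simp only [h4]
    rw [Finset.sum_comm]
    refine Finset.sum_congr rfl fun l _ => ?_
    rw [← Finset.mul_sum, h1]
    ring
  rw [(bil_fderiv hg X N _).2, (bil_fderiv hg X X _).2]
  unfold qc qf
  simp only [h3]
  -- expand everything into triple sums
  have hA : ∑ i, ∑ j, (∑ l, (pd i (fun y => g y j l) x + pd j (fun y => g y i l) x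
      - pd l (fun y => g y i j) x) * N l / 2) * X i * X j =
      (∑ i, ∑ j, ∑ l, pd i (fun y => g y j l) x * N l * X i * X j) / 2 +
      (∑ i, ∑ j, ∑ l, pd j (fun y => g y i l) x * N l * X i * X j) / 2 -
      (∑ i, ∑ j, ∑ l, pd l (fun y => g y i j) x * N l * X i * X j) / 2 := by
    simp only [Finset.sum_div, ← Finset.sum_add_distrib, ← Finset.sum_sub_distrib, Finset.sum_mul]
    refine Finset.sum_congr rfl fun i _ => Finset.sum_congr rfl fun j _ =>
      Finset.sum_congr rfl fun l _ => ?_
    ring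
  have hB : ∑ i, ∑ j, ∑ l, pd j (fun y => g y i l) x * N l * X i * X j =
      ∑ i, ∑ j, ∑ l, pd i (fun y => g y j l) x * N l * X i * X j := by
    rw [Finset.sum_comm]
    refine Finset.sum_congr rfl fun i _ => Finset.sum_congr rfl fun j _ =>
      Finset.sum_congr rfl fun l _ => ?_
    ring
  have hC : ∑ i, ∑ j, (∑ k, (WithLp.toLp 2 X : E n) k * pd k (fun y => g y i j) x) * X i * N j =
      ∑ i, ∑ j, ∑ l, pd i (fun y => g y j l) x * N l * X i * X j := by
    simp only [Finset.sum_mul]
    have h5 : ∀ i : Fin n, ∑ j, ∑ k, (WithLp.toLp 2 X : E n) k * pd k (fun y => g y i j) x *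
        X i * N j = ∑ k, ∑ j, (WithLp.toLp 2 X : E n) k * pd k (fun y => g y i j) x *
        X i * N j := fun i => Finset.sum_comm
    simp only [h5]
    rw [Finset.sum_comm]
    refine Finset.sum_congr rfl fun i _ => Finset.sum_congr rfl fun j _ =>
      Finset.sum_congr rfl fun l _ => ?_
    ring
  have hD : ∑ i, ∑ j, (∑ k, (WithLp.toLp 2 N : E n) k * pd k (fun y => g y i j) x) * X i * X j =
      ∑ i, ∑ j, ∑ l, pd l (fun y => g y i j) x * N l * X i * X j := by
    simp only [Finset.sum_mul]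
    refine Finset.sum_congr rfl fun i _ => Finset.sum_congr rfl fun j _ =>
      Finset.sum_congr rfl fun l _ => ?_
    ring
  rw [hA, hB, hC, hD]
  ring

lemma qc_add (g : Field n) (x : E n) (p q X : Fin n → ℝ) :
    qc g x (p + q) X = qc g x p X + qc g x q X := by
  unfold qc qf
  rw [← Finset.sum_add_distrib]
  refine Finset.sum_congr rfl fun i _ => ?_
  rw [← Finset.sum_add_distrib]
  refine Finset.sum_congr rfl fun j _ => ?_
  simp only [Pi.add_apply, mul_add, Finset.sum_add_distrib]
  ring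

/-! ### The slice metric -/

/-- The unit radial vector. -/
def nn (x : E n) : Fin n → ℝ := fun i => x i / len x

lemma ip_nn {x : E n} (Y : Fin n → ℝ) : ∑ i, nn x i * Y i = nY Y x := by
  unfold nn nY ip
  rw [Finset.sum_div]
  exact Finset.sum_congr rfl fun i _ => by ring

lemma nY_nn {x : E n} (hx : x ≠ 0) : nY (nn x) x = 1 := by
  have hl := len_pos hx
  have h1 : ip x (nn x) = len x := by
    have h2 : ip x (nn x) = ip x x / len x := by
      unfold ip nn
      rw [Finset.sum_div]
      exact Finset.sum_congr rfl fun i _ => by ring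
    rw [h2, ip_self]
    field_simp
  unfold nY
  rw [h1]
  exact div_self hl.ne'

lemma fY_sum {f : E n → ℝ} {x : E n} (hf : DifferentiableAt ℝ f x) (Y : Fin n → ℝ) :
    ∑ i, pd i f x * Y i = fY f (WithLp.toLp 2 Y) x := by
  unfold fY
  rw [← dd_dot hf]
  rfl

/-- Closed form of the slice metric on two vectors. -/
lemma bil_slice (M : Spacetime) {f : E n → ℝ} {y : E n} (hf : DifferentiableAt ℝ f y)
    (Y Z : Fin n → ℝ) :
    bil (sliceG M f) Y Z y = M.F (uv f y) * nY Y y * nY Z y +
      (M.r (uv f y) / len y) ^ 2 * ((∑ i, Y i * Z i) - nY Y y * nY Z y) -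
      M.F (uv f y) * fY f (WithLp.toLp 2 Y) y * fY f (WithLp.toLp 2 Z) y := by
  rw [← ip_nn Y, ← ip_nn Z, ← fY_sum hf Y, ← fY_sum hf Z]
  unfold bil sliceG
  have hδ : ∀ i, ∑ j, (if i = j then (1 : ℝ) else 0) * Y i * Z j = Y i * Z i := by
    intro i
    simp
  have h1 : ∀ i j, (M.F (uv f y) * (y i / len y) * (y j / len y) +
      (M.r (uv f y) / len y) ^ 2 * ((if i = j then 1 else 0) - (y i / len y) * (y j / len y)) -
      M.F (uv f y) * pd i f y * pd j f y) * Y i * Z j =
      M.F (uv f y) * ((nn y i * Y i) * (nn y j * Z j)) +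
      (M.r (uv f y) / len y) ^ 2 * ((if i = j then (1 : ℝ) else 0) * Y i * Z j) -
      (M.r (uv f y) / len y) ^ 2 * ((nn y i * Y i) * (nn y j * Z j)) -
      M.F (uv f y) * ((pd i f y * Y i) * (pd j f y * Z j)) := by
    intro i j
    unfold nn
    ring
  simp only [h1, Finset.sum_sub_distrib, Finset.sum_add_distrib, ← Finset.mul_sum, hδ,
    ← Finset.sum_mul]
  ring

end Vale.Agent.P366.T1.B526
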