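import Vale.Agent.P366.T1.B526e

/-!
The second fundamental form of the level sets of `f - |x|` in a slice (block B1 of T1).
-/

open MeasureTheory Metric Filter Topology Set Matrix
open scoped ContDiff

noncomputable section
namespace Vale.Agent.P366.T1.B526

open Vale.Agent.P366.Stmt

variable {n : ℕ}

lemma len_differentiableAt {x : E n} (hx : x ≠ 0) : DifferentiableAt ℝ (len : E n → ℝ) x :=
  (contDiffAt_norm ℝ hx (n := 1)).differentiableAt (by norm_num)

lemma fderiv_len {x : E n} (hx : x ≠ 0) (W : E n) : fderiv ℝ (len : E n → ℝ) x W = nY W x := by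
  exact (line_of_fderiv (len_differentiableAt hx) W).unique (len_line hx W)

section Slice

variable {M : Spacetime} {f : E n → ℝ} (hf : ContDiff ℝ ∞ f) {x : E n} (hx : x ≠ 0)
  (hQ : uv f x ∈ M.Q)

include hf

lemma hf1 (y : E n) : DifferentiableAt ℝ f y := hf.contDiffAt.differentiableAt (by norm_num)

lemma hf2 (y : E n) : ContDiffAt ℝ 2 f y := hf.contDiffAt.of_le (by norm_cast)

include hx

lemma uv_differentiableAt : DifferentiableAt ℝ (uv f) x :=
  ((hf1 hf x).sub (len_differentiableAt hx)).prodMk ((hf1 hf x).add (len_differentiableAt hx))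

include hQ

lemma comp_uv_differentiableAt {H : ℝ × ℝ → ℝ} (hH : ContDiffOn ℝ ∞ H M.Q) :
    DifferentiableAt ℝ (fun y => H (uv f y)) x := by
  have hd : DifferentiableAt ℝ H (uv f x) :=
    (hH.contDiffAt (M.isOpen.mem_nhds hQ)).differentiableAt (by norm_num)
  exact hd.comp x (uv_differentiableAt hf hx)

lemma sliceG_differentiableAt (i j : Fin n) :
    DifferentiableAt ℝ (fun y => sliceG M f y i j) x := by
  have h1 := comp_uv_differentiableAt hf hx hQ M.smooth.1
  have h2 := comp_uv_differentiableAt hf hx hQ M.smooth.2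
  have h3 := len_differentiableAt hx
  have h4 : (len x : ℝ) ≠ 0 := (len_pos hx).ne'
  have h5 : ∀ k : Fin n, DifferentiableAt ℝ (fun y : E n => y k) x := fun k => by fun_prop
  have h3' : DifferentiableAt ℝ (fun y : E n => (len y)⁻¹) x := h3.fun_inv h4
  have h6 : ∀ k : Fin n, DifferentiableAt ℝ (fun y : E n => y k / len y) x := by
    intro k
    simp only [div_eq_mul_inv]
    exact (h5 k).fun_mul h3'
  have h7 : ∀ k : Fin n, DifferentiableAt ℝ (fun y : E n => pd k f y) x := by
    intro k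
    have h8 : (fun y : E n => pd k f y) = fun y => fderiv ℝ f y (sg k) := by
      funext y; exact pd_eq (hf1 hf y) k
    rw [h8]
    have h9 : DifferentiableAt ℝ (fderiv ℝ f) x :=
      ((hf2 hf x).fderiv_right (m := 1) (by norm_num)).differentiableAt (by norm_num)
    exact h9.clm_apply (differentiableAt_const _)
  have h2' : DifferentiableAt ℝ (fun y : E n => (M.r (uv f y) / len y) ^ 2) x := by
    simp only [div_eq_mul_inv]
    exact (h2.fun_mul h3').fun_pow 2
  unfold sliceG
  exact (((h1.fun_mul (h6 i)).fun_mul (h6 j)).fun_add (h2'.fun_mul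
    ((differentiableAt_const _).fun_sub ((h6 i).fun_mul (h6 j))))).fun_sub
    ((h1.fun_mul (h7 i)).fun_mul (h7 j))

omit hf hx hQ in
lemma ln_ne_zero (hx : x ≠ 0) (W : E n) : ∀ᶠ t in 𝓝 (0 : ℝ), ln x W t ≠ 0 :=
  (ln_tendsto x W).eventually (isOpen_ne.mem_nhds hx)

/-- Derivatives of the slice metric on fixed vectors along a line. -/
lemma bil_line (Y Z : Fin n → ℝ) (W : E n) {F Fu Fv r ru rv a b : ℝ}
    (hF : M.F (uv f x) = F) (hFu : du M.F (uv f x) = Fu) (hFv : dv M.F (uv f x) = Fv)
    (hr : M.r (uv f x) = r) (hru : du M.r (uv f x) = ru) (hrv : dv M.r (uv f x) = rv)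
    (ha : fY f W x = a) (hb : nY W x = b) :
    HasDerivAt (fun t => bil (sliceG M f) Y Z (ln x W t))
      (((Fu * (a - b) + Fv * (a + b)) * nY Y x * nY Z x
        + F * ((ip W Y - nY Y x * b) / len x) * nY Z x
        + F * nY Y x * ((ip W Z - nY Z x * b) / len x))
      + (2 * (r / len x) * (((ru * (a - b) + rv * (a + b)) * len x - r * b) / len x ^ 2)
          * ((∑ i, Y i * Z i) - nY Y x * nY Z x)
        - (r / len x) ^ 2 * ((ip W Y - nY Y x * b) / len x * nY Z x
          + nY Y x * ((ip W Z - nY Z x * b) / len x)))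
      - ((Fu * (a - b) + Fv * (a + b)) * fY f (WithLp.toLp 2 Y) x * fY f (WithLp.toLp 2 Z) x
        + F * f2 f x W (WithLp.toLp 2 Y) * fY f (WithLp.toLp 2 Z) x
        + F * fY f (WithLp.toLp 2 Y) x * f2 f x W (WithLp.toLp 2 Z))) 0 := by
  have hfun : (fun t => bil (sliceG M f) Y Z (ln x W t)) = fun t =>
      M.F (uv f (ln x W t)) * nY Y (ln x W t) * nY Z (ln x W t) +
      (M.r (uv f (ln x W t)) / len (ln x W t)) ^ 2 *
        ((∑ i, Y i * Z i) - nY Y (ln x W t) * nY Z (ln x W t)) -
      M.F (uv f (ln x W t)) * fY f (WithLp.toLp 2 Y) (ln x W t) *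
        fY f (WithLp.toLp 2 Z) (ln x W t) := by
    funext t
    exact bil_slice M (hf1 hf _) Y Z
  rw [hfun]
  have hl := len_pos hx
  have e0 : ln x W 0 = x := ln_zero x W
  have dF := uv_fun_line M.smooth.1 (hf1 hf x) hx hQ W
  have dr := uv_fun_line M.smooth.2 (hf1 hf x) hx hQ W
  have dl := len_line hx W
  have dY := nY_line hx W Y
  have dZ := nY_line hx W Z
  have d2Y := fY_line (hf2 hf x) W (WithLp.toLp 2 Y)
  have d2Z := fY_line (hf2 hf x) W (WithLp.toLp 2 Z)
  have hl0 : len (ln x W 0) ≠ 0 := by rw [e0]; exact hl.ne'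
  have h := (((dF.fun_mul dY).fun_mul dZ).fun_add (((dr.fun_div dl hl0).fun_pow 2).fun_mul
    ((hasDerivAt_const (0 : ℝ) (∑ i, Y i * Z i)).fun_sub (dY.fun_mul dZ)))).fun_sub
    ((dF.fun_mul d2Y).fun_mul d2Z)
  refine h.congr_deriv ?_
  rw [e0, hF, hFu, hFv, hr, hru, hrv, ha, hb]
  have hb' : ip x W / len x = b := hb
  rw [hb']
  simp only [Nat.cast_ofNat, Nat.add_one_sub_one, pow_one]
  ring

end Slice

end Vale.Agent.P366.T1.B526
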