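import Vale.Agent.P366.T1.B526f

/-!
The null expansion of the level sets of `|x| - f` in a slice (block B1 of T1).
-/

open MeasureTheory Metric Filter Topology Set Matrix
open scoped ContDiff

noncomputable section
namespace Vale.Agent.P366.T1.B526

open Vale.Agent.P366.Stmt

variable {n : ℕ}

/-- The function `|x| - f`. -/
def VV (f : E n → ℝ) (y : E n) : ℝ := len y - f y

section Slice

variable {M : Spacetime} {f : E n → ℝ} (hf : ContDiff ℝ ∞ f) {x : E n} (hx : x ≠ 0)
  (hQ : uv f x ∈ M.Q)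

include hf hx

lemma VV_contDiffAt : ContDiffAt ℝ 2 (VV f) x :=
  (contDiffAt_norm ℝ hx).sub (hf2 hf x)

lemma VV_fderiv (W : E n) : fderiv ℝ (VV f) x W = nY W x - fY f W x := by
  have h1 : HasFDerivAt (VV f) (fderiv ℝ len x - fderiv ℝ f x) x :=
    (len_differentiableAt hx).hasFDerivAt.sub (hf1 hf x).hasFDerivAt
  rw [h1.fderiv]
  change fderiv ℝ len x W - fderiv ℝ f x W = _
  rw [fderiv_len hx]
  rfl

lemma VV_dot (X : Fin n → ℝ) :
    dd (VV f) x ⬝ᵥ X = nY X x - fY f (WithLp.toLp 2 X) x := by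
  rw [dd_dot ((VV_contDiffAt hf hx).differentiableAt (by norm_num)), VV_fderiv hf hx]

lemma VV_f2 (X : Fin n → ℝ) : f2 (VV f) x (WithLp.toLp 2 X) (WithLp.toLp 2 X) =
    ((∑ i, X i * X i) - nY X x * nY X x) / len x - f2 f x (WithLp.toLp 2 X) (WithLp.toLp 2 X) := by
  have h1 := fY_line (VV_contDiffAt hf hx) (WithLp.toLp 2 X) (WithLp.toLp 2 X)
  have h2 := (nY_line hx (WithLp.toLp 2 X) X).fun_sub
    (fY_line (hf2 hf x) (WithLp.toLp 2 X) (WithLp.toLp 2 X))
  have h3 : (fun t => fY (VV f) (WithLp.toLp 2 X) (ln x (WithLp.toLp 2 X) t)) =ᶠ[𝓝 0]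
      fun t => nY X (ln x (WithLp.toLp 2 X) t) -
        fY f (WithLp.toLp 2 X) (ln x (WithLp.toLp 2 X) t) := by
    filter_upwards [ln_ne_zero hx (WithLp.toLp 2 X)] with t ht
    exact VV_fderiv hf ht _
  exact h1.unique (h2.congr_of_eventuallyEq h3)

omit hf in
lemma nn_sq : ∑ i, nn x i * nn x i = 1 := by
  rw [ip_nn, nY_nn hx]

lemma gn : mat (sliceG M f) x *ᵥ nn x = M.F (uv f x) •
    (dd (VV f) x + (1 - fY f (WithLp.toLp 2 (nn x)) x) • dd f x) := by
  have hV := (VV_contDiffAt hf hx).differentiableAt (by norm_num : (2 : WithTop ℕ∞) ≠ 0)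
  funext k
  have hk : dd (VV f) x k = nn x k - dd f x k := by
    have h1 : dd (VV f) x k = fderiv ℝ (VV f) x (sg k) := pd_eq hV k
    have h2 : dd f x k = fderiv ℝ f x (sg k) := pd_eq (hf1 hf x) k
    rw [h1, h2, VV_fderiv hf hx]
    have h3 : nY (WithLp.ofLp (sg k)) x = nn x k := by
      unfold nY nn ip sg
      simp
    rw [h3]
    rfl
  have hs : ∑ l, pd l f x * nn x l = fY f (WithLp.toLp 2 (nn x)) x := fY_sum (hf1 hf x) _
  have h1 : (mat (sliceG M f) x *ᵥ nn x) k = ∑ l, sliceG M f x k l * nn x l := rfl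
  have h4 : ∀ l, sliceG M f x k l * nn x l = M.F (uv f x) * nn x k * (nn x l * nn x l) +
      (M.r (uv f x) / len x) ^ 2 * ((if k = l then 1 else 0) * nn x l) -
      (M.r (uv f x) / len x) ^ 2 * nn x k * (nn x l * nn x l) -
      M.F (uv f x) * pd k f x * (pd l f x * nn x l) := by
    intro l
    unfold sliceG nn
    ring
  rw [h1]
  simp only [h4, Finset.sum_sub_distrib, Finset.sum_add_distrib, ← Finset.mul_sum, nn_sq hx, hs]
  simp only [ite_mul, one_mul, zero_mul, Finset.sum_ite_eq, Finset.mem_univ, if_true,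
    Pi.smul_apply, Pi.add_apply, smul_eq_mul, hk]
  simp only [dd]
  ring

include hQ

/-- The lapse and the length of the differential of `|x| - f`. -/
lemma lapse_eq (hpd : (mat (sliceG M f) x).PosDef)
    (hrad : fY f (WithLp.toLp 2 (nn x)) x < 1) :
    0 < lapse M f x ∧ 0 < covNorm (sliceG M f) (fun j => pd j (VV f)) x ∧
    M.F (uv f x) * covNorm (sliceG M f) (fun j => pd j (VV f)) x =
      lapse M f x * (1 - fY f (WithLp.toLp 2 (nn x)) x) := by
  set F := M.F (uv f x) with hF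
  set s := 1 - fY f (WithLp.toLp 2 (nn x)) x with hs
  set h := (mat (sliceG M f) x)⁻¹ with hh
  have hF0 : 0 < F := (M.pos _ hQ).1
  have hs0 : 0 < s := by rw [hs]; linarith only [hrad]
  have hdet : IsUnit (mat (sliceG M f) x).det := hpd.isUnit.map detMonoidHom
  have hi := hpd.inv
  have hgn := gn (M := M) hf hx
  rw [← hF, ← hs] at hgn
  have hnn : nn x = F • (h *ᵥ (dd (VV f) x + s • dd f x)) := by
    have h1 : h *ᵥ (mat (sliceG M f) x *ᵥ nn x) = nn x := by
      rw [mulVec_mulVec, hh, nonsing_inv_mul _ hdet, one_mulVec]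
    rw [← h1, hgn, mulVec_smul]
  set A := bf h (dd (VV f) x) (dd (VV f) x) with hA
  set B := bf h (dd (VV f) x) (dd f x) with hB
  set C := bf h (dd f x) (dd f x) with hC
  have hB' : bf h (dd f x) (dd (VV f) x) = B := bf_symm hi.isHermitian _ _
  have e1 : F * (A + s * B) = s := by
    have h1 : dd (VV f) x ⬝ᵥ nn x = s := by
      rw [VV_dot hf hx, nY_nn hx, hs]
    rw [hnn, dotProduct_smul, mulVec_add, mulVec_smul, dotProduct_add, dotProduct_smul,
      smul_eq_mul, smul_eq_mul] at h1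
    exact h1
  have e2 : F * (B + s * C) = 1 - s := by
    have h1 : dd f x ⬝ᵥ nn x = 1 - s := by
      rw [dd_dot (hf1 hf x), hs]
      simp [fY]
    rw [hnn, dotProduct_smul, mulVec_add, mulVec_smul, dotProduct_add, dotProduct_smul,
      smul_eq_mul, smul_eq_mul] at h1
    rw [← hB']
    exact h1
  have hC0 : 0 ≤ C := bf_nonneg hi _
  have e3 : F ^ 2 * A = s ^ 2 * (F + F ^ 2 * C) := by
    linear_combination F * e1 - F * s * e2
  have hlap : lapse M f x = √(F + F ^ 2 * C) := by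
    unfold lapse
    congr 1
    rw [← hF]
    congr 1
    rw [hC]
    unfold bf shift
    simp only [dotProduct, mulVec, Finset.mul_sum]
    refine Finset.sum_congr rfl fun i _ => Finset.sum_congr rfl fun j _ => ?_
    simp only [up, dd, ← hF, ← hh]
    ring
  have hlap0 : 0 < lapse M f x := by
    rw [hlap]
    exact Real.sqrt_pos.2 (by positivity)
  have hcov : covNorm (sliceG M f) (fun j => pd j (VV f)) x = √A := covNorm_eq _ _ _
  have h5 : F * √A = lapse M f x * s := by
    have h6 : √(F ^ 2 * A) = F * √A := by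
      rw [Real.sqrt_mul (sq_nonneg _), Real.sqrt_sq hF0.le]
    have h7 : √(s ^ 2 * (F + F ^ 2 * C)) = s * lapse M f x := by
      rw [Real.sqrt_mul (sq_nonneg _), Real.sqrt_sq hs0.le, hlap]
    rw [← h6, e3, h7]
    ring
  refine ⟨hlap0, ?_, ?_⟩
  · rw [hcov]
    have h8 : 0 < F * √A := by rw [h5]; positivity
    exact (mul_pos_iff_of_pos_left hF0).1 h8
  · rw [hcov, h5]

end Slice

end Vale.Agent.P366.T1.B526
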