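import Vale.Agent.P366.T1.Cut

open MeasureTheory Metric Filter Topology Set
open scoped ContDiff ENNReal

noncomputable section
namespace Vale.Agent.P366.T1

open Vale.Agent.P366.Stmt

variable {n : ℕ}

/-- Two functions which agree on an exterior domain have the same derivative on its boundary. -/
lemma pd_eq_of_eqOn {F : E n → ℝ} (hF : Smooth F) (hne : ∀ x, F x = 0 → ∃ i, pd i F x ≠ 0)
    {u v : E n → ℝ} {x0 : E n} (hne0 : x0 ≠ 0) (huv : ∀ x, x ≠ 0 → 0 ≤ F x → u x = v x)
    (hx0 : 0 ≤ F x0)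
    (hu : DifferentiableAt ℝ u x0) (hv : DifferentiableAt ℝ v x0) (i : Fin n) :
    pd i u x0 = pd i v x0 := by
  rcases hx0.eq_or_lt with h0 | h0
  · -- the boundary
    obtain ⟨j, hj⟩ := hne x0 h0.symm
    have hFd : DifferentiableAt ℝ F x0 := (hF.differentiable (by simp)) x0
    have hh : HasFDerivAt (fun x => u x - v x) (fderiv ℝ u x0 - fderiv ℝ v x0) x0 :=
      hu.hasFDerivAt.sub hv.hasFDerivAt
    -- directions pointing into the domain
    have hin : ∀ w : E n, 0 < fderiv ℝ F x0 w → (fderiv ℝ u x0 - fderiv ℝ v x0) w = 0 := by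
      intro w hw
      have hc : HasDerivAt (fun t : ℝ => x0 + t • w) w 0 := by
        simpa using ((hasDerivAt_id (0 : ℝ)).smul_const w).const_add x0
      have h1 : HasDerivAt (fun t : ℝ => F (x0 + t • w)) (fderiv ℝ F x0 w) 0 := by
        have h2 : HasFDerivAt F (fderiv ℝ F x0) (x0 + (0 : ℝ) • w) := by
          simpa using hFd.hasFDerivAt
        exact h2.comp_hasDerivAt 0 hc
      have h3 : HasDerivAt (fun t : ℝ => u (x0 + t • w) - v (x0 + t • w))
          ((fderiv ℝ u x0 - fderiv ℝ v x0) w) 0 := by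
        have h2 : HasFDerivAt (fun x => u x - v x) (fderiv ℝ u x0 - fderiv ℝ v x0)
            (x0 + (0 : ℝ) • w) := by
          simpa using hh
        exact h2.comp_hasDerivAt 0 hc
      have h4 : ∀ᶠ t in 𝓝[>] (0 : ℝ), 0 < F (x0 + t • w) := by
        have h5 := h1.tendsto_slope_zero_right
        have h6 : ∀ᶠ t in 𝓝[>] (0 : ℝ), 0 < t⁻¹ • (F (x0 + (0 + t) • w) - F (x0 + (0 : ℝ) • w)) :=
          h5.eventually_const_lt hw
        filter_upwards [h6, self_mem_nhdsWithin] with t ht ht0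
        have ht0' : (0 : ℝ) < t := ht0
        rw [zero_smul, add_zero, ← h0, zero_add, sub_zero, smul_eq_mul] at ht
        exact (mul_pos_iff_of_pos_left (inv_pos.2 ht0')).1 ht
      have h7 := h3.tendsto_slope_zero_right
      have h8 : Tendsto (fun t : ℝ => t⁻¹ • (u (x0 + (0 + t) • w) - v (x0 + (0 + t) • w) -
          (u (x0 + (0 : ℝ) • w) - v (x0 + (0 : ℝ) • w)))) (𝓝[>] 0) (𝓝 0) := by
        refine Tendsto.congr' ?_ tendsto_const_nhds
        have h5 : ∀ᶠ t in 𝓝[>] (0 : ℝ), x0 + t • w ≠ 0 := by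
          have h6 : Tendsto (fun t : ℝ => x0 + t • w) (𝓝 0) (𝓝 x0) := by
            have := hc.continuousAt.tendsto
            simpa using this
          exact (h6.mono_left nhdsWithin_le_nhds).eventually_ne hne0
        filter_upwards [h4, h5] with t ht ht5
        rw [zero_add, zero_smul, add_zero, huv _ ht5 ht.le, huv x0 hne0 hx0]
        simp
      exact tendsto_nhds_unique h7 h8
    -- these directions span
    obtain ⟨w, hw⟩ : ∃ w : E n, 0 < fderiv ℝ F x0 w := by
      rw [pd_fderiv hFd] at hj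
      rcases lt_or_gt_of_ne hj with h | h
      · exact ⟨-EuclideanSpace.single j 1, by rw [map_neg]; linarith⟩
      · exact ⟨_, h⟩
    rw [pd_fderiv hu, pd_fderiv hv]
    set e : E n := EuclideanSpace.single i 1
    have h9 : 0 < fderiv ℝ F x0 ((|fderiv ℝ F x0 e| + 1) • w + (fderiv ℝ F x0 w) • e) := by
      rw [map_add, map_smul, map_smul, smul_eq_mul, smul_eq_mul]
      nlinarith [neg_abs_le (fderiv ℝ F x0 e), hw]
    have h10 := hin _ h9
    rw [map_add, map_smul, map_smul, hin w hw, smul_zero, zero_add, smul_eq_mul] at h10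
    have h11 := (mul_eq_zero.1 h10).resolve_left hw.ne'
    simpa [sub_eq_zero] using h11
  · have h1 : u =ᶠ[𝓝 x0] v := by
      filter_upwards [(isOpen_lt continuous_const hF.continuous).mem_nhds h0,
        isOpen_ne.mem_nhds hne0] with y hy hy0
      exact huv y hy0 (show (0 : ℝ) < F y from hy).le
    exact pd_congr' h1 i

/-- `thetaPlus` only depends on the first derivatives of the metric. -/
lemma thetaPlus_congr {g g' K K' : Field n} {F : E n → ℝ} {x : E n}
    (hg : g x = g' x) (hK : K x = K' x)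
    (hd : ∀ i j k, pd k (fun y => g y i j) x = pd k (fun y => g' y i j) x) :
    thetaPlus g K F x = thetaPlus g' K' F x := by
  have hup : ∀ i j, up g i j x = up g' i j x := fun i j => by
    simp only [up, mat, hg]
  have hchr : ∀ k i j, chr g k i j x = chr g' k i j x := by
    intro k i j
    simp only [chr, hup, hd]
  have hhess : ∀ i j, hess g F x i j = hess g' F x i j := fun i j => by
    simp only [hess, hchr]
  have hcov : ∀ w : Fin n → E n → ℝ, covNorm g w x = covNorm g' w x := fun w => by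
    simp only [covNorm, hup]
  have hnrm : ∀ i, nrm g F i x = nrm g' F i x := fun i => by
    simp only [nrm, hup, hcov]
  simp only [thetaPlus, trS, tr, hup, hhess, hcov, hnrm, hK]

/-- The induced metric is smooth near the slice. -/
lemma sliceG_smoothAt {M : Spacetime} {f : E n → ℝ} (hf : Smooth f) {x : E n} (hx : x ≠ 0)
    (hQ : uv f x ∈ M.Q) (i j : Fin n) : ContDiffAt ℝ ∞ (fun y => sliceG M f y i j) x := by
  have hlen := contDiffAt_len hx
  have hl := (len_pos hx).ne'
  have huv : ContDiffAt ℝ ∞ (uv f) x :=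
    (hf.contDiffAt.sub hlen).prodMk (hf.contDiffAt.add hlen)
  have hF : ContDiffAt ℝ ∞ (fun y => M.F (uv f y)) x :=
    (M.smooth.1.contDiffAt (M.isOpen.mem_nhds hQ)).comp x huv
  have hR : ContDiffAt ℝ ∞ (fun y => M.r (uv f y)) x :=
    (M.smooth.2.contDiffAt (M.isOpen.mem_nhds hQ)).comp x huv
  have hN : ∀ i : Fin n, ContDiffAt ℝ ∞ (fun y : E n => y i / len y) x := fun i =>
    ((EuclideanSpace.proj (𝕜 := ℝ) i).contDiff.contDiffAt).div hlen hl
  have hpd : ∀ i : Fin n, ContDiffAt ℝ ∞ (fun y : E n => pd i f y) x := by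
    intro i
    have h1 : (fun y : E n => pd i f y) = fun y => fderiv ℝ f y (EuclideanSpace.single i 1) :=
      funext fun y => pd_fderiv ((hf.differentiable (by simp)) y) i
    rw [h1]
    exact ((hf.fderiv_right (m := ∞) (by simp)).clm_apply contDiff_const).contDiffAt
  unfold sliceG
  refine ContDiffAt.sub (ContDiffAt.add ((hF.mul (hN i)).mul (hN j)) ?_) ((hF.mul (hpd i)).mul
    (hpd j))
  exact ((hR.div hlen hl).pow 2).mul (contDiffAt_const.sub ((hN i).mul (hN j)))

/-- The theorem, from the touching lemma and the asymptotics. -/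
theorem core (hn : 3 ≤ n) {M : Spacetime} (hE : M.DEC n) {D : Exterior n}
    {f : E n → ℝ} (hS : IsSlice M f D)
    (hf : ∃ b < 1, ∃ R, ∀ x, R < len x → |f x| ≤ b * len x)
    (hT : D.Trapped) {m : ℝ}
    (hmass : ∀ x : E n, x ≠ 0 → Tendsto (fun s : ℝ => M.mass n (uv f (s • x))) atTop (𝓝 m))
    (hfar : ∃ R, ∀ x, R < len x → uv f x ∈ M.Q ∧ du M.r (uv f x) < 0 ∧ 0 < dv M.r (uv f x))
    (htouch : ∀ {x0 : E n}, x0 ≠ 0 → uv f x0 ∈ M.Q → (mat (sliceG M f) x0).PosDef →
      D.F x0 = 0 → (∃ i, pd i D.F x0 ≠ 0) →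
      (∀ᶠ x in 𝓝 x0, D.F x = 0 → f x0 - len x0 ≤ f x - len x) →
      (∀ᶠ s in 𝓝[>] (1 : ℝ), 0 ≤ D.F (s • x0)) →
      thetaPlus (sliceG M f) (sliceK M f) D.F x0 ≤ 0 → dv M.r (uv f x0) ≤ 0) :
    D.Amin ≠ ⊤ ∧ 0 < m ∧
    (D.Amin.toReal / Stmt.omega n) ^ (((n : ℝ) - 2) / (n - 1)) / 2 ≤ m := by
  have ht : ∀ x0, x0 ≠ 0 → D.F x0 = 0 → (∀ x, D.F x = 0 → f x0 - len x0 ≤ f x - len x) →
      (∀ s : ℝ, 1 < s → 0 ≤ D.F (s • x0)) → dv M.r (uv f x0) ≤ 0 := by
    intro x0 hx0 h0 hmin hdir
    have hQ := hS.mem x0 hx0 h0.ge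
    have hmet : ∀ i j, D.g x0 i j = sliceG M f x0 i j := hS.met x0 hx0 h0.ge
    have hmat : mat (sliceG M f) x0 = mat D.g x0 := by
      ext i j
      exact (hmet i j).symm
    refine htouch hx0 hQ (by rw [hmat]; exact D.pos x0 h0.ge) h0 (D.dom.2.1 x0 h0)
      (Eventually.of_forall hmin) ?_ ?_
    · filter_upwards [self_mem_nhdsWithin] with s hs using hdir s hs
    · rw [← thetaPlus_congr (g := D.g) (K := D.K) (by ext i j; exact hmet i j)
        (by ext i j; exact hS.sff x0 hx0 h0.ge i j) ?_]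
      · exact hT x0 h0
      · intro i j k
        exact pd_eq_of_eqOn D.dom.1 D.dom.2.1 hx0 (fun x hx0 hx => hS.met x hx0 hx i j) h0.ge
          ((((D.smooth i j).1).differentiable (by simp)) x0)
          ((sliceG_smoothAt hS.smooth hx0 hQ i j).differentiableAt (by simp)) k
  obtain ⟨σ, c, r0, hσ, hr0, hr0m, h0, hsub, hlev⟩ := choose_cut hn hE hS hf hfar hmass ht
  have hA := amin_le hn hS hf hσ hr0 h0 hsub hlev
  have hω : 0 < Stmt.omega n := by
    rw [omega_eq' (by omega)]
    have h1 : 0 < (volume : Measure (E n)).real (ball 0 1) := by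
      rw [measureReal_def, ENNReal.toReal_pos_iff]
      exact ⟨measure_ball_pos _ _ one_pos, measure_ball_lt_top⟩
    have h2 : (0 : ℝ) < n := by exact_mod_cast (by omega : 0 < n)
    positivity
  have hm : 0 < m := by
    have : 0 < r0 ^ (n - 2) := pow_pos hr0 _
    linarith
  refine ⟨ne_top_of_le_ne_top ENNReal.ofReal_ne_top hA, hm, ?_⟩
  have hn' : (3 : ℝ) ≤ n := by exact_mod_cast hn
  have h1 : D.Amin.toReal ≤ Stmt.omega n * r0 ^ (n - 1) := by
    have := ENNReal.toReal_mono ENNReal.ofReal_ne_top hA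
    rwa [ENNReal.toReal_ofReal (by positivity)] at this
  have h2 : D.Amin.toReal / Stmt.omega n ≤ r0 ^ (n - 1) := by
    rw [div_le_iff₀ hω]; linarith
  have h3 : (D.Amin.toReal / Stmt.omega n) ^ (((n : ℝ) - 2) / (n - 1)) ≤
      (r0 ^ (n - 1)) ^ (((n : ℝ) - 2) / (n - 1)) := by
    refine Real.rpow_le_rpow (by positivity) h2 ?_
    exact div_nonneg (by linarith) (by linarith)
  have h4 : (r0 ^ (n - 1)) ^ (((n : ℝ) - 2) / (n - 1)) = r0 ^ (n - 2) := by
    rw [← Real.rpow_natCast r0 (n - 1), ← Real.rpow_mul hr0.le, ← Real.rpow_natCast r0 (n - 2)]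
    congr 1
    rw [Nat.cast_sub (by omega), Nat.cast_sub (by omega)]
    have : (n : ℝ) - 1 ≠ 0 := by linarith
    push_cast
    field_simp
  rw [h4] at h3
  linarith

end Vale.Agent.P366.T1
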