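import Vale.Agent.P366.T1.B526g

/-!
The null expansion of a surface in a slice which touches a light cone (block B1 of T1).
-/

open MeasureTheory Metric Filter Topology Set Matrix
open scoped ContDiff

noncomputable section
namespace Vale.Agent.P366.T1.B526

open Vale.Agent.P366.Stmt

variable {n : ℕ}

section Slice

variable {M : Spacetime} {f : E n → ℝ} (hf : ContDiff ℝ ∞ f) {x : E n} (hx : x ≠ 0)
  (hQ : uv f x ∈ M.Q)

lemma qf_add (A B : Fin n → Fin n → ℝ) (X : Fin n → ℝ) :
    qf (fun i j => A i j + B i j) X = qf A X + qf B X := by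
  unfold qf
  simp only [add_mul, Finset.sum_add_distrib]

lemma qf_swap (A : Fin n → Fin n → ℝ) (X : Fin n → ℝ) :
    qf (fun i j => A j i) X = qf A X := by
  unfold qf
  rw [Finset.sum_comm]
  refine Finset.sum_congr rfl fun i _ => Finset.sum_congr rfl fun j _ => ?_
  ring

include hf

lemma qf_sliceGt (X : Fin n → ℝ) : qf (sliceGt M f x) X =
    (du M.F (uv f x) + dv M.F (uv f x)) * (nY X x * nY X x -
      fY f (WithLp.toLp 2 X) x * fY f (WithLp.toLp 2 X) x) +
    2 * M.r (uv f x) * (du M.r (uv f x) + dv M.r (uv f x)) / len x ^ 2 *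
      ((∑ i, X i * X i) - nY X x * nY X x) := by
  rw [← ip_nn X, ← fY_sum (hf1 hf x) X]
  unfold qf sliceGt
  have h1 : ∀ i j, ((du M.F (uv f x) + dv M.F (uv f x)) * ((x i / len x) * (x j / len x)
      - pd i f x * pd j f x) +
      2 * M.r (uv f x) * (du M.r (uv f x) + dv M.r (uv f x)) / len x ^ 2 *
      ((if i = j then 1 else 0) - (x i / len x) * (x j / len x))) * X i * X j =
      (du M.F (uv f x) + dv M.F (uv f x)) * ((nn x i * X i) * (nn x j * X j)) -
      (du M.F (uv f x) + dv M.F (uv f x)) * ((pd i f x * X i) * (pd j f x * X j)) +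
      2 * M.r (uv f x) * (du M.r (uv f x) + dv M.r (uv f x)) / len x ^ 2 *
        ((if i = j then (1 : ℝ) else 0) * X i * X j) -
      2 * M.r (uv f x) * (du M.r (uv f x) + dv M.r (uv f x)) / len x ^ 2 *
        ((nn x i * X i) * (nn x j * X j)) := by
    intro i j
    unfold nn
    ring
  have hδ : ∀ i, ∑ j, (if i = j then (1 : ℝ) else 0) * X i * X j = X i * X i := by
    intro i
    simp
  simp only [h1, Finset.sum_sub_distrib, Finset.sum_add_distrib, ← Finset.mul_sum, hδ,
    ← Finset.sum_mul]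
  ring

include hx hQ

lemma shift_differentiableAt (j : Fin n) : DifferentiableAt ℝ (fun y => shift M f j y) x := by
  have h1 := comp_uv_differentiableAt hf hx hQ M.smooth.1
  have h7 : DifferentiableAt ℝ (fun y : E n => pd j f y) x := by
    have h8 : (fun y : E n => pd j f y) = fun y => fderiv ℝ f y (sg j) := by
      funext y; exact pd_eq (hf1 hf y) j
    rw [h8]
    have h9 : DifferentiableAt ℝ (fderiv ℝ f) x :=
      ((hf2 hf x).fderiv_right (m := 1) (by norm_num)).differentiableAt (by norm_num)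
    exact h9.clm_apply (differentiableAt_const _)
  unfold shift
  exact (h1.fun_mul h7).fun_neg

/-- The symmetrized derivative of the shift. -/
lemma qf_dShift (X : Fin n → ℝ) : qf (dShift M f x) X =
    -((du M.F (uv f x) * (fY f (WithLp.toLp 2 X) x - nY X x) +
      dv M.F (uv f x) * (fY f (WithLp.toLp 2 X) x + nY X x)) * fY f (WithLp.toLp 2 X) x +
      M.F (uv f x) * f2 f x (WithLp.toLp 2 X) (WithLp.toLp 2 X)) +
    M.F (uv f x) * qc (sliceG M f) x (dd f x) X := by
  have hsh := shift_differentiableAt hf hx hQ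
  have h1 : qf (dShift M f x) X = ∑ j, fderiv ℝ (fun y => shift M f j y) x (WithLp.toLp 2 X) * X j
      - qc (sliceG M f) x (fun k => shift M f k x) X := by
    unfold qc
    have h2 : qf (dShift M f x) X = qf (fun i j => pd i (shift M f j) x) X -
        qf (fun i j => ∑ k, chr (sliceG M f) k i j x * shift M f k x) X := by
      unfold qf dShift
      simp only [sub_mul, Finset.sum_sub_distrib]
    rw [h2]
    congr 1
    unfold qf
    rw [Finset.sum_comm]
    refine Finset.sum_congr rfl fun j _ => ?_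
    rw [← sum_pd (hsh j)]
    rw [Finset.sum_mul]
    refine Finset.sum_congr rfl fun i _ => ?_
    ring
  have h3 : HasDerivAt (fun t => ∑ j, shift M f j (ln x (WithLp.toLp 2 X) t) * X j)
      (∑ j, fderiv ℝ (fun y => shift M f j y) x (WithLp.toLp 2 X) * X j) 0 :=
    HasDerivAt.fun_sum fun j _ => (line_of_fderiv (hsh j) _).mul_const (X j)
  have h4 : (fun t => ∑ j, shift M f j (ln x (WithLp.toLp 2 X) t) * X j) = fun t =>
      -(M.F (uv f (ln x (WithLp.toLp 2 X) t)) *
        fY f (WithLp.toLp 2 X) (ln x (WithLp.toLp 2 X) t)) := by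
    funext t
    rw [← fY_sum (hf1 hf _), Finset.mul_sum, ← Finset.sum_neg_distrib]
    refine Finset.sum_congr rfl fun j _ => ?_
    unfold shift
    ring
  rw [h4] at h3
  have h5 := ((uv_fun_line M.smooth.1 (hf1 hf x) hx hQ (WithLp.toLp 2 X)).fun_mul
    (fY_line (hf2 hf x) (WithLp.toLp 2 X) (WithLp.toLp 2 X))).fun_neg
  have h6 := h3.unique h5
  rw [ln_zero] at h6
  have h7 : (fun k => shift M f k x) = (-M.F (uv f x)) • dd f x := by
    funext k
    simp only [Pi.smul_apply, smul_eq_mul, dd, shift]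
    ring
  rw [h1, h6, h7, qc_smul]
  ring

/-- The second fundamental form of the slice. -/
lemma qf_sliceK (X : Fin n → ℝ) (hα : lapse M f x ≠ 0) :
    lapse M f x * qf (sliceK M f x) X = qf (sliceGt M f x) X / 2 - qf (dShift M f x) X := by
  have h1 : qf (sliceK M f x) X = (qf (sliceGt M f x) X - qf (dShift M f x) X -
      qf (fun i j => dShift M f x j i) X) / (2 * lapse M f x) := by
    unfold qf sliceK
    simp only [← Finset.sum_sub_distrib, Finset.sum_div]
    refine Finset.sum_congr rfl fun i _ => Finset.sum_congr rfl fun j _ => ?_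
    ring
  have h2 : qf (fun i j => dShift M f x j i) X = qf (dShift M f x) X := qf_swap _ _
  rw [h1, h2]
  field_simp
  ring

/-- **The identity**: on the tangent space of the level set of `|x| - f` the form
`Hess (|x| - f) / |d (|x| - f)| + K` is a multiple of the metric. -/
lemma key (hpd : (mat (sliceG M f) x).PosDef)
    (hrad : fY f (WithLp.toLp 2 (nn x)) x < 1) (X : Fin n → ℝ)
    (hX : dd (VV f) x ⬝ᵥ X = 0) :
    2 * dv M.r (uv f x) / (M.r (uv f x) * (M.F (uv f x) *
      covNorm (sliceG M f) (fun j => pd j (VV f)) x)) * qf (sliceG M f x) X =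
    qf (hess (sliceG M f) (VV f) x) X / covNorm (sliceG M f) (fun j => pd j (VV f)) x +
      qf (sliceK M f x) X := by
  obtain ⟨hα, hcov, hlap⟩ := lapse_eq hf hx hQ hpd hrad
  have hl := len_pos hx
  have hF0 : 0 < M.F (uv f x) := (M.pos _ hQ).1
  have hr0 : 0 < M.r (uv f x) := (M.pos _ hQ).2
  rw [VV_dot hf hx] at hX
  -- names
  set N := nn x with hN
  have hfX : fY f (WithLp.toLp 2 X) x = nY X x := by linarith only [hX]
  have hNX : ∑ i, X i * N i = nY X x := by
    rw [← ip_nn X]
    exact Finset.sum_congr rfl fun i _ => by rw [hN]; ring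
  have hN1 : nY N x = 1 := nY_nn hx
  have hg := fun i j => sliceG_differentiableAt hf hx hQ i j
  have hqc := qc_low hpd hg N X
  rw [gn (M := M) hf hx, qc_smul, qc_add, qc_smul] at hqc
  have hK := qf_sliceK hf hx hQ X hα.ne'
  rw [qf_sliceGt hf, qf_dShift hf hx hQ] at hK
  have hV2 : qf (hess (sliceG M f) (VV f) x) X =
      ((∑ i, X i * X i) - nY X x * nY X x) / len x
        - f2 f x (WithLp.toLp 2 X) (WithLp.toLp 2 X) - qc (sliceG M f) x (dd (VV f) x) X := by
    rw [qf_hess, qf_fh (VV_contDiffAt hf hx)]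
    have := VV_f2 hf hx X
    unfold f2 at this ⊢
    rw [this]
  have hD1 := (line_of_fderiv (bil_fderiv hg X N (WithLp.toLp 2 X)).1 (WithLp.toLp 2 X)).unique
    (bil_line hf hx hQ X N (WithLp.toLp 2 X) rfl rfl rfl rfl rfl rfl
      (a := nY X x) (b := nY X x) hfX rfl)
  have hD2 := (line_of_fderiv (bil_fderiv hg X X (WithLp.toLp 2 N)).1 (WithLp.toLp 2 N)).unique
    (bil_line hf hx hQ X X (WithLp.toLp 2 N) rfl rfl rfl rfl rfl rfl
      (a := fY f (WithLp.toLp 2 N) x) (b := 1) rfl hN1)
  have hgX : qf (sliceG M f x) X = bil (sliceG M f) X X x := rfl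
  rw [bil_slice M (hf1 hf x), hfX] at hgX
  rw [hD1, hD2] at hqc
  have hi1 : ip (WithLp.toLp 2 X) X = ∑ i, X i * X i := rfl
  have hi2 : ip (WithLp.toLp 2 X) N = nY X x := hNX
  have hi3 : ip (WithLp.toLp 2 N) X = nY X x := by
    rw [← hNX]
    exact Finset.sum_congr rfl fun i _ => mul_comm _ _
  have hsy := f2_symm (hf2 hf x) (WithLp.toLp 2 X) (WithLp.toLp 2 N)
  rw [hi1, hi2, hi3, hNX, hN1, hfX, hsy] at hqc
  rw [hfX] at hK
  rw [hgX, hV2]
  set F := M.F (uv f x) with hF
  set r := M.r (uv f x) with hr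
  set Fu := du M.F (uv f x)
  set Fv := dv M.F (uv f x)
  set ru := du M.r (uv f x)
  set rv := dv M.r (uv f x)
  set cn := covNorm (sliceG M f) (fun j => pd j (VV f)) x
  set al := lapse M f x
  set s := fY f (WithLp.toLp 2 N) x
  set a := nY X x
  set S := ∑ i, X i * X i
  set ρ := len x
  set w := f2 f x (WithLp.toLp 2 X) (WithLp.toLp 2 X)
  set w2 := f2 f x (WithLp.toLp 2 N) (WithLp.toLp 2 X)
  set q1 := qc (sliceG M f) x (dd (VV f) x) X
  set q2 := qc (sliceG M f) x (dd f x) X
  set k := qf (sliceK M f x) X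
  -- the identity multiplied by `F * cn`
  have hT : F * ((S - a * a) / ρ - w - q1) + F * cn * k =
      2 * rv / r * (F * a * a + (r / ρ) ^ 2 * (S - a * a) - F * a * a) := by
    have h1 : F * cn * k = (1 - s) * (al * k) := by rw [hlap]; ring
    rw [h1, hK]
    have h2 : F * (q1 + (1 - s) * q2) = F * q1 + (1 - s) * (F * q2) := by ring
    rw [h2] at hqc
    have h3 : F * q1 = _ := eq_sub_of_add_eq hqc
    have hρ : ρ ≠ 0 := hl.ne'
    have hr1 : r ≠ 0 := hr0.ne'
    rw [mul_sub, h3]
    field_simp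
    ring
  have hF1 : F ≠ 0 := hF0.ne'
  have hc1 : cn ≠ 0 := hcov.ne'
  have hr1 : r ≠ 0 := hr0.ne'
  have h4 : ((S - a * a) / ρ - w - q1) / cn + k =
      (F * ((S - a * a) / ρ - w - q1) + F * cn * k) / (F * cn) := by
    field_simp
  rw [h4, hT]
  field_simp

end Slice

end Vale.Agent.P366.T1.B526

namespace Vale.Agent.P366.T1

open Vale.Agent.P366.Stmt B526

variable {n : ℕ}

/-- **Block B1.** Where a weakly future trapped surface in the slice touches the light cone
`{f - |x| = const}` from outside, `∂_v r ≤ 0`. -/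
theorem theta_touch (hn : 2 ≤ n) (M : Spacetime) {f : E n → ℝ} (hf : Smooth f) {x0 : E n}
    (hx0 : x0 ≠ 0) (hQ : uv f x0 ∈ M.Q) (hpd : (mat (sliceG M f) x0).PosDef)
    (hrad : |∑ i, x0 i / len x0 * pd i f x0| < 1) {G : E n → ℝ} (hG : Smooth G) (h0 : G x0 = 0)
    (hne : ∃ i, pd i G x0 ≠ 0) (hmin : ∀ᶠ x in 𝓝 x0, G x = 0 → f x0 - len x0 ≤ f x - len x)
    (hdir : ∀ᶠ s in 𝓝[>] (1 : ℝ), 0 ≤ G (s • x0))
    (hθ : thetaPlus (sliceG M f) (sliceK M f) G x0 ≤ 0) : dv M.r (uv f x0) ≤ 0 := by
  have hf' : ContDiff ℝ ∞ f := hf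
  have hG' : ContDiff ℝ ∞ G := hG
  have hl := len_pos hx0
  have hr0 : 0 < M.r (uv f x0) := (M.pos _ hQ).2
  have hF0 : 0 < M.F (uv f x0) := (M.pos _ hQ).1
  have hrad' : fY f (WithLp.toLp 2 (nn x0)) x0 < 1 := by
    rw [← fY_sum (hf1 hf' x0)]
    have h1 : ∑ i, pd i f x0 * nn x0 i = ∑ i, x0 i / len x0 * pd i f x0 :=
      Finset.sum_congr rfl fun i _ => by unfold nn; ring
    rw [h1]
    exact (abs_lt.1 hrad).2
  obtain ⟨hα, hcov, hlap⟩ := lapse_eq hf' hx0 hQ hpd hrad'
  have hV := VV_contDiffAt hf' hx0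
  have hGc : ContDiffAt ℝ 2 G x0 := hf2 hG' x0
  have hGne : dd G x0 ≠ 0 := by
    obtain ⟨i, hi⟩ := hne
    exact fun h => hi (congrFun h i)
  have hVne : dd (VV f) x0 ≠ 0 := by
    intro h
    have h1 := VV_dot hf' hx0 (nn x0)
    rw [h, zero_dotProduct, nY_nn hx0] at h1
    linarith only [h1, hrad']
  have he : 0 < fderiv ℝ (VV f) x0 x0 := by
    rw [VV_fderiv hf' hx0]
    have h1 : nY x0 x0 = len x0 := by
      unfold nY
      rw [ip_self]
      field_simp
    have h2 : x0 = len x0 • WithLp.toLp 2 (nn x0) := by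
      ext i
      simp only [PiLp.smul_apply, smul_eq_mul, nn]
      field_simp
    have h3 : fY f x0 x0 = len x0 * fY f (WithLp.toLp 2 (nn x0)) x0 := by
      have h4 : fY f (len x0 • WithLp.toLp 2 (nn x0)) x0 =
          len x0 * fY f (WithLp.toLp 2 (nn x0)) x0 := by
        unfold fY
        rw [map_smul, smul_eq_mul]
      rw [← h2] at h4
      exact h4
    rw [h1, h3]
    nlinarith only [hl, hrad']
  have hloc := side hG'.continuous hV h0 he
    (by
      filter_upwards [hmin] with y hy hGy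
      have := hy hGy
      unfold VV
      linarith only [this]) hdir
  have h1 := theta_touch_aux (g := sliceG M f) (K := sliceK M f) hpd hGc hV hGne hVne hloc
    (2 * dv M.r (uv f x0) / (M.r (uv f x0) * (M.F (uv f x0) *
      covNorm (sliceG M f) (fun j => pd j (VV f)) x0)))
    (fun X hX => (key hf' hx0 hQ hpd hrad' X hX).le)
  have hn1 : (0 : ℝ) < (n : ℝ) - 1 := by
    have : (2 : ℝ) ≤ n := by exact_mod_cast hn
    linarith only [this]
  have h2 := h1.trans hθ
  have h3 : 2 * dv M.r (uv f x0) / (M.r (uv f x0) * (M.F (uv f x0) *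
      covNorm (sliceG M f) (fun j => pd j (VV f)) x0)) ≤ 0 := by
    by_contra hcon
    push Not at hcon
    have := mul_pos hn1 hcon
    linarith only [this, h2]
  have h4 : 0 < M.r (uv f x0) * (M.F (uv f x0) *
      covNorm (sliceG M f) (fun j => pd j (VV f)) x0) := by positivity
  rw [div_le_iff₀ h4, zero_mul] at h3
  linarith only [h3]

end Vale.Agent.P366.T1
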