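import Vale.Agent.P366.T1.Push2
import Vale.Agent.P366.T1.Core
import Vale.Agent.P366.T1.Theta

open MeasureTheory Metric Filter Topology Set
open scoped ContDiff ENNReal

noncomputable section
namespace Vale.Agent.P366.T1

open Vale.Agent.P366.Stmt

variable {n : ℕ}

/-- The theorem in linear coordinates, from the asymptotics. -/
theorem bcore (hn : 3 ≤ n) {M : Spacetime} (hE : M.DEC n) {D : Exterior n}
    {f : E n → ℝ} {L : E n ≃L[ℝ] E n} (hS : IsSliceIn M f L D)
    (hf : ∃ b < 1, ∃ R, ∀ x, R < len x → |f x| ≤ b * len x)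
    (hT : D.Trapped) {m : ℝ}
    (hmass : ∀ x : E n, x ≠ 0 → Tendsto (fun s : ℝ => M.mass n (uv f (s • x))) atTop (𝓝 m))
    (hfar : ∃ R, ∀ x, R < len x → uv f x ∈ M.Q ∧ du M.r (uv f x) < 0 ∧ 0 < dv M.r (uv f x)) :
    D.Amin ≠ ⊤ ∧ 0 < m ∧
    (D.Amin.toReal / Stmt.omega n) ^ (((n : ℝ) - 2) / (n - 1)) / 2 ≤ m := by
  have hS' := push_isSlice hS
  obtain ⟨h1, h2, h3⟩ := core hn hE hS' hf (push_trapped L hT) hmass hfar
    (fun {x0} hx0 hQ hpd h0 hne hmin hdir hθ =>
      theta_touch (by omega) M hS'.smooth hx0 hQ hpd (hS'.radial x0 hx0) (push L D).dom.1 h0 hne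
        hmin hdir hθ)
  have hle := amin_push L D
  refine ⟨ne_top_of_le_ne_top h1 hle, h2, le_trans ?_ h3⟩
  have hn' : (3 : ℝ) ≤ n := by exact_mod_cast hn
  have hω : 0 ≤ Stmt.omega n := by rw [omega_eq' (by omega)]; positivity
  have h4 : D.Amin.toReal ≤ (push L D).Amin.toReal := ENNReal.toReal_mono h1 hle
  have h5 : (D.Amin.toReal / Stmt.omega n) ^ (((n : ℝ) - 2) / (n - 1)) ≤
      ((push L D).Amin.toReal / Stmt.omega n) ^ (((n : ℝ) - 2) / (n - 1)) := by
    refine Real.rpow_le_rpow (by positivity) ?_ ?_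
    · exact div_le_div_of_nonneg_right h4 hω
    · exact div_nonneg (by linarith) (by linarith)
  linarith

end Vale.Agent.P366.T1
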