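import Vale.Agent.P366.T1.BCore

open MeasureTheory Metric Filter Topology Set
open scoped ContDiff ENNReal

noncomputable section
namespace Vale.Agent.P366.T1

/-- The final step: the boosted theorem from the asymptotics. -/
theorem bfinal {n : ℕ} (hn : 3 ≤ n) {M : Spacetime} (hE : M.DEC n)
    {D : Stmt.Exterior n} {f : Stmt.E n → ℝ} {L : Stmt.E n ≃L[ℝ] Stmt.E n}
    (hS : IsSliceIn M f L D) (hT : D.Trapped) {m : ℝ} {P : Fin n → ℝ}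
    (hasy : ∃ (M0 : ℝ) (w : Fin n → ℝ), m = √(1 + ∑ i, w i ^ 2) * M0 ∧ (∀ i, P i = M0 * w i) ∧
      (∃ b < 1, ∃ R, ∀ x, R < Stmt.len x → |f x| ≤ b * Stmt.len x) ∧
      (∀ x, x ≠ 0 → Tendsto (fun s : ℝ => M.mass n (uv f (s • x))) atTop (𝓝 M0)) ∧
      (∃ R, ∀ x, R < Stmt.len x →
        uv f x ∈ M.Q ∧ du M.r (uv f x) < 0 ∧ 0 < dv M.r (uv f x))) :
    D.Amin ≠ ⊤ ∧ √(∑ i, P i ^ 2) < m ∧
    (D.Amin.toReal / Stmt.omega n) ^ (((n : ℝ) - 2) / (n - 1)) / 2 ≤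
      √(m ^ 2 - ∑ i, P i ^ 2) := by
  obtain ⟨M0, w, h1, h2, h3, h4, h5⟩ := hasy
  obtain ⟨h6, h7, h8⟩ := bcore hn hE hS h3 hT h4 h5
  have hs : ∑ i, P i ^ 2 = M0 ^ 2 * ∑ i, w i ^ 2 := by
    rw [Finset.mul_sum]
    exact Finset.sum_congr rfl fun i _ => by rw [h2 i]; ring
  have hw : 0 ≤ ∑ i, w i ^ 2 := Finset.sum_nonneg fun i _ => sq_nonneg _
  have hm : m ^ 2 - ∑ i, P i ^ 2 = M0 ^ 2 := by
    rw [hs, h1, mul_pow, Real.sq_sqrt (by linarith)]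
    ring
  refine ⟨h6, ?_, ?_⟩
  · rw [hs, h1, Real.sqrt_mul (sq_nonneg _), Real.sqrt_sq h7.le, mul_comm]
    exact mul_lt_mul_of_pos_right (Real.sqrt_lt_sqrt hw (by linarith)) h7
  · rw [hm, Real.sqrt_sq h7.le]
    exact h8

end Vale.Agent.P366.T1
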