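import Vale.Agent.P366.T1.Stmt

open MeasureTheory Metric Filter Topology Set
open scoped ContDiff ENNReal

noncomputable section
namespace Vale.Agent.P366.T1

open Vale.Agent.P366.Stmt

/-- Asymptotic flatness at spatial infinity in the wedge `|t| ≤ c ρ`, where `t = (v + u) / 2` and
`ρ = (v - u) / 2`, so that the metric is `- F (dt^2 - dρ^2) + r^2 dΩ^2`: the function `F - 1` is
`O₁(ρ^(-q))` and `r / ρ - 1` is `O₂(ρ^(-q))` in this wedge. -/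
def Spacetime.IsAFIn (n : ℕ) (c : ℝ) (M : Spacetime) : Prop :=
  ∃ q C R : ℝ, (n : ℝ) / 2 - 1 < q ∧
  ∀ p ρ, ρ = (p.2 - p.1) / 2 → R < ρ → |(p.2 + p.1) / 2| ≤ c * ρ → p ∈ M.Q ∧
    |M.F p - 1| ≤ C * ρ ^ (-q) ∧
    |du M.F p| ≤ C * ρ ^ (-(q + 1)) ∧ |dv M.F p| ≤ C * ρ ^ (-(q + 1)) ∧
    |M.ratio p - 1| ≤ C * ρ ^ (-q) ∧
    |du M.ratio p| ≤ C * ρ ^ (-(q + 1)) ∧ |dv M.ratio p| ≤ C * ρ ^ (-(q + 1)) ∧
    |du (du M.ratio) p| ≤ C * ρ ^ (-(q + 1 + 1)) ∧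
    |du (dv M.ratio) p| ≤ C * ρ ^ (-(q + 1 + 1)) ∧
    |dv (dv M.ratio) p| ≤ C * ρ ^ (-(q + 1 + 1))

variable {n : ℕ}

/-- The pull-back of the covariant 2-tensor field `T` under the linear map `y ↦ L y`. -/
def pull (L : E n ≃L[ℝ] E n) (T : Field n) : Field n := fun y i j =>
  ∑ k, ∑ l, (L (EuclideanSpace.single i 1)) k * (L (EuclideanSpace.single j 1)) l * T (L y) k l

/-- The exterior initial data `D`, given in the coordinates `y`, are the part over `{0 ≤ D.F}` of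
the slice `t = f(x)`, `x = L y`, of the spacetime `M`. The origin may or may not belong to
`{0 ≤ D.F}`: it is the center. -/
structure IsSliceIn (M : Spacetime) (f : E n → ℝ) (L : E n ≃L[ℝ] E n) (D : Exterior n) :
    Prop where
  smooth : Smooth f
  radial : ∀ x, x ≠ 0 → |∑ i, x i / len x * pd i f x| < 1
  mem : ∀ y, y ≠ 0 → 0 ≤ D.F y → uv f (L y) ∈ M.Q
  met : ∀ y, y ≠ 0 → 0 ≤ D.F y → ∀ i j, D.g y i j = pull L (sliceG M f) y i j
  sff : ∀ y, y ≠ 0 → 0 ≤ D.F y → ∀ i j, D.K y i j = pull L (sliceK M f) y i j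

end Vale.Agent.P366.T1
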