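import Mathlib.Analysis.Calculus.FDeriv.Symmetric
import Vale.Agent.P366.T1.Stmt

open MeasureTheory Metric Filter Topology Set
open scoped ContDiff ENNReal

noncomputable section
namespace Vale.Agent.P366.T1

open Vale.Agent.P366.Stmt

/-! ### Calculus in the null plane -/

section Plane

lemma fderiv_apply_eq {G : ℝ × ℝ → ℝ} {p : ℝ × ℝ} (hG : DifferentiableAt ℝ G p) (a b : ℝ) :
    fderiv ℝ G p (a, b) = a * du G p + b * dv G p := by
  have h1 : du G p = fderiv ℝ G p (1, 0) := hG.lineDeriv_eq_fderiv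
  have h2 : dv G p = fderiv ℝ G p (0, 1) := hG.lineDeriv_eq_fderiv
  have h3 : ((a, b) : ℝ × ℝ) = a • (1, 0) + b • (0, 1) := by
    ext <;> simp
  rw [h3, map_add, map_smul, map_smul, h1, h2]
  simp

variable {Q : Set (ℝ × ℝ)}

lemma contDiffOn_du (hQ : IsOpen Q) {G : ℝ × ℝ → ℝ} (hG : ContDiffOn ℝ ∞ G Q) :
    ContDiffOn ℝ ∞ (du G) Q := by
  have h1 : ContDiffOn ℝ ∞ (fun p => fderiv ℝ G p (1, 0)) Q :=
    (hG.fderiv_of_isOpen hQ (m := ∞) (by simp)).clm_apply contDiffOn_const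
  refine h1.congr fun p hp => ?_
  exact ((hG.contDiffAt (hQ.mem_nhds hp)).differentiableAt (by simp)).lineDeriv_eq_fderiv

lemma contDiffOn_dv (hQ : IsOpen Q) {G : ℝ × ℝ → ℝ} (hG : ContDiffOn ℝ ∞ G Q) :
    ContDiffOn ℝ ∞ (dv G) Q := by
  have h1 : ContDiffOn ℝ ∞ (fun p => fderiv ℝ G p (0, 1)) Q :=
    (hG.fderiv_of_isOpen hQ (m := ∞) (by simp)).clm_apply contDiffOn_const
  refine h1.congr fun p hp => ?_
  exact ((hG.contDiffAt (hQ.mem_nhds hp)).differentiableAt (by simp)).lineDeriv_eq_fderiv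

lemma diffAt (hQ : IsOpen Q) {G : ℝ × ℝ → ℝ} (hG : ContDiffOn ℝ ∞ G Q) {p : ℝ × ℝ}
    (hp : p ∈ Q) : DifferentiableAt ℝ G p :=
  (hG.contDiffAt (hQ.mem_nhds hp)).differentiableAt (by simp)

lemma du_dv_comm (hQ : IsOpen Q) {G : ℝ × ℝ → ℝ} (hG : ContDiffOn ℝ ∞ G Q) {p : ℝ × ℝ}
    (hp : p ∈ Q) : dv (du G) p = du (dv G) p := by
  have hat : ContDiffAt ℝ ∞ G p := hG.contDiffAt (hQ.mem_nhds hp)
  have hsymm : IsSymmSndFDerivAt ℝ G p := hat.isSymmSndFDerivAt (by simp; exact WithTop.coe_le_coe.2 le_top)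
  have hfd : DifferentiableAt ℝ (fderiv ℝ G) p :=
    (hat.fderiv_right (m := ∞) (by simp)).differentiableAt (by simp)
  have e1 : du G =ᶠ[𝓝 p] fun q => fderiv ℝ G q (1, 0) := by
    filter_upwards [hQ.mem_nhds hp] with q hq
    exact (diffAt hQ hG hq).lineDeriv_eq_fderiv
  have e2 : dv G =ᶠ[𝓝 p] fun q => fderiv ℝ G q (0, 1) := by
    filter_upwards [hQ.mem_nhds hp] with q hq
    exact (diffAt hQ hG hq).lineDeriv_eq_fderiv
  have h1 : dv (du G) p = fderiv ℝ (du G) p (0, 1) :=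
    (diffAt hQ (contDiffOn_du hQ hG) hp).lineDeriv_eq_fderiv
  have h2 : du (dv G) p = fderiv ℝ (dv G) p (1, 0) :=
    (diffAt hQ (contDiffOn_dv hQ hG) hp).lineDeriv_eq_fderiv
  rw [h1, h2, e1.fderiv_eq, e2.fderiv_eq,
    fderiv_clm_apply hfd (differentiableAt_const _), fderiv_clm_apply hfd (differentiableAt_const _)]
  simpa using hsymm.eq (0, 1) (1, 0)

lemma hasDerivAt_v (hQ : IsOpen Q) {G : ℝ × ℝ → ℝ} (hG : ContDiffOn ℝ ∞ G Q) {u v : ℝ}
    (hp : (u, v) ∈ Q) : HasDerivAt (fun w => G (u, w)) (dv G (u, v)) v := by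
  have h := (diffAt hQ hG hp).hasFDerivAt
  have hc : HasDerivAt (fun w : ℝ => ((u, w) : ℝ × ℝ)) (0, 1) v :=
    (hasDerivAt_const v u).prodMk (hasDerivAt_id v)
  have := h.comp_hasDerivAt v hc
  rw [fderiv_apply_eq (diffAt hQ hG hp), zero_mul, zero_add, one_mul] at this
  exact this

lemma hasDerivAt_u (hQ : IsOpen Q) {G : ℝ × ℝ → ℝ} (hG : ContDiffOn ℝ ∞ G Q) {u v : ℝ}
    (hp : (u, v) ∈ Q) : HasDerivAt (fun w => G (w, v)) (du G (u, v)) u := by
  have h := (diffAt hQ hG hp).hasFDerivAt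
  have hc : HasDerivAt (fun w : ℝ => ((w, v) : ℝ × ℝ)) (1, 0) u :=
    (hasDerivAt_id u).prodMk (hasDerivAt_const u v)
  have := h.comp_hasDerivAt u hc
  rw [fderiv_apply_eq (diffAt hQ hG hp), zero_mul, add_zero, one_mul] at this
  exact this

end Plane

namespace Spacetime

variable {n : ℕ} (M : Spacetime)

lemma smooth_dvr : ContDiffOn ℝ ∞ (dv M.r) M.Q := contDiffOn_dv M.isOpen M.smooth.2

lemma smooth_dur : ContDiffOn ℝ ∞ (du M.r) M.Q := contDiffOn_du M.isOpen M.smooth.2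

lemma smooth_qv : ContDiffOn ℝ ∞ (fun s => dv M.r s / M.F s) M.Q :=
  M.smooth_dvr.div M.smooth.1 fun p hp => (M.pos p hp).1.ne'

lemma smooth_qu : ContDiffOn ℝ ∞ (fun s => du M.r s / M.F s) M.Q :=
  M.smooth_dur.div M.smooth.1 fun p hp => (M.pos p hp).1.ne'

variable {M}

/-- Raychaudhuri along the outgoing null lines. -/
lemma ray_v (hE : M.DEC n) {u v v' : ℝ} (h : (u, v) ∈ M.Q) (h' : (u, v') ∈ M.Q) (hv : v ≤ v') :
    dv M.r (u, v') / M.F (u, v') ≤ dv M.r (u, v) / M.F (u, v) := by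
  have hin : ∀ w ∈ Icc v v', (u, w) ∈ M.Q := fun w hw => M.segV u v v' w h h' hw.1 hw.2
  have hd : ∀ w ∈ Icc v v', HasDerivAt (fun w => dv M.r (u, w) / M.F (u, w))
      (dv (fun s => dv M.r s / M.F s) (u, w)) w := fun w hw =>
    hasDerivAt_v M.isOpen M.smooth_qv (hin w hw)
  have hanti : AntitoneOn (fun w => dv M.r (u, w) / M.F (u, w)) (Icc v v') := by
    refine antitoneOn_of_deriv_nonpos (convex_Icc v v')
      (fun w hw => (hd w hw).continuousAt.continuousWithinAt)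
      (fun w hw => (hd w (interior_subset hw)).differentiableAt.differentiableWithinAt)
      fun w hw => ?_
    rw [(hd w (interior_subset hw)).deriv]
    exact (hE _ (hin w (interior_subset hw))).1
  exact hanti ⟨le_rfl, hv⟩ ⟨hv, le_rfl⟩ hv

/-- Raychaudhuri along the ingoing null lines. -/
lemma ray_u (hE : M.DEC n) {u u' v : ℝ} (h : (u, v) ∈ M.Q) (h' : (u', v) ∈ M.Q) (hu : u ≤ u') :
    du M.r (u', v) / M.F (u', v) ≤ du M.r (u, v) / M.F (u, v) := by
  have hin : ∀ w ∈ Icc u u', (w, v) ∈ M.Q := fun w hw => M.segU u u' v w h h' hw.1 hw.2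
  have hd : ∀ w ∈ Icc u u', HasDerivAt (fun w => du M.r (w, v) / M.F (w, v))
      (du (fun s => du M.r s / M.F s) (w, v)) w := fun w hw =>
    hasDerivAt_u M.isOpen M.smooth_qu (hin w hw)
  have hanti : AntitoneOn (fun w => du M.r (w, v) / M.F (w, v)) (Icc u u') := by
    refine antitoneOn_of_deriv_nonpos (convex_Icc u u')
      (fun w hw => (hd w hw).continuousAt.continuousWithinAt)
      (fun w hw => (hd w (interior_subset hw)).differentiableAt.differentiableWithinAt)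
      fun w hw => ?_
    rw [(hd w (interior_subset hw)).deriv]
    exact (hE _ (hin w (interior_subset hw))).2.1
  exact hanti ⟨le_rfl, hu⟩ ⟨hu, le_rfl⟩ hu

lemma dv_nonpos_mono (hE : M.DEC n) {u v v' : ℝ} (h : (u, v) ∈ M.Q) (h' : (u, v') ∈ M.Q)
    (hv : v ≤ v') (h0 : dv M.r (u, v) ≤ 0) : dv M.r (u, v') ≤ 0 := by
  have h1 := ray_v hE h h' hv
  have h2 : dv M.r (u, v) / M.F (u, v) ≤ 0 :=
    div_nonpos_of_nonpos_of_nonneg h0 (M.pos _ h).1.le
  have h3 := h1.trans h2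
  by_contra hc
  exact absurd h3 (not_le.2 (div_pos (not_le.1 hc) (M.pos _ h').1))

/-- On an outgoing null line the area radius is largest where its derivative vanishes. -/
lemma r_le_v (hE : M.DEC n) {u v w : ℝ} (h : (u, v) ∈ M.Q) (hw : (u, w) ∈ M.Q)
    (h0 : dv M.r (u, v) = 0) : M.r (u, w) ≤ M.r (u, v) := by
  rcases le_total w v with hwv | hwv
  · have hin : ∀ s ∈ Icc w v, (u, s) ∈ M.Q := fun s hs => M.segV u w v s hw h hs.1 hs.2
    have hd : ∀ s ∈ Icc w v, HasDerivAt (fun s => M.r (u, s)) (dv M.r (u, s)) s := fun s hs =>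
      hasDerivAt_v M.isOpen M.smooth.2 (hin s hs)
    have hmono : MonotoneOn (fun s => M.r (u, s)) (Icc w v) := by
      refine monotoneOn_of_deriv_nonneg (convex_Icc w v)
        (fun s hs => (hd s hs).continuousAt.continuousWithinAt)
        (fun s hs => (hd s (interior_subset hs)).differentiableAt.differentiableWithinAt)
        fun s hs => ?_
      rw [(hd s (interior_subset hs)).deriv]
      have hs' := interior_subset hs
      have h1 := ray_v hE (hin s hs') h hs'.2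
      rw [h0, zero_div] at h1
      by_contra hc
      exact absurd h1 (not_le.2 (div_neg_of_neg_of_pos (not_le.1 hc) (M.pos _ (hin s hs')).1))
    exact hmono ⟨le_rfl, hwv⟩ ⟨hwv, le_rfl⟩ hwv
  · have hin : ∀ s ∈ Icc v w, (u, s) ∈ M.Q := fun s hs => M.segV u v w s h hw hs.1 hs.2
    have hd : ∀ s ∈ Icc v w, HasDerivAt (fun s => M.r (u, s)) (dv M.r (u, s)) s := fun s hs =>
      hasDerivAt_v M.isOpen M.smooth.2 (hin s hs)
    have hanti : AntitoneOn (fun s => M.r (u, s)) (Icc v w) := by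
      refine antitoneOn_of_deriv_nonpos (convex_Icc v w)
        (fun s hs => (hd s hs).continuousAt.continuousWithinAt)
        (fun s hs => (hd s (interior_subset hs)).differentiableAt.differentiableWithinAt)
        fun s hs => ?_
      rw [(hd s (interior_subset hs)).deriv]
      have hs' := interior_subset hs
      exact dv_nonpos_mono hE h (hin s hs') hs'.1 h0.le
    exact hanti ⟨le_rfl, hwv⟩ ⟨hwv, le_rfl⟩ hwv

lemma r_le_u (hE : M.DEC n) {u v w : ℝ} (h : (u, v) ∈ M.Q) (hw : (w, v) ∈ M.Q)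
    (h0 : du M.r (u, v) = 0) : M.r (w, v) ≤ M.r (u, v) := by
  rcases le_total w u with hwv | hwv
  · have hin : ∀ s ∈ Icc w u, (s, v) ∈ M.Q := fun s hs => M.segU w u v s hw h hs.1 hs.2
    have hd : ∀ s ∈ Icc w u, HasDerivAt (fun s => M.r (s, v)) (du M.r (s, v)) s := fun s hs =>
      hasDerivAt_u M.isOpen M.smooth.2 (hin s hs)
    have hmono : MonotoneOn (fun s => M.r (s, v)) (Icc w u) := by
      refine monotoneOn_of_deriv_nonneg (convex_Icc w u)
        (fun s hs => (hd s hs).continuousAt.continuousWithinAt)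
        (fun s hs => (hd s (interior_subset hs)).differentiableAt.differentiableWithinAt)
        fun s hs => ?_
      rw [(hd s (interior_subset hs)).deriv]
      have hs' := interior_subset hs
      have h1 := ray_u hE (hin s hs') h hs'.2
      rw [h0, zero_div] at h1
      by_contra hc
      exact absurd h1 (not_le.2 (div_neg_of_neg_of_pos (not_le.1 hc) (M.pos _ (hin s hs')).1))
    exact hmono ⟨le_rfl, hwv⟩ ⟨hwv, le_rfl⟩ hwv
  · have hin : ∀ s ∈ Icc u w, (s, v) ∈ M.Q := fun s hs => M.segU u w v s h hw hs.1 hs.2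
    have hd : ∀ s ∈ Icc u w, HasDerivAt (fun s => M.r (s, v)) (du M.r (s, v)) s := fun s hs =>
      hasDerivAt_u M.isOpen M.smooth.2 (hin s hs)
    have hanti : AntitoneOn (fun s => M.r (s, v)) (Icc u w) := by
      refine antitoneOn_of_deriv_nonpos (convex_Icc u w)
        (fun s hs => (hd s hs).continuousAt.continuousWithinAt)
        (fun s hs => (hd s (interior_subset hs)).differentiableAt.differentiableWithinAt)
        fun s hs => ?_
      rw [(hd s (interior_subset hs)).deriv]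
      have hs' := interior_subset hs
      have h1 := ray_u hE h (hin s hs') hs'.1
      rw [h0, zero_div] at h1
      by_contra hc
      exact absurd h1 (not_le.2 (div_pos (not_le.1 hc) (M.pos _ (hin s hs')).1))
    exact hanti ⟨le_rfl, hwv⟩ ⟨hwv, le_rfl⟩ hwv

lemma smooth_mass : ContDiffOn ℝ ∞ (M.mass n) M.Q := by
  unfold mass
  refine ContDiffOn.div_const (ContDiffOn.mul (M.smooth.2.pow _) (contDiffOn_const.add ?_)) 2
  exact ((contDiffOn_const.mul M.smooth_dur).mul M.smooth_dvr).div M.smooth.1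
    fun p hp => (M.pos p hp).1.ne'

/-- The mass does not decrease in `v` in the region where `r_v ≥ 0 ≥ r_u`. -/
lemma dv_mass_nonneg (hn : 3 ≤ n) (hE : M.DEC n) {p : ℝ × ℝ} (hp : p ∈ M.Q)
    (h1 : du M.r p ≤ 0) (h2 : 0 ≤ dv M.r p) : 0 ≤ dv (M.mass n) p := by
  obtain ⟨u, v⟩ := p
  have hF := (M.pos _ hp).1
  have hr := (M.pos _ hp).2
  have d1 := hasDerivAt_v M.isOpen M.smooth.2 hp
  have d2 := hasDerivAt_v M.isOpen M.smooth_dur hp
  have d3 := hasDerivAt_v M.isOpen M.smooth_qv hp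
  have d4 := hasDerivAt_v M.isOpen (smooth_mass (n := n)) hp
  have hmass : (fun w => M.mass n (u, w)) = fun w =>
      M.r (u, w) ^ (n - 2) * (1 + 4 * du M.r (u, w) * (dv M.r (u, w) / M.F (u, w))) / 2 := by
    funext w
    simp only [mass]
    ring
  have d5 := ((d1.pow (n - 2)).mul ((d2.const_mul 4).mul d3 |>.const_add 1)).div_const 2
  have heq : (fun w => M.mass n (u, w)) = fun w => ((fun w => M.r (u, w)) ^ (n - 2) *
      fun w => 1 + ((fun w => 4 * du M.r (u, w)) * fun w => dv M.r (u, w) / M.F (u, w)) w) w / 2 := by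
    rw [hmass]; funext w; simp [Pi.mul_apply, Pi.pow_apply]
  rw [heq] at d4
  have hval := d4.unique d5
  rw [hval]
  have hE1 := (hE _ hp).1
  have hE3 := (hE _ hp).2.2
  have hcomm := du_dv_comm M.isOpen M.smooth.2 hp
  obtain ⟨k, rfl⟩ : ∃ k, n = k + 3 := ⟨n - 3, by omega⟩
  have hk : k + 3 - 2 = k + 1 := by omega
  simp only [Pi.mul_apply, Pi.pow_apply, hk, hcomm]
  set r := M.r (u, v)
  set a := du M.r (u, v)
  set b := dv M.r (u, v)
  set F := M.F (u, v)
  set X := dv (fun s => dv M.r s / M.F s) (u, v)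
  set Y := du (dv M.r) (u, v)
  have hk1 : ((k + 1 : ℕ) : ℝ) = (((k + 3 : ℕ) : ℝ) - 2) := by push_cast; ring
  have key : (((k + 1 : ℕ) : ℝ) * r ^ (k + 1 - 1) * b * (1 + 4 * a * (b / F)) +
      r ^ (k + 1) * (4 * Y * (b / F) + 4 * a * X)) / 2 =
      2 * r ^ k * (b / F) * (r * Y + (((k + 3 : ℕ) : ℝ) - 2) * (F / 4 + a * b)) +
      2 * r ^ (k + 1) * (a * X) := by
    rw [hk1]
    simp only [Nat.add_sub_cancel]
    field_simp
    ring
  have hgoal : 0 ≤ (((k + 1 : ℕ) : ℝ) * r ^ (k + 1 - 1) * b * (1 + 4 * a * (b / F)) +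
      r ^ (k + 1) * (4 * Y * (b / F) + 4 * a * X)) / 2 := by
    rw [key]
    have hax : 0 ≤ a * X := mul_nonneg_of_nonpos_of_nonpos h1 hE1
    have hb : 0 ≤ b / F := div_nonneg h2 hF.le
    have := hr.le
    positivity
  convert hgoal using 2

/-- The mass does not increase in `u` in the region where `r_v ≥ 0 ≥ r_u`. -/
lemma du_mass_nonpos (hn : 3 ≤ n) (hE : M.DEC n) {p : ℝ × ℝ} (hp : p ∈ M.Q)
    (h1 : du M.r p ≤ 0) (h2 : 0 ≤ dv M.r p) : du (M.mass n) p ≤ 0 := by
  obtain ⟨u, v⟩ := p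
  have hF := (M.pos _ hp).1
  have hr := (M.pos _ hp).2
  have d1 := hasDerivAt_u M.isOpen M.smooth.2 hp
  have d2 := hasDerivAt_u M.isOpen M.smooth_dvr hp
  have d3 := hasDerivAt_u M.isOpen M.smooth_qu hp
  have d4 := hasDerivAt_u M.isOpen (smooth_mass (n := n)) hp
  have d5 := ((d1.pow (n - 2)).mul ((d2.const_mul 4).mul d3 |>.const_add 1)).div_const 2
  have heq : (fun w => M.mass n (w, v)) = fun w => ((fun w => M.r (w, v)) ^ (n - 2) *
      fun w => 1 + ((fun w => 4 * dv M.r (w, v)) * fun w => du M.r (w, v) / M.F (w, v)) w) w / 2 := by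
    funext w; simp only [mass, Pi.mul_apply, Pi.pow_apply]; ring
  rw [heq] at d4
  have hval := d4.unique d5
  rw [hval]
  have hE1 := (hE _ hp).2.1
  have hE3 := (hE _ hp).2.2
  obtain ⟨k, rfl⟩ : ∃ k, n = k + 3 := ⟨n - 3, by omega⟩
  have hk : k + 3 - 2 = k + 1 := by omega
  simp only [Pi.mul_apply, Pi.pow_apply, hk]
  set r := M.r (u, v)
  set a := du M.r (u, v)
  set b := dv M.r (u, v)
  set F := M.F (u, v)
  set X := du (fun s => du M.r s / M.F s) (u, v)
  set Y := du (dv M.r) (u, v)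
  have hk1 : ((k + 1 : ℕ) : ℝ) = (((k + 3 : ℕ) : ℝ) - 2) := by push_cast; ring
  have key : (((k + 1 : ℕ) : ℝ) * r ^ (k + 1 - 1) * a * (1 + 4 * b * (a / F)) +
      r ^ (k + 1) * (4 * Y * (a / F) + 4 * b * X)) / 2 =
      -(2 * r ^ k * (-a / F) * (r * Y + (((k + 3 : ℕ) : ℝ) - 2) * (F / 4 + a * b)) +
      2 * r ^ (k + 1) * (b * (-X))) := by
    rw [hk1]
    simp only [Nat.add_sub_cancel]
    field_simp
    ring
  have hgoal : (((k + 1 : ℕ) : ℝ) * r ^ (k + 1 - 1) * a * (1 + 4 * b * (a / F)) +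
      r ^ (k + 1) * (4 * Y * (a / F) + 4 * b * X)) / 2 ≤ 0 := by
    rw [key, neg_nonpos]
    have hax : 0 ≤ b * -X := mul_nonneg h2 (by linarith)
    have hb : 0 ≤ -a / F := div_nonneg (by linarith) hF.le
    have := hr.le
    positivity
  convert hgoal using 2

end Spacetime

end Vale.Agent.P366.T1
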