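import Vale.Agent.P366.Bdl.B1
import Mathlib.Analysis.SpecialFunctions.Gaussian.FourierTransform
import Mathlib.LinearAlgebra.Transvection.Basic

/-!
Sphere integral of `‖L θ‖ ^ (-n)` for a linear isomorphism `L` (volume of an ellipsoid).
-/

open MeasureTheory Metric Filter Topology Set
open scoped BigOperators ENNReal ContDiff RealInnerProductSpace

noncomputable section
namespace Vale.Agent.P366

/-- Polar coordinates with the radial integral inside. -/
lemma polar_symm {n : ℕ} [Nontrivial (E n)] (h : E n → ℝ) (hh : Integrable h) :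
    ∫ x, h x = ∫ θ : sphere (0 : E n) 1, (∫ r in Ioi (0 : ℝ), r ^ (n - 1) * h (r • (θ : E n)))
      ∂(sphM n) := by
  have hmp := (volume : Measure (E n)).measurePreserving_homeomorphUnitSphereProd
  have hdim : Module.finrank ℝ (E n) = n := by simp only [finrank_euclideanSpace, Fintype.card_fin]
  rw [hdim] at hmp
  have hemb : MeasurableEmbedding (homeomorphUnitSphereProd (E n)) :=
    Homeomorph.measurableEmbedding _
  have hkey : ∀ x : ({(0)}ᶜ : Set (E n)), ‖(x : E n)‖ • ‖(x : E n)‖⁻¹ • (x : E n) = x := by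
    intro x
    have hx : ‖(x : E n)‖ ≠ 0 := norm_ne_zero_iff.mpr (fun h0 => x.2 (by simp [h0]))
    rw [smul_inv_smul₀ hx]
  have h1 : ∫ x, h x = ∫ x : ({(0)}ᶜ : Set (E n)), h x.1 ∂((volume : Measure (E n)).comap (↑)) := by
    rw [integral_subtype_comap (measurableSet_singleton _).compl fun x ↦ h x,
      restrict_compl_singleton]
  have h2 : ∫ x : ({(0)}ᶜ : Set (E n)), h x.1 ∂((volume : Measure (E n)).comap (↑))
      = ∫ p : sphere (0 : E n) 1 × Ioi (0 : ℝ), h (p.2.1 • (p.1 : E n))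
        ∂((sphM n).prod (Measure.volumeIoiPow (n - 1))) := by
    rw [← hmp.integral_comp hemb]
    refine integral_congr_ae (Eventually.of_forall fun x => ?_)
    simp only
    congr 1
    simp only [homeomorphUnitSphereProd_apply_snd_coe, homeomorphUnitSphereProd_apply_fst_coe, hkey]
  have hint : Integrable (fun p : sphere (0 : E n) 1 × Ioi (0 : ℝ) => h (p.2.1 • (p.1 : E n)))
      ((sphM n).prod (Measure.volumeIoiPow (n - 1))) := by
    rw [← hmp.integrable_comp_emb hemb]
    have : (fun p : sphere (0 : E n) 1 × Ioi (0 : ℝ) => h (p.2.1 • (p.1 : E n))) ∘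
        (homeomorphUnitSphereProd (E n)) = fun x : ({(0)}ᶜ : Set (E n)) => h x.1 := by
      funext x
      simp only [Function.comp]
      congr 1
      simp only [homeomorphUnitSphereProd_apply_snd_coe, homeomorphUnitSphereProd_apply_fst_coe, hkey]
    rw [this]
    have h3 : IntegrableOn h ({(0)}ᶜ : Set (E n)) := hh.integrableOn
    rw [integrableOn_iff_comap_subtypeVal (measurableSet_singleton _).compl] at h3
    exact h3
  rw [h1, h2, integral_prod _ hint]
  refine integral_congr_ae (Eventually.of_forall fun θ => ?_)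
  simp only [Measure.volumeIoiPow, ENNReal.ofReal]
  rw [integral_withDensity_eq_integral_smul,
    integral_subtype_comap measurableSet_Ioi
      fun a ↦ Real.toNNReal (a ^ (n - 1)) • h (a • (θ : E n))]
  · refine setIntegral_congr_fun measurableSet_Ioi fun x hx ↦ ?_
    simp only [NNReal.smul_def, Real.coe_toNNReal _ (pow_nonneg (le_of_lt hx) _), smul_eq_mul]
  · exact (measurable_subtype_coe.pow_const _).real_toNNReal

lemma gauss_inner {n : ℕ} (hn : 0 < n) {a : ℝ} (ha : 0 < a) :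
    ∫ r in Ioi (0 : ℝ), r ^ (n - 1) * Real.exp (-(r * a) ^ 2) =
      a ^ (-(n : ℝ)) * ∫ s in Ioi (0 : ℝ), s ^ (n - 1) * Real.exp (-s ^ 2) := by
  have h := integral_comp_mul_left_Ioi (fun s : ℝ => s ^ (n - 1) * Real.exp (-s ^ 2)) 0 ha
  simp only [mul_zero, smul_eq_mul] at h
  have h1 : ∀ r : ℝ, (a * r) ^ (n - 1) * Real.exp (-(a * r) ^ 2) =
      a ^ (n - 1) * (r ^ (n - 1) * Real.exp (-(r * a) ^ 2)) := by
    intro r; rw [mul_pow, mul_comm r a]; ring
  simp only [h1] at h
  rw [integral_const_mul] at h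
  have h2 : a ^ (-(n : ℝ)) = a⁻¹ * (a ^ (n - 1))⁻¹ := by
    rw [Real.rpow_neg ha.le, Real.rpow_natCast, ← mul_inv]
    congr 1
    conv_lhs => rw [show n = (n - 1) + 1 by omega, pow_succ]
    rw [mul_comm]
  rw [h2]
  have h3 : a ^ (n - 1) ≠ 0 := pow_ne_zero _ ha.ne'
  field_simp
  field_simp at h
  linarith

lemma gauss_integrable (n : ℕ) : Integrable fun x : E n => Real.exp (-‖x‖ ^ 2) := by
  have h := GaussianFourier.integrable_cexp_neg_mul_sq_norm_add (V := E n) (b := 1) (by simp) 0 0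
  have h2 := h.re
  refine h2.congr (Eventually.of_forall fun x => ?_)
  simp only [inner_zero_left, Complex.ofReal_zero, mul_zero, add_zero, neg_mul, one_mul]
  rw [show (-((‖x‖ : ℂ)) ^ 2) = ((-‖x‖ ^ 2 : ℝ) : ℂ) by push_cast; ring]
  rw [← Complex.ofReal_exp]
  exact Complex.ofReal_re _

/-- The sphere integral of `‖L θ‖ ^ (-n)`. -/
theorem sph_norm_pow {n : ℕ} (hn : 0 < n) (L : E n ≃L[ℝ] E n) :
    ∫ θ : sphere (0 : E n) 1, ‖L (θ : E n)‖ ^ (-(n : ℝ)) ∂(sphM n) =
      omega n / |LinearMap.det (L : E n →ₗ[ℝ] E n)| := by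
  have : Nonempty (Fin n) := ⟨⟨0, hn⟩⟩
  have : Nontrivial (E n) := inferInstance
  set C : ℝ := ∫ s in Ioi (0 : ℝ), s ^ (n - 1) * Real.exp (-s ^ 2) with hC
  have hint0 := gauss_integrable n
  have hdet : LinearMap.det (L : E n →ₗ[ℝ] E n) ≠ 0 := by
    have := LinearEquiv.isUnit_det' L.toLinearEquiv
    exact this.ne_zero
  -- general polar formula
  have key : ∀ A : E n ≃L[ℝ] E n, Integrable (fun x : E n => Real.exp (-‖A x‖ ^ 2)) →
      ∫ x : E n, Real.exp (-‖A x‖ ^ 2) =
      (∫ θ : sphere (0 : E n) 1, ‖A (θ : E n)‖ ^ (-(n : ℝ)) ∂(sphM n)) * C := by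
    intro A hA
    rw [polar_symm _ hA, ← integral_mul_const]
    refine integral_congr_ae (Eventually.of_forall fun θ => ?_)
    simp only
    have hpos : 0 < ‖A (θ : E n)‖ := by
      rw [norm_pos_iff]
      intro h0
      have : (θ : E n) = 0 := by
        have := congrArg A.symm h0
        simpa using this
      have h1 := norm_sph θ
      rw [this, norm_zero] at h1
      exact zero_ne_one h1
    rw [← gauss_inner hn hpos]
    refine setIntegral_congr_fun measurableSet_Ioi fun r hr => ?_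
    simp only [map_smul, norm_smul, Real.norm_eq_abs, abs_of_pos (show (0 : ℝ) < r from hr)]
  -- the change of variables
  have hmap : (volume : Measure (E n)).map L = ENNReal.ofReal |(LinearMap.det (L : E n →ₗ[ℝ] E n))⁻¹| •
      (volume : Measure (E n)) :=
    Measure.map_linearMap_addHaar_eq_smul_addHaar (f := (L : E n →ₗ[ℝ] E n)) volume hdet
  have hintL : Integrable (fun x : E n => Real.exp (-‖L x‖ ^ 2)) := by
    have h1 : Integrable (fun x : E n => Real.exp (-‖x‖ ^ 2)) ((volume : Measure (E n)).map L) := by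
      rw [hmap]; exact hint0.smul_measure ENNReal.ofReal_ne_top
    exact (integrable_map_equiv L.toHomeomorph.toMeasurableEquiv _).1 h1
  have h1 := key L hintL
  have h2 := key (ContinuousLinearEquiv.refl ℝ (E n)) hint0
  have h3 : ∫ x : E n, Real.exp (-‖L x‖ ^ 2) =
      |(LinearMap.det (L : E n →ₗ[ℝ] E n))⁻¹| * ∫ x : E n, Real.exp (-‖x‖ ^ 2) := by
    have h4 := integral_map_equiv (μ := (volume : Measure (E n)))
      L.toHomeomorph.toMeasurableEquiv (fun x : E n => Real.exp (-‖x‖ ^ 2))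
    have h5 : (volume : Measure (E n)).map (L.toHomeomorph.toMeasurableEquiv) =
        (volume : Measure (E n)).map L := rfl
    rw [h5, hmap, integral_smul_measure, ENNReal.toReal_ofReal (abs_nonneg _), smul_eq_mul] at h4
    exact h4.symm
  have h4 : ∫ θ : sphere (0 : E n) 1, ‖(ContinuousLinearEquiv.refl ℝ (E n)) (θ : E n)‖ ^ (-(n : ℝ))
      ∂(sphM n) = omega n := by
    have : ∀ θ : sphere (0 : E n) 1, ‖(ContinuousLinearEquiv.refl ℝ (E n)) (θ : E n)‖ ^ (-(n : ℝ)) = 1 := by
      intro θ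
      rw [ContinuousLinearEquiv.coe_refl', id, norm_sph, Real.one_rpow]
    simp only [this]
    simp [omega, Measure.real]
  rw [h4] at h2
  simp only [ContinuousLinearEquiv.coe_refl', id] at h2
  have hpos : 0 < ∫ x : E n, Real.exp (-‖x‖ ^ 2) := by
    rw [integral_pos_iff_support_of_nonneg (fun x => (Real.exp_pos _).le) hint0]
    have : Function.support (fun x : E n => Real.exp (-‖x‖ ^ 2)) = univ := by
      ext x; simp [Real.exp_ne_zero]
    rw [this]
    simp
  have hC0 : C ≠ 0 := by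
    intro h0; rw [h0, mul_zero] at h2; exact hpos.ne' h2
  have h5 : (∫ θ : sphere (0 : E n) 1, ‖L (θ : E n)‖ ^ (-(n : ℝ)) ∂(sphM n)) * C =
      omega n / |LinearMap.det (L : E n →ₗ[ℝ] E n)| * C := by
    rw [← h1, h3, h2, abs_inv]
    ring
  exact mul_right_cancel₀ hC0 h5

/-- The sphere integral of `(1 + ⟨w, θ⟩ ^ 2) ^ (-n / 2)`. -/
theorem sph_one_add_inner_sq {n : ℕ} (hn : 0 < n) (w : E n) :
    ∫ θ : sphere (0 : E n) 1, (1 + ⟪w, (θ : E n)⟫ ^ 2) ^ (-(n : ℝ) / 2) ∂(sphM n) =
      omega n / √(1 + ‖w‖ ^ 2) := by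
  set s : ℝ := √(1 + ‖w‖ ^ 2) with hs
  have hs2 : s ^ 2 = 1 + ‖w‖ ^ 2 := Real.sq_sqrt (by positivity)
  have hs0 : 0 < s := Real.sqrt_pos.2 (by positivity)
  set κ : ℝ := (s + 1)⁻¹ with hκ
  set A : E n →ₗ[ℝ] E n := LinearMap.transvection (innerₛₗ ℝ w) (κ • w) with hA
  have hAx : ∀ x, A x = x + (⟪w, x⟫ * κ) • w := by
    intro x
    rw [hA, LinearMap.transvection.apply, smul_smul]
    rfl
  have hκ1 : κ * ‖w‖ ^ 2 = s - 1 := by
    have : ‖w‖ ^ 2 = (s - 1) * (s + 1) := by nlinarith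
    rw [this, hκ]
    field_simp
  have hdet : LinearMap.det A = s := by
    rw [hA, LinearMap.transvection.det]
    have : (innerₛₗ ℝ w) (κ • w) = κ * ‖w‖ ^ 2 := by
      rw [map_smul, smul_eq_mul, ← real_inner_self_eq_norm_sq]
      rfl
    rw [this, hκ1]; ring
  have hu : IsUnit (LinearMap.det A) := by rw [hdet]; exact hs0.ne'.isUnit
  set L : E n ≃L[ℝ] E n := (LinearEquiv.ofIsUnitDet
    (f := A) (v := (EuclideanSpace.basisFun (Fin n) ℝ).toBasis)
    (v' := (EuclideanSpace.basisFun (Fin n) ℝ).toBasis)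
    (by rw [LinearMap.det_toMatrix]; exact hu)).toContinuousLinearEquiv with hL
  have hLA : ∀ x, L x = A x := fun x => rfl
  have hLA' : (L : E n →ₗ[ℝ] E n) = A := by ext x; rfl
  have h := sph_norm_pow hn L
  rw [hLA', hdet, abs_of_pos hs0] at h
  rw [← h]
  refine integral_congr_ae (Eventually.of_forall fun θ => ?_)
  simp only
  have h1 : ‖L (θ : E n)‖ ^ 2 = 1 + ⟪w, (θ : E n)⟫ ^ 2 := by
    rw [hLA, hAx, ← real_inner_self_eq_norm_sq, inner_add_left, inner_add_right, inner_add_right,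
      real_inner_smul_left, real_inner_smul_right, real_inner_smul_left, real_inner_smul_right,
      real_inner_self_eq_norm_sq, real_inner_self_eq_norm_sq, norm_sph, real_inner_comm w (θ : E n)]
    have h2 : ⟪w, (θ : E n)⟫ * κ * (⟪w, (θ : E n)⟫ * κ * ‖w‖ ^ 2) =
        ⟪w, (θ : E n)⟫ ^ 2 * (κ * (κ * ‖w‖ ^ 2)) := by ring
    rw [h2, hκ1]
    have h3 : κ * (s - 1) + 2 * κ = 1 := by
      rw [hκ]; field_simp; ring
    have h4 : 2 * (⟪w, (θ : E n)⟫ * κ * ⟪w, (θ : E n)⟫) + ⟪w, (θ : E n)⟫ ^ 2 * (κ * (s - 1)) =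
        ⟪w, (θ : E n)⟫ ^ 2 * (κ * (s - 1) + 2 * κ) := by ring
    rw [h3] at h4
    linarith
  rw [← h1, ← Real.rpow_natCast, ← Real.rpow_mul (norm_nonneg _)]
  congr 1
  push_cast
  ring

end Vale.Agent.P366
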