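import Vale.Agent.P366.T1.Boost.PartB
import Vale.Agent.P366.T1.Boost.Help370b
import Vale.Agent.P366.T1.Boost.Help370c
import Vale.Agent.P366.T1.Boost.DensB765

/-! # The energy and the momentum of a boosted slice

The energy-momentum vector of a slice of a spherically symmetric spacetime is the limit of the
mass function times the unit vector of the frame of the slice. -/

set_option linter.all false

open MeasureTheory Metric Filter Topology Set
open scoped ContDiff ENNReal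

noncomputable section
namespace Vale.Agent.P366.T1

/-- the asymptotics of a boosted slice -/
theorem basympt {n : ℕ} (hn : 3 ≤ n) {M : Spacetime} {c : ℝ} (hE : M.DEC n)
    (hM : M.IsAFIn n c) {D : Stmt.Exterior n} {f : Stmt.E n → ℝ}
    {L : Stmt.E n ≃L[ℝ] Stmt.E n} (hS : IsSliceIn M f L D)
    (hc : ∃ b < c, ∃ R, ∀ x, R < Stmt.len x → |f x| ≤ b * Stmt.len x) (hAF : D.IsAF)
    {m : ℝ} {P : Fin n → ℝ} (hm : D.IsEnergy m) (hP : D.IsMomentum P) :
    ∃ (M0 : ℝ) (w : Fin n → ℝ), m = √(1 + ∑ i, w i ^ 2) * M0 ∧ (∀ i, P i = M0 * w i) ∧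
      (∃ b < 1, ∃ R, ∀ x, R < Stmt.len x → |f x| ≤ b * Stmt.len x) ∧
      (∀ x, x ≠ 0 → Tendsto (fun s : ℝ => M.mass n (uv f (s • x))) atTop (𝓝 M0)) ∧
      (∃ R, ∀ x, R < Stmt.len x →
        uv f x ∈ M.Q ∧ du M.r (uv f x) < 0 ∧ 0 < dv M.r (uv f x)) := by
  haveI : Nonempty (Fin n) := ⟨⟨0, by omega⟩⟩
  haveI : Nontrivial (Stmt.E n) := by unfold Stmt.E; infer_instance
  obtain ⟨b1, hb1c, Rb, hfb⟩ := hc
  have hfb' : ∀ x : E n, Rb < ‖x‖ → |f x| ≤ b1 * ‖x‖ := hfb
  have hfc : ∃ R, ∀ x : E n, R < ‖x‖ → |f x| ≤ c * ‖x‖ := ⟨Rb, fun x hx =>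
    (hfb' x hx).trans (mul_le_mul_of_nonneg_right hb1c.le (norm_nonneg _))⟩
  obtain ⟨q, hq, hAn⟩ := Boost.anB_of hn hM hS hfc hAF
  obtain ⟨w, hw, hG⟩ := hAn.exists_w hn
  have A : Boost.Asy M f L D q (M.Q ∩ {p : ℝ × ℝ | p.1 < p.2}) w := { hAn with hw := hw, hG := hG }
  obtain ⟨b2, hb20, hb21, Rs, hfs⟩ := A.slope
  obtain ⟨R0, hR0, hW⟩ := Boost.wedge_signs hM hn
  have hb10 : 0 ≤ b1 := by
    obtain ⟨x, hx⟩ := exists_norm_eq (E n) (le_max_right Rb 0 |>.trans (le_add_of_nonneg_right zero_le_one) : (0 : ℝ) ≤ max Rb 0 + 1)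
    have h1 : Rb < ‖x‖ := by rw [hx]; have := le_max_left Rb 0; linarith
    have h2 := hfb' x h1
    have h3 : 0 < ‖x‖ := by rw [hx]; have := le_max_right Rb 0; linarith
    have h4 := abs_nonneg (f x)
    by_contra h5
    have := mul_neg_of_neg_of_pos (not_le.mp h5) h3
    linarith
  have hb0 : 0 ≤ min b1 b2 := le_min hb10 hb20
  have hb1 : min b1 b2 < 1 := lt_of_le_of_lt (min_le_right _ _) hb21
  have hbc : min b1 b2 < c := lt_of_le_of_lt (min_le_left _ _) hb1c
  have hf : ∃ R, ∀ x : E n, R < ‖x‖ → |f x| ≤ min b1 b2 * ‖x‖ := by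
    refine ⟨max Rb Rs, fun x hx => ?_⟩
    have h1 := hfb' x (lt_of_le_of_lt (le_max_left _ _) hx)
    have h2 := hfs x (lt_of_le_of_lt (le_max_right _ _) hx)
    rcases le_total b1 b2 with h | h
    · rwa [min_eq_left h]
    · rwa [min_eq_right h]
  obtain ⟨hlim, hle⟩ := A.part_a hn hE hq A.mass_near hbc hb0 hb1 hW hf hm hP
  obtain ⟨R1, tE, tP, hR1, hcE, hcP, hI, hdE, hdP⟩ := A.fluxes hn
  have hpar : ∀ i, w i * m = Boost.gam w * P i := fun i =>
    A.part_b hn hq hle hR1 hcE hcP hI i (A.dens_b hn hE hdE hdP i) hm hP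
  have hγ := Boost.gam_pos w
  have hγ2 := Boost.gam_sq w
  have hsq : √(1 + ∑ i, w i ^ 2) = Boost.gam w := by
    unfold Boost.gam
    congr 2
    exact Finset.sum_congr rfl fun i _ => sq _
  have hPi : ∀ i, P i = w i * (m / Boost.gam w) := by
    intro i
    have := hpar i
    field_simp
    linarith
  have hM0 : Boost.gam w * m - ∑ i, w i * P i = m / Boost.gam w := by
    have h1 : ∑ i, w i * P i = (Boost.gam w ^ 2 - 1) * (m / Boost.gam w) := by
      have h2 : ∀ i, w i * P i = (w i * w i) * (m / Boost.gam w) := by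
        intro i; rw [hPi i]; ring
      rw [Finset.sum_congr rfl fun i _ => h2 i, ← Finset.sum_mul]
      congr 1
      linarith
    rw [h1]
    field_simp
    ring
  rw [hM0] at hlim
  refine ⟨m / Boost.gam w, w, ?_, fun i => ?_, ⟨min b1 b2, hb1, hf⟩, fun x hx => ?_, ?_⟩
  · rw [hsq]; field_simp
  · rw [hPi i]; ring
  · have h1 : Tendsto (fun s : ℝ => s • x) atTop (A919.far n) := by
      unfold A919.far
      rw [tendsto_comap_iff]
      have hx0 : 0 < ‖x‖ := norm_pos_iff.mpr hx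
      refine (tendsto_id.atTop_mul_const hx0).congr' ?_
      filter_upwards [eventually_ge_atTop 0] with s hs
      simp only [Function.comp, id, norm_smul, Real.norm_of_nonneg hs]
    exact hlim.comp h1
  · obtain ⟨R', hR'⟩ := hf
    refine ⟨max (max R' R0) 0, fun x hx => ?_⟩
    have hx' : max (max R' R0) 0 < ‖x‖ := hx
    have h1 : R' < ‖x‖ := lt_of_le_of_lt ((le_max_left _ _).trans (le_max_left _ _)) hx'
    have h2 : R0 < ‖x‖ := lt_of_le_of_lt ((le_max_right _ _).trans (le_max_left _ _)) hx'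
    have e1 : uv f x = (f x - ‖x‖, f x + ‖x‖) := rfl
    refine hW (uv f x) ‖x‖ ?_ h2 ?_
    · rw [e1]; simp only; ring
    · rw [e1]
      simp only
      have h3 := hR' x h1
      have h4 : (f x + ‖x‖ + (f x - ‖x‖)) / 2 = f x := by ring
      rw [h4]
      exact h3.trans (mul_le_mul_of_nonneg_right hbc.le (norm_nonneg _))

end Vale.Agent.P366.T1
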