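import Vale.Agent.P366.T1.Null

open MeasureTheory Metric Filter Topology Set
open scoped ContDiff ENNReal

noncomputable section
namespace Vale.Agent.P366.T1

open Vale.Agent.P366.Stmt

variable {n : ℕ}

lemma fderiv_eq_sum {f : E n → ℝ} (hf : Smooth f) (y x : E n) :
    fderiv ℝ f y x = ∑ i, x i * pd i f y := by
  have hd : DifferentiableAt ℝ f y := hf.differentiable (by simp) y
  have hx : x = ∑ i, x i • EuclideanSpace.single i (1 : ℝ) := by
    ext j
    simp [Finset.sum_apply, Pi.single_apply]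
  conv_lhs => rw [hx]
  rw [map_sum]
  refine Finset.sum_congr rfl fun i _ => ?_
  rw [map_smul, smul_eq_mul, pd, hd.lineDeriv_eq_fderiv]

/-- The null coordinate `u` on the slice. -/
def U (f : E n → ℝ) (x : E n) : ℝ := f x - len x

/-- The null coordinate `v` on the slice. -/
def V (f : E n → ℝ) (x : E n) : ℝ := f x + len x

lemma uv_eq (f : E n → ℝ) (x : E n) : uv f x = (U f x, V f x) := rfl

lemma len_continuous : Continuous (len : E n → ℝ) := continuous_norm

lemma uv_continuous {f : E n → ℝ} (hf : Smooth f) : Continuous (uv f) :=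
  (hf.continuous.sub len_continuous).prodMk (hf.continuous.add len_continuous)

lemma U_continuous {f : E n → ℝ} (hf : Smooth f) : Continuous (U f) :=
  hf.continuous.sub len_continuous

lemma V_continuous {f : E n → ℝ} (hf : Smooth f) : Continuous (V f) :=
  hf.continuous.add len_continuous

lemma len_smul {s : ℝ} (hs : 0 ≤ s) (x : E n) : len (s • x) = s * len x := by
  simp [len, norm_smul, abs_of_nonneg hs]

lemma len_pos {x : E n} (hx : x ≠ 0) : 0 < len x := norm_pos_iff.2 hx

/-- The derivative of `f` along a ray. -/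
def rad (f : E n → ℝ) (x : E n) (s : ℝ) : ℝ := ∑ i, x i * pd i f (s • x)

lemma hasDerivAt_ray {f : E n → ℝ} (hf : Smooth f) (x : E n) (s : ℝ) :
    HasDerivAt (fun s : ℝ => f (s • x)) (rad f x s) s := by
  have hd : HasFDerivAt f (fderiv ℝ f (s • x)) (s • x) :=
    (hf.differentiable (by simp) _).hasFDerivAt
  have hc : HasDerivAt (fun s : ℝ => s • x) x s := by
    simpa using (hasDerivAt_id s).smul_const x
  have := hd.comp_hasDerivAt s hc
  rwa [fderiv_eq_sum hf] at this

section Radial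

variable {f : E n → ℝ} (hf : Smooth f)
  (hr : ∀ x, x ≠ 0 → |∑ i, x i / len x * pd i f x| < 1)

include hr in
lemma rad_lt {x : E n} (hx : x ≠ 0) {s : ℝ} (hs : 0 < s) : |rad f x s| < len x := by
  have h1 := hr (s • x) (smul_ne_zero hs.ne' hx)
  have hl := len_pos hx
  have h2 : rad f x s = len x * ∑ i, (s • x) i / len (s • x) * pd i f (s • x) := by
    rw [rad, Finset.mul_sum]
    refine Finset.sum_congr rfl fun i _ => ?_
    rw [len_smul hs.le]
    simp only [PiLp.smul_apply, smul_eq_mul]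
    field_simp
  rw [h2, abs_mul, abs_of_pos hl]
  calc len x * _ < len x * 1 := by gcongr
    _ = len x := mul_one _

include hf hr in
lemma U_anti {x : E n} (hx : x ≠ 0) {a b : ℝ} (ha : 0 ≤ a) (hab : a < b) :
    U f (b • x) < U f (a • x) := by
  have hd : ∀ s : ℝ, HasDerivAt (fun s : ℝ => f (s • x) - s * len x) (rad f x s - len x) s := by
    intro s
    have := (hasDerivAt_ray hf x s).sub ((hasDerivAt_id s).mul_const (len x))
    rw [one_mul] at this
    exact this
  have h : StrictAntiOn (fun s : ℝ => f (s • x) - s * len x) (Ici 0) := by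
    refine strictAntiOn_of_deriv_neg (convex_Ici 0) ?_ fun s hs => ?_
    · exact fun s _ => (hd s).continuousAt.continuousWithinAt
    · rw [interior_Ici] at hs
      rw [(hd s).deriv]
      have := (abs_lt.1 (rad_lt hr hx hs)).2
      linarith
  have h2 := h (mem_Ici.2 ha) (mem_Ici.2 (ha.trans hab.le)) hab
  simp only at h2
  rw [U, U, len_smul ha, len_smul (ha.trans hab.le)]
  exact h2

include hf hr in
lemma V_mono {x : E n} (hx : x ≠ 0) {a b : ℝ} (ha : 0 ≤ a) (hab : a < b) :
    V f (a • x) < V f (b • x) := by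
  have hd : ∀ s : ℝ, HasDerivAt (fun s : ℝ => f (s • x) + s * len x) (rad f x s + len x) s := by
    intro s
    have := (hasDerivAt_ray hf x s).add ((hasDerivAt_id s).mul_const (len x))
    rw [one_mul] at this
    exact this
  have h : StrictMonoOn (fun s : ℝ => f (s • x) + s * len x) (Ici 0) := by
    refine strictMonoOn_of_deriv_pos (convex_Ici 0) ?_ fun s hs => ?_
    · exact fun s _ => (hd s).continuousAt.continuousWithinAt
    · rw [interior_Ici] at hs
      rw [(hd s).deriv]
      have := (abs_lt.1 (rad_lt hr hx hs)).1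
      linarith
  have h2 := h (mem_Ici.2 ha) (mem_Ici.2 (ha.trans hab.le)) hab
  simp only at h2
  rw [V, V, len_smul ha, len_smul (ha.trans hab.le)]
  exact h2

include hf hr in
lemma U_lt {x : E n} (hx : x ≠ 0) {s : ℝ} (hs : 1 < s) : U f (s • x) < U f x := by
  simpa using U_anti hf hr hx zero_le_one hs

include hf hr in
lemma V_lt {x : E n} (hx : x ≠ 0) {s : ℝ} (hs : 1 < s) : V f x < V f (s • x) := by
  simpa using V_mono hf hr hx zero_le_one hs

include hf hr in
lemma U_lt_zero {x : E n} (hx : x ≠ 0) : U f x < f 0 := by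
  have := U_anti hf hr hx le_rfl zero_lt_one
  simpa [U, len] using this

include hf hr in
lemma V_gt_zero {x : E n} (hx : x ≠ 0) : f 0 < V f x := by
  have := V_mono hf hr hx le_rfl zero_lt_one
  simpa [V, len] using this

end Radial

/-- A function on the plane which is nonnegative on the open ray above `x` is so at `x`. -/
lemma nonneg_of_ray {Q : Set (ℝ × ℝ)} (hQ : IsOpen Q) {h : ℝ × ℝ → ℝ} (hh : ContinuousOn h Q)
    {f : E n → ℝ} (hf : Smooth f) {x : E n} (hx : uv f x ∈ Q)
    (H : ∀ s : ℝ, 1 < s → 0 ≤ h (uv f (s • x))) : 0 ≤ h (uv f x) := by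
  have h1 : Tendsto (fun s : ℝ => h (uv f (s • x))) (𝓝[>] 1) (𝓝 (h (uv f x))) := by
    have hc : ContinuousAt (fun s : ℝ => h (uv f (s • x))) 1 := by
      have h2 : ContinuousAt h (uv f ((1 : ℝ) • x)) := by
        rw [one_smul]; exact hh.continuousAt (hQ.mem_nhds hx)
      exact ContinuousAt.comp (f := fun s : ℝ => uv f (s • x)) h2
        ((uv_continuous hf).comp (continuous_id.smul continuous_const)).continuousAt
    have := hc.tendsto.mono_left (nhdsWithin_le_nhds (s := Ioi (1 : ℝ)))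
    simpa using this
  refine ge_of_tendsto h1 ?_
  filter_upwards [self_mem_nhdsWithin] with s hs using H s hs

/-- The mass is monotone along a ray in the normal region. -/
lemma mass_le_lim (hn : 3 ≤ n) {M : Spacetime} (hE : M.DEC n) {f : E n → ℝ} (hf : Smooth f)
    (hr : ∀ x, x ≠ 0 → |∑ i, x i / len x * pd i f x| < 1) {x : E n} (hx : x ≠ 0)
    (hxQ : uv f x ∈ M.Q) {m : ℝ}
    (H : ∀ s : ℝ, 1 < s → uv f (s • x) ∈ M.Q ∧ du M.r (uv f (s • x)) ≤ 0 ∧
      0 ≤ dv M.r (uv f (s • x)))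
    (hm : Tendsto (fun s : ℝ => M.mass n (uv f (s • x))) atTop (𝓝 m)) :
    M.mass n (uv f x) ≤ m := by
  have hin : ∀ s : ℝ, 1 ≤ s → uv f (s • x) ∈ M.Q := by
    intro s hs
    rcases hs.eq_or_lt with rfl | hs
    · simpa using hxQ
    · exact (H s hs).1
  have hd : ∀ s : ℝ, 1 ≤ s → HasDerivAt (fun s : ℝ => M.mass n (f (s • x) - s * len x,
      f (s • x) + s * len x)) ((rad f x s - len x) * du (M.mass n) (uv f (s • x)) +
      (rad f x s + len x) * dv (M.mass n) (uv f (s • x))) s := by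
    intro s hs
    have e : uv f (s • x) = (f (s • x) - s * len x, f (s • x) + s * len x) := by
      rw [uv, len_smul (by linarith)]
    have h1 := diffAt M.isOpen (M.smooth_mass (n := n)) (hin s hs)
    have h2 := h1.hasFDerivAt
    rw [e] at h2
    have h3 : HasDerivAt (fun s : ℝ => (f (s • x) - s * len x, f (s • x) + s * len x))
        (rad f x s - len x, rad f x s + len x) s := by
      have ha := (hasDerivAt_ray hf x s).sub ((hasDerivAt_id s).mul_const (len x))
      have hb := (hasDerivAt_ray hf x s).add ((hasDerivAt_id s).mul_const (len x))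
      rw [one_mul] at ha hb
      exact ha.prodMk hb
    have h4 := h2.comp_hasDerivAt s h3
    rw [← e, fderiv_apply_eq h1] at h4
    exact h4
  have hmono : MonotoneOn (fun s : ℝ => M.mass n (f (s • x) - s * len x,
      f (s • x) + s * len x)) (Ici 1) := by
    refine monotoneOn_of_deriv_nonneg (convex_Ici 1)
      (fun s hs => (hd s hs).continuousAt.continuousWithinAt)
      (fun s hs => (hd s (interior_subset hs)).differentiableAt.differentiableWithinAt)
      fun s hs => ?_
    rw [interior_Ici] at hs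
    have hs' : (1 : ℝ) < s := hs
    rw [(hd s hs'.le).deriv]
    obtain ⟨h1, h2, h3⟩ := H s hs'
    have h4 := M.dv_mass_nonneg hn hE h1 h2 h3
    have h5 := M.du_mass_nonpos hn hE h1 h2 h3
    have h6 := abs_lt.1 (rad_lt hr hx (by linarith : (0 : ℝ) < s))
    have h7 : 0 ≤ (rad f x s + len x) * dv (M.mass n) (uv f (s • x)) :=
      mul_nonneg (by linarith [h6.1]) h4
    have h8 : 0 ≤ (rad f x s - len x) * du (M.mass n) (uv f (s • x)) :=
      mul_nonneg_of_nonpos_of_nonpos (by linarith [h6.2]) h5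
    linarith
  refine ge_of_tendsto hm ?_
  filter_upwards [eventually_ge_atTop (1 : ℝ)] with s hs
  have := hmono (mem_Ici.2 le_rfl) (mem_Ici.2 hs) hs
  have e1 : uv f x = (f ((1 : ℝ) • x) - 1 * len x, f ((1 : ℝ) • x) + 1 * len x) := by
    simp [uv]
  have e : uv f (s • x) = (f (s • x) - s * len x, f (s • x) + s * len x) := by
    rw [uv, len_smul (by linarith)]
  rw [e1, e]
  exact this

/-- The boundary of an exterior domain has a point different from the origin. -/
lemma exists_zero_ne (hn : 2 ≤ n) (D : Exterior n) : ∃ x, x ≠ 0 ∧ D.F x = 0 := by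
  have hFs : Smooth D.F := D.dom.1
  have hFc : Continuous D.F := hFs.continuous
  obtain ⟨xb, hxb⟩ := D.bdry
  rcases eq_or_ne xb 0 with rfl | hne
  · -- the function changes its sign away from the origin
    have hd : DifferentiableAt ℝ D.F 0 := hFs.differentiable (by simp) 0
    obtain ⟨i, hi⟩ := D.dom.2.1 0 hxb
    obtain ⟨e, he⟩ : ∃ e : E n, fderiv ℝ D.F 0 e < 0 := by
      rw [pd, hd.lineDeriv_eq_fderiv] at hi
      rcases lt_or_gt_of_ne hi with h | h
      · exact ⟨_, h⟩
      · exact ⟨-EuclideanSpace.single i 1, by rw [map_neg]; linarith⟩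
    have he0 : e ≠ 0 := by
      rintro rfl
      simp at he
    have h1 : HasDerivAt (fun t : ℝ => D.F (t • e)) (fderiv ℝ D.F 0 e) 0 := by
      have hc : HasDerivAt (fun t : ℝ => t • e) e 0 := by
        simpa using (hasDerivAt_id (0 : ℝ)).smul_const e
      have h2 : HasFDerivAt D.F (fderiv ℝ D.F 0) ((0 : ℝ) • e) := by
        simpa using hd.hasFDerivAt
      exact h2.comp_hasDerivAt 0 hc
    have h6 : ∀ᶠ t in 𝓝[>] (0 : ℝ), t⁻¹ • (D.F ((0 + t) • e) - D.F ((0 : ℝ) • e)) < 0 :=
      h1.tendsto_slope_zero_right.eventually_lt_const he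
    obtain ⟨t, ht, ht0⟩ := (h6.and self_mem_nhdsWithin).exists
    have ht0' : (0 : ℝ) < t := ht0
    rw [zero_add, zero_smul, hxb, sub_zero, smul_eq_mul] at ht
    have hneg : D.F (t • e) < 0 := by
      by_contra hc
      exact absurd ht (not_lt.2 (mul_nonneg (inv_pos.2 ht0').le (not_lt.1 hc)))
    obtain ⟨R, hR⟩ := D.dom.2.2.2
    obtain ⟨s, hs⟩ : ∃ s : ℝ, 0 < s ∧ R < len (s • e) := by
      have hl := len_pos he0
      refine ⟨|R| / len e + 1, by positivity, ?_⟩
      rw [len_smul (by positivity), add_mul, div_mul_cancel₀ _ hl.ne']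
      linarith [le_abs_self R]
    have hpos : 0 < D.F (s • e) := hR _ hs.2
    have hrank : 1 < Module.rank ℝ (E n) := by
      have h1 : Module.rank ℝ (E n) = n := by
        rw [← Module.finrank_eq_rank ℝ (E n)]
        simp only [finrank_euclideanSpace, Fintype.card_fin]
      rw [h1]
      exact_mod_cast hn
    have hpre := (isConnected_compl_singleton_of_one_lt_rank hrank (0 : E n)).isPreconnected
    obtain ⟨z, hz, hz0⟩ := hpre.intermediate_value
      (show t • e ∈ ({0}ᶜ : Set (E n)) from smul_ne_zero ht0'.ne' he0)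
      (show s • e ∈ ({0}ᶜ : Set (E n)) from smul_ne_zero hs.1.ne' he0)
      hFc.continuousOn ⟨hneg.le, hpos.le⟩
    exact ⟨z, hz, hz0⟩
  · exact ⟨xb, hne, hxb⟩

/-- The data of the cut `{c ≤ σ f + |x|}` with area radius at most `r0`. -/
theorem choose_cut (hn : 3 ≤ n) {M : Spacetime} (hE : M.DEC n) {D : Exterior n} {f : E n → ℝ}
    (hS : IsSlice M f D) (hf : ∃ b < 1, ∃ R, ∀ x, R < len x → |f x| ≤ b * len x)
    (hfar : ∃ R, ∀ x, R < len x → uv f x ∈ M.Q ∧ du M.r (uv f x) < 0 ∧ 0 < dv M.r (uv f x))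
    {m : ℝ} (hm : ∀ x : E n, x ≠ 0 →
      Tendsto (fun s : ℝ => M.mass n (uv f (s • x))) atTop (𝓝 m))
    (htouch : ∀ x0, x0 ≠ 0 → D.F x0 = 0 → (∀ x, D.F x = 0 → f x0 - len x0 ≤ f x - len x) →
      (∀ s : ℝ, 1 < s → 0 ≤ D.F (s • x0)) → dv M.r (uv f x0) ≤ 0) :
    ∃ σ c r0 : ℝ, (σ = 1 ∨ σ = -1) ∧ 0 < r0 ∧ r0 ^ (n - 2) ≤ 2 * m ∧ σ * f 0 < c ∧
      (∀ x, x ≠ 0 → c ≤ σ * f x + len x → 0 ≤ D.F x) ∧
      ∀ x, x ≠ 0 → σ * f x + len x = c → M.r (uv f x) ≤ r0 := by
  have hfs := hS.smooth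
  have hr := hS.radial
  have hFs : Smooth D.F := D.dom.1
  have hFc : Continuous D.F := hFs.continuous
  -- far away
  obtain ⟨b, hb1, R, hR⟩ : ∃ b < 1, ∃ R, ∀ x, R < len x → 0 < D.F x ∧ uv f x ∈ M.Q ∧
      du M.r (uv f x) < 0 ∧ 0 < dv M.r (uv f x) ∧ |f x| ≤ b * len x := by
    obtain ⟨R1, h1⟩ := D.dom.2.2.2
    obtain ⟨R2, h2⟩ := hfar
    obtain ⟨b, hb, R3, h3⟩ := hf
    refine ⟨b, hb, max R1 (max R2 R3), fun x hx => ?_⟩
    have a1 : R1 < len x := lt_of_le_of_lt (le_max_left _ _) hx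
    have a2 : R2 < len x := lt_of_le_of_lt ((le_max_left _ _).trans (le_max_right _ _)) hx
    have a3 : R3 < len x := lt_of_le_of_lt ((le_max_right _ _).trans (le_max_right _ _)) hx
    exact ⟨h1 x a1, (h2 x a2).1, (h2 x a2).2.1, (h2 x a2).2.2, h3 x a3⟩
  -- rays leave every ball
  have hray : ∀ {x : E n}, x ≠ 0 → ∀ A : ℝ, ∃ s : ℝ, 1 < s ∧ A < len (s • x) := by
    intro x hx A
    have hl := len_pos hx
    refine ⟨max 2 (|A| / len x + 1), lt_of_lt_of_le (by norm_num) (le_max_left _ _), ?_⟩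
    rw [len_smul (by positivity)]
    have : |A| / len x + 1 ≤ max 2 (|A| / len x + 1) := le_max_right _ _
    calc A ≤ |A| := le_abs_self A
      _ < |A| + len x := by linarith
      _ = (|A| / len x + 1) * len x := by field_simp
      _ ≤ _ := by gcongr
  -- compactness
  have hcomp : ∀ T : Set (E n), IsClosed T → (∀ x ∈ T, len x ≤ R) → IsCompact T := by
    intro T hT hb
    refine Metric.isCompact_of_isClosed_isBounded hT ?_
    refine (Metric.isBounded_closedBall (x := (0 : E n)) (r := R)).subset fun x hx => ?_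
    simpa [len] using hb x hx
  -- the boundary
  obtain ⟨y0, hy0, hymin⟩ : ∃ y0, D.F y0 = 0 ∧ ∀ x, D.F x = 0 → U f y0 ≤ U f x := by
    have hSc : IsCompact {x | D.F x = 0} := by
      refine hcomp _ (isClosed_eq hFc continuous_const) fun x hx => ?_
      by_contra hc
      exact absurd hx (hR x (not_le.1 hc)).1.ne'
    obtain ⟨y, hy, hmin⟩ := hSc.exists_isMinOn D.bdry (U_continuous hfs).continuousOn
    exact ⟨y, hy, fun x hx => hmin hx⟩
  have hU0 : U f 0 = f 0 := by simp [U, len]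
  have hz : ∀ {x}, U f x ≤ U f y0 → x ≠ 0 := by
    rintro x hx rfl
    obtain ⟨z, hz, hz0⟩ := exists_zero_ne (by omega) D
    have h1 := hymin z hz0
    have h2 := U_lt_zero hfs hr hz
    rw [hU0] at hx
    linarith
  have hy0ne : y0 ≠ 0 := hz le_rfl
  have hsub0 : ∀ x, x ≠ 0 → U f x < U f y0 → 0 ≤ D.F x := by
    intro x hx hU
    by_contra hc
    rw [not_le] at hc
    obtain ⟨s, hs, hs2⟩ := hray hx R
    have hcont : ContinuousOn (fun t : ℝ => D.F (t • x)) (Icc 1 s) :=
      (hFc.comp (continuous_id.smul continuous_const)).continuousOn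
    have h0 : (0 : ℝ) ∈ Icc (D.F ((1 : ℝ) • x)) (D.F (s • x)) := by
      rw [one_smul]; exact ⟨hc.le, (hR _ hs2).1.le⟩
    obtain ⟨t, ht, ht0⟩ := intermediate_value_Icc hs.le hcont h0
    simp only at ht0
    have ht1 : 1 < t := by
      rcases ht.1.eq_or_lt with h | h
      · rw [← h, one_smul] at ht0; exact absurd ht0 hc.ne
      · exact h
    have := hymin _ ht0
    have := U_lt hfs hr hx ht1
    linarith
  have htouch0 : dv M.r (uv f y0) ≤ 0 := by
    refine htouch y0 hy0ne hy0 hymin fun s hs => ?_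
    exact hsub0 _ (smul_ne_zero (by linarith) hy0ne) (U_lt hfs hr hy0ne hs)
  have hmem : ∀ x, x ≠ 0 → 0 ≤ D.F x → uv f x ∈ M.Q := hS.mem
  -- the part of the domain outside the cone through `y0`
  have hOc : IsClosed ({x | 0 ≤ D.F x} ∩ {x | U f x ≤ U f y0}) :=
    (isClosed_le continuous_const hFc).inter (isClosed_le (U_continuous hfs) continuous_const)
  have hmem' : ∀ x ∈ {x | 0 ≤ D.F x} ∩ {x | U f x ≤ U f y0}, uv f x ∈ M.Q :=
    fun x hx => hmem x (hz hx.2) hx.1
  have cdv : ContinuousOn (fun x => dv M.r (uv f x))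
      ({x | 0 ≤ D.F x} ∩ {x | U f x ≤ U f y0}) :=
    M.smooth_dvr.continuousOn.comp (uv_continuous hfs).continuousOn hmem'
  have cdu : ContinuousOn (fun x => du M.r (uv f x))
      ({x | 0 ≤ D.F x} ∩ {x | U f x ≤ U f y0}) :=
    M.smooth_dur.continuousOn.comp (uv_continuous hfs).continuousOn hmem'
  -- the outermost outgoing cone
  obtain ⟨p, hpF, hpr, hpy, hpmin⟩ : ∃ p, 0 ≤ D.F p ∧ dv M.r (uv f p) ≤ 0 ∧ U f p ≤ U f y0 ∧
      ∀ x, 0 ≤ D.F x → dv M.r (uv f x) ≤ 0 → U f p ≤ U f x := by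
    have hc : IsClosed (({x | 0 ≤ D.F x} ∩ {x | U f x ≤ U f y0}) ∩
        (fun x => dv M.r (uv f x)) ⁻¹' Iic 0) :=
      cdv.preimage_isClosed_of_isClosed hOc isClosed_Iic
    have hK : IsCompact (({x | 0 ≤ D.F x} ∩ {x | U f x ≤ U f y0}) ∩
        (fun x => dv M.r (uv f x)) ⁻¹' Iic 0) := by
      refine hcomp _ hc fun x hx => ?_
      by_contra hc
      exact absurd (hR x (not_le.1 hc)).2.2.2.1 (not_lt.2 hx.2)
    obtain ⟨p, hp, hmin⟩ := hK.exists_isMinOn ⟨y0, ⟨hy0.ge, le_refl (U f y0)⟩, htouch0⟩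
      (U_continuous hfs).continuousOn
    refine ⟨p, hp.1.1, hp.2, hp.1.2, fun x h1 h2 => ?_⟩
    rcases le_total (U f x) (U f y0) with h | h
    · exact hmin (a := x) ⟨⟨h1, h⟩, h2⟩
    · exact le_trans hp.1.2 h
  have hzp : ∀ {x}, U f x ≤ U f p → x ≠ 0 := fun h => hz (h.trans hpy)
  have hp0 : p ≠ 0 := hzp le_rfl
  have hsub : ∀ x, x ≠ 0 → U f x < U f p → 0 ≤ D.F x ∧ 0 < dv M.r (uv f x) := by
    intro x hx hU
    have h1 := hsub0 x hx (hU.trans_le hpy)
    refine ⟨h1, ?_⟩
    by_contra hc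
    exact absurd (hpmin x h1 (not_lt.1 hc)) (not_le.2 hU)
  have hsubc : ∀ x, x ≠ 0 → U f x ≤ U f p → 0 ≤ D.F x := by
    intro x hx hU
    have h1 : Tendsto (fun s : ℝ => D.F (s • x)) (𝓝[>] 1) (𝓝 (D.F x)) := by
      have : ContinuousAt (fun s : ℝ => D.F (s • x)) 1 :=
        (hFc.comp (continuous_id.smul continuous_const)).continuousAt
      simpa using this.tendsto.mono_left (nhdsWithin_le_nhds (s := Ioi (1 : ℝ)))
    refine ge_of_tendsto h1 ?_
    filter_upwards [self_mem_nhdsWithin] with s hs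
    have hs1 : (1 : ℝ) < s := hs
    exact (hsub _ (smul_ne_zero (by linarith) hx) ((U_lt hfs hr hx hs1).trans_le hU)).1
  -- on the outermost cone
  have hzero : ∀ x, 0 ≤ D.F x → U f x = U f p → dv M.r (uv f x) ≤ 0 → dv M.r (uv f x) = 0 := by
    intro x hx hU h0
    have hx0 : x ≠ 0 := hzp hU.le
    refine le_antisymm h0 (nonneg_of_ray M.isOpen M.smooth_dvr.continuousOn hfs (hmem x hx0 hx)
      fun s hs => ?_)
    exact (hsub _ (smul_ne_zero (by linarith) hx0) (hU ▸ U_lt hfs hr hx0 hs)).2.le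
  have hle : ∀ q, 0 ≤ D.F q → U f q = U f p → dv M.r (uv f q) ≤ 0 →
      ∀ x, 0 ≤ D.F x → U f x = U f p → M.r (uv f x) ≤ M.r (uv f q) := by
    intro q hq hqU hq0 x hx hxU
    have h1 := hmem q (hzp hqU.le) hq
    have h2 := hmem x (hzp hxU.le) hx
    have h3 := hzero q hq hqU hq0
    rw [uv_eq f q, hqU] at h1 h3
    rw [uv_eq f x, hxU] at h2
    rw [uv_eq f x, uv_eq f q, hqU, hxU]
    exact Spacetime.r_le_v hE h1 h2 h3
  have hmassv : ∀ q, dv M.r (uv f q) = 0 →
      M.r (uv f q) ^ (n - 2) = 2 * M.mass n (uv f q) := by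
    intro q h0
    rw [Spacetime.mass, h0]
    ring
  have hmassu : ∀ q, du M.r (uv f q) = 0 →
      M.r (uv f q) ^ (n - 2) = 2 * M.mass n (uv f q) := by
    intro q h0
    rw [Spacetime.mass, h0]
    ring
  -- the cut `u = u0`
  have hU : ∀ q, 0 ≤ D.F q → U f q = U f p → dv M.r (uv f q) ≤ 0 →
      (∀ s : ℝ, 1 < s → du M.r (uv f (s • q)) ≤ 0) →
      ∃ σ c r0 : ℝ, (σ = 1 ∨ σ = -1) ∧ 0 < r0 ∧ r0 ^ (n - 2) ≤ 2 * m ∧ σ * f 0 < c ∧
      (∀ x, x ≠ 0 → c ≤ σ * f x + len x → 0 ≤ D.F x) ∧
      ∀ x, x ≠ 0 → σ * f x + len x = c → M.r (uv f x) ≤ r0 := by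
    intro q hq hqU hq0 hqs
    have hq00 : q ≠ 0 := hzp hqU.le
    have hqQ := hmem q hq00 hq
    refine ⟨-1, -U f p, M.r (uv f q), Or.inr rfl, (M.pos _ hqQ).2, ?_, ?_, ?_, ?_⟩
    · rw [hmassv q (hzero q hq hqU hq0)]
      refine mul_le_mul_of_nonneg_left ?_ zero_le_two
      refine mass_le_lim hn hE hfs hr hq00 hqQ (fun s hs => ?_) (hm q hq00)
      have hs0 := smul_ne_zero (by linarith : s ≠ 0) hq00
      have h1 := hsub _ hs0 (hqU ▸ U_lt hfs hr hq00 hs)
      exact ⟨hmem _ hs0 h1.1, hqs s hs, h1.2.le⟩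
    · have := U_lt_zero hfs hr hp0
      linarith
    · intro x hx hc
      refine hsubc x hx ?_
      simp only [U] at hc ⊢
      linarith
    · intro x hx hc
      have hxU : U f x = U f p := by simp only [U] at hc ⊢; linarith
      exact hle q hq hqU hq0 x (hsubc x hx hxU.le) hxU
  by_cases hA : ∀ x, 0 ≤ D.F x → U f x ≤ U f p → du M.r (uv f x) < 0
  · refine hU p hpF rfl hpr fun s hs => ?_
    have h1 := U_lt hfs hr hp0 hs
    exact (hA _ (hsub _ (smul_ne_zero (by linarith) hp0) h1).1 h1.le).le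
  · push Not at hA
    obtain ⟨p', hp'F, hp'U, hp'r, hp'max⟩ : ∃ p', 0 ≤ D.F p' ∧ U f p' ≤ U f p ∧
        0 ≤ du M.r (uv f p') ∧ ∀ x, 0 ≤ D.F x → U f x ≤ U f p → 0 ≤ du M.r (uv f x) →
        V f x ≤ V f p' := by
      have hc1 : IsClosed (({x | 0 ≤ D.F x} ∩ {x | U f x ≤ U f y0}) ∩
          (fun x => du M.r (uv f x)) ⁻¹' Ici 0) :=
        cdu.preimage_isClosed_of_isClosed hOc isClosed_Ici
      have hc : IsClosed ((({x | 0 ≤ D.F x} ∩ {x | U f x ≤ U f y0}) ∩
          (fun x => du M.r (uv f x)) ⁻¹' Ici 0) ∩ {x | U f x ≤ U f p}) :=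
        hc1.inter (isClosed_le (U_continuous hfs) continuous_const)
      have hK : IsCompact ((({x | 0 ≤ D.F x} ∩ {x | U f x ≤ U f y0}) ∩
          (fun x => du M.r (uv f x)) ⁻¹' Ici 0) ∩ {x | U f x ≤ U f p}) := by
        refine hcomp _ hc fun x hx => ?_
        by_contra hc
        exact absurd (hR x (not_le.1 hc)).2.2.1 (not_lt.2 hx.1.2)
      obtain ⟨x, hx1, hx2, hx3⟩ := hA
      obtain ⟨q, hq, hmax⟩ := hK.exists_isMaxOn ⟨x, ⟨⟨hx1, hx2.trans hpy⟩, hx3⟩, hx2⟩
        (V_continuous hfs).continuousOn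
      exact ⟨q, hq.1.1.1, hq.2, hq.1.2, fun y h1 h2 h3 =>
        hmax (a := y) ⟨⟨⟨h1, h2.trans hpy⟩, h3⟩, h2⟩⟩
    by_cases hcase : ∃ q, 0 ≤ D.F q ∧ U f q = U f p ∧ dv M.r (uv f q) ≤ 0 ∧ V f p' ≤ V f q
    · obtain ⟨q, hq, hqU, hq0, hqV⟩ := hcase
      have hq00 : q ≠ 0 := hzp hqU.le
      refine hU q hq hqU hq0 fun s hs => ?_
      by_contra hc
      rw [not_le] at hc
      have h1 : U f (s • q) < U f p := hqU ▸ U_lt hfs hr hq00 hs
      have h2 := hsub _ (smul_ne_zero (by linarith : s ≠ 0) hq00) h1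
      have h3 := hp'max _ h2.1 h1.le hc.le
      have h4 := V_lt hfs hr hq00 hs
      linarith
    · push Not at hcase
      have hpV : V f p < V f p' := hcase p hpF rfl hpr
      have hNV : ∀ x, 0 ≤ D.F x → U f x = U f p → V f x < V f p' := by
        intro x hx hxU
        by_contra hc
        rw [not_lt] at hc
        have h1 := hmem p hp0 hpF
        have h2 := hmem x (hzp hxU.le) hx
        have h3 := hpr
        have h4 := hcase x hx hxU
        rw [uv_eq] at h1 h3
        rw [uv_eq, hxU] at h2 h4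
        have h5 := Spacetime.dv_nonpos_mono hE h1 h2 (by linarith) h3
        exact absurd hc (not_le.2 (h4 h5))
      have hVU : ∀ x, x ≠ 0 → V f p' ≤ V f x → U f x < U f p := by
        intro x hx hxV
        by_contra hc
        rw [not_lt] at hc
        obtain ⟨s, hs, hs2⟩ := hray hx (max R (|U f p| / (1 - b) + 1))
        have h1 : U f (s • x) ≤ U f p := by
          have h2 := (hR _ (lt_of_le_of_lt (le_max_left _ _) hs2)).2.2.2.2
          have h3 := lt_of_le_of_lt (le_max_right _ _) hs2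
          have h4 := (abs_le.1 h2).2
          have h5 := neg_abs_le (U f p)
          have hb : 0 < 1 - b := by linarith
          have h6 : |U f p| < (1 - b) * len (s • x) := by
            have : |U f p| / (1 - b) < len (s • x) := by linarith
            rwa [div_lt_iff₀' hb] at this
          rw [U]
          linarith
        have hcont : ContinuousOn (fun t : ℝ => U f (t • x)) (Icc 1 s) :=
          ((U_continuous hfs).comp (continuous_id.smul continuous_const)).continuousOn
        have h0 : U f p ∈ Icc (U f (s • x)) (U f ((1 : ℝ) • x)) := by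
          rw [one_smul]; exact ⟨h1, hc⟩
        obtain ⟨t, ht, ht0⟩ := intermediate_value_Icc' hs.le hcont h0
        simp only at ht0
        have ht' : t ≠ 0 := by linarith [ht.1]
        have h6 := hNV _ (hsubc (t • x) (smul_ne_zero ht' hx) ht0.le) ht0
        have h7 : V f x ≤ V f (t • x) := by
          rcases ht.1.eq_or_lt with h | h
          · rw [← h, one_smul]
          · exact (V_lt hfs hr hx h).le
        linarith
      have hp'0 : p' ≠ 0 := hzp hp'U
      have hp'Q := hmem p' hp'0 hp'F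
      have hneg : ∀ s : ℝ, 1 < s → 0 ≤ D.F (s • p') ∧ du M.r (uv f (s • p')) < 0 ∧
          0 < dv M.r (uv f (s • p')) := by
        intro s hs
        have h1 := V_lt hfs hr hp'0 hs
        have h2 := hVU _ (smul_ne_zero (by linarith : s ≠ 0) hp'0) h1.le
        have h3 := hsub _ (smul_ne_zero (by linarith : s ≠ 0) hp'0) h2
        refine ⟨h3.1, ?_, h3.2⟩
        by_contra hc
        have := hp'max _ h3.1 h2.le (not_lt.1 hc)
        linarith
      have hdu0 : du M.r (uv f p') = 0 := by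
        refine le_antisymm ?_ hp'r
        have h1 := nonneg_of_ray (h := fun q => -du M.r q) M.isOpen
          M.smooth_dur.continuousOn.neg hfs hp'Q
          fun s hs => by have := (hneg s hs).2.1; linarith
        simpa using h1
      refine ⟨1, V f p', M.r (uv f p'), Or.inl rfl, (M.pos _ hp'Q).2, ?_, ?_, ?_, ?_⟩
      · rw [hmassu p' hdu0]
        refine mul_le_mul_of_nonneg_left ?_ zero_le_two
        exact mass_le_lim hn hE hfs hr hp'0 hp'Q
          (fun s hs => ⟨hmem _ (smul_ne_zero (by linarith : s ≠ 0) hp'0) (hneg s hs).1,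
            (hneg s hs).2.1.le, (hneg s hs).2.2.le⟩) (hm p' hp'0)
      · have := V_gt_zero hfs hr hp'0
        linarith
      · intro x hx hc
        have h1 : V f p' ≤ V f x := by simp only [V] at hc ⊢; linarith
        exact (hsub x hx (hVU x hx h1)).1
      · intro x hx hc
        have hxV : V f x = V f p' := by simp only [V] at hc ⊢; linarith
        have hxF := (hsub x hx (hVU x hx hxV.ge)).1
        have h1 := hp'Q
        have h2 := hmem x hx hxF
        have h3 := hdu0
        rw [uv_eq f p'] at h1 h3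
        rw [uv_eq f x, hxV] at h2
        rw [uv_eq f x, uv_eq f p', hxV]
        exact Spacetime.r_le_u hE h1 h2 h3

end Vale.Agent.P366.T1
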