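import Vale.Agent.P366.T1.Alg
import Vale.Agent.P366.T1.Area

open MeasureTheory Metric Filter Topology Set
open scoped ContDiff ENNReal

noncomputable section
namespace Vale.Agent.P366.T1

open Vale.Agent.P366.Stmt

variable {n : ℕ}

/-! ### The outside of a ball is connected -/

lemma isConnected_far (hn : 2 ≤ n) {R : ℝ} (hR : 0 < R) :
    IsConnected {x : E n | R ≤ len x} := by
  have h1 : 1 < Module.rank ℝ (E n) := by
    have h1 : Module.rank ℝ (E n) = n := by
      rw [← Module.finrank_eq_rank ℝ (E n)]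
      simp only [finrank_euclideanSpace, Fintype.card_fin]
    rw [h1]
    exact_mod_cast hn
  have h2 : IsConnected (sphere (0 : E n) 1) := isConnected_sphere h1 0 (by norm_num)
  have h3 : IsConnected ((fun p : E n × ℝ => p.2 • p.1) '' (sphere (0 : E n) 1 ×ˢ Ici R)) :=
    (h2.prod isConnected_Ici).image _ (by fun_prop)
  convert h3 using 1
  ext x
  constructor
  · intro hx
    have hx' : R ≤ ‖x‖ := hx
    have h0 : 0 < ‖x‖ := lt_of_lt_of_le hR hx'
    refine ⟨((‖x‖)⁻¹ • x, ‖x‖), ⟨?_, hx'⟩, ?_⟩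
    · simp only [mem_sphere_iff_norm, sub_zero, norm_smul, norm_inv, norm_norm]
      exact inv_mul_cancel₀ h0.ne'
    · simp only [smul_smul]
      rw [mul_inv_cancel₀ h0.ne', one_smul]
  · rintro ⟨⟨θ, r⟩, ⟨hθ, hr⟩, rfl⟩
    have hθ' : ‖θ‖ = 1 := by simpa only [mem_sphere_iff_norm, sub_zero] using hθ
    have hr' : R ≤ r := hr
    show R ≤ ‖r • θ‖
    rw [norm_smul, hθ', mul_one, Real.norm_eq_abs]
    exact le_trans hr' (le_abs_self r)

/-! ### The defining function of the cut -/

/-- A smooth function equal to `|x|` outside a small ball. -/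
def sm (ε : ℝ) (x : E n) : ℝ := T (2 * len x / ε - 1) * len x

lemma sm_eq {ε : ℝ} (hε : 0 < ε) {x : E n} (hx : ε ≤ len x) : sm ε x = len x := by
  have h : 1 ≤ 2 * len x / ε - 1 := by
    rw [le_sub_iff_add_le, le_div_iff₀ hε]; linarith
  rw [sm, show T (2 * len x / ε - 1) = 1 from Real.smoothTransition.one_of_one_le h, one_mul]

lemma sm_le (ε : ℝ) (x : E n) : sm ε x ≤ len x :=
  mul_le_of_le_one_left (norm_nonneg _) (Real.smoothTransition.le_one _)

lemma sm_smooth {ε : ℝ} (hε : 0 < ε) : Smooth (sm ε : E n → ℝ) := by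
  unfold Smooth
  rw [contDiff_iff_contDiffAt]
  intro x
  rcases eq_or_ne x 0 with rfl | hx
  · refine (contDiffAt_const (c := (0 : ℝ))).congr_of_eventuallyEq ?_
    have h1 : ∀ᶠ y : E n in 𝓝 0, len y < ε / 2 := by
      have : Tendsto (len : E n → ℝ) (𝓝 0) (𝓝 (len (0 : E n))) := len_continuous.tendsto 0
      rw [show len (0 : E n) = 0 by simp [len]] at this
      exact this.eventually_lt_const (by positivity)
    filter_upwards [h1] with y hy
    have h2 : 2 * len y / ε - 1 ≤ 0 := by
      rw [sub_nonpos, div_le_one hε]; linarith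
    rw [sm, show T (2 * len y / ε - 1) = 0 from Real.smoothTransition.zero_of_nonpos h2, zero_mul]
  · have h1 := contDiffAt_len hx
    refine ContDiffAt.mul ?_ h1
    exact T_smooth.contDiffAt.comp x (((contDiffAt_const.mul h1).div_const ε).sub contDiffAt_const)

section

variable {f : E n → ℝ} (hf : Smooth f)
  (hr : ∀ x, x ≠ 0 → |∑ i, x i / len x * Stmt.pd i f x| < 1) {σ c : ℝ} (hσ : σ = 1 ∨ σ = -1)
  (h0 : σ * f 0 < c)

include hf hr hσ in
lemma w_mono {x : E n} (hx : x ≠ 0) {a b : ℝ} (ha : 0 ≤ a) (hab : a < b) :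
    σ * f (a • x) + len (a • x) < σ * f (b • x) + len (b • x) := by
  rcases hσ with rfl | rfl
  · have := V_mono hf hr hx ha hab
    simp only [V] at this
    linarith
  · have := U_anti hf hr hx ha hab
    simp only [U] at this
    linarith

omit hr hσ in
include hf h0 in
/-- The smooth defining function of the cut. -/
lemma exists_G : ∃ G : E n → ℝ, Smooth G ∧ G 0 < 0 ∧ (∀ x, 0 ≤ G x → x ≠ 0) ∧
    (∀ x, x ≠ 0 → c ≤ σ * f x + len x → G x = σ * f x + len x - c) ∧
    (∀ x, x ≠ 0 → c ≤ σ * f x + len x →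
      ∀ i, Stmt.pd i G x = σ * Stmt.pd i f x + x i / len x) ∧
    ∀ x, 0 ≤ G x → c ≤ σ * f x + len x := by
  have hcont : Continuous fun x : E n => σ * f x + len x :=
    (continuous_const.mul hf.continuous).add len_continuous
  obtain ⟨ε, hε, hball⟩ : ∃ ε > 0, ∀ x : E n, len x < ε → σ * f x + len x < c := by
    have h1 : ∀ᶠ x : E n in 𝓝 0, σ * f x + len x < c := by
      refine (hcont.tendsto 0).eventually_lt_const ?_
      simpa [len] using h0
    obtain ⟨ε, hε, h2⟩ := Metric.eventually_nhds_iff.1 h1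
    exact ⟨ε, hε, fun x hx => h2 (by simpa [len] using hx)⟩
  refine ⟨fun x => σ * f x + sm (ε / 2) x - c, ?_, ?_, ?_, ?_, ?_, ?_⟩
  · exact ((contDiff_const.mul hf).add (sm_smooth (by positivity))).sub contDiff_const
  · have := sm_le (ε / 2) (0 : E n)
    have h2 : len (0 : E n) = 0 := by simp [len]
    simp only
    linarith
  · rintro x hx rfl
    have := sm_le (ε / 2) (0 : E n)
    have h2 : len (0 : E n) = 0 := by simp [len]
    simp only at hx
    linarith
  · intro x _ hc
    have hx : ε ≤ len x := by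
      by_contra hcon
      have := hball x (not_le.1 hcon)
      linarith
    simp only
    rw [sm_eq (by positivity) (by linarith)]
  · intro x hx0 hc i
    have hx : ε ≤ len x := by
      by_contra hcon
      have := hball x (not_le.1 hcon)
      linarith
    have h1 : (fun x => σ * f x + sm (ε / 2) x - c) =ᶠ[𝓝 x] fun x => σ * f x + len x - c := by
      have h2 : ∀ᶠ y : E n in 𝓝 x, ε / 2 < len y :=
        (isOpen_lt continuous_const len_continuous).mem_nhds (by
          show ε / 2 < len x; linarith)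
      filter_upwards [h2] with y hy
      rw [sm_eq (by positivity) hy.le]
    rw [pd_congr' h1]
    have hfd : HasFDerivAt f (fderiv ℝ f x) x := ((hf.differentiable (by simp)) x).hasFDerivAt
    have hld : HasFDerivAt (len : E n → ℝ) (fderiv ℝ len x) x :=
      ((contDiffAt_len hx0).differentiableAt (by simp)).hasFDerivAt
    have hd : HasFDerivAt (fun x => σ * f x + len x - c) (σ • fderiv ℝ f x + fderiv ℝ len x) x :=
      ((hfd.const_mul σ).add hld).sub_const c
    rw [pd_fderiv hd.differentiableAt, hd.fderiv, pd_fderiv hfd.differentiableAt,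
      ← pd_len hx0 i, pd_fderiv hld.differentiableAt]
    simp
  · intro x hx
    have := sm_le (ε / 2) x
    simp only at hx
    linarith

end

/-- The area of the cut found in `choose_cut`. -/
theorem amin_le (hn : 3 ≤ n) {M : Spacetime} {D : Exterior n} {f : E n → ℝ}
    (hS : IsSlice M f D) (hf : ∃ b < 1, ∃ R, ∀ x, R < len x → |f x| ≤ b * len x)
    {σ c r0 : ℝ} (hσ : σ = 1 ∨ σ = -1) (hr0 : 0 < r0) (h0 : σ * f 0 < c)
    (hsub : ∀ x, x ≠ 0 → c ≤ σ * f x + len x → 0 ≤ D.F x)
    (hlev : ∀ x, x ≠ 0 → σ * f x + len x = c → M.r (uv f x) ≤ r0) :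
    D.Amin ≤ ENNReal.ofReal (Stmt.omega n * r0 ^ (n - 1)) := by
  obtain ⟨G, hG, hG0, hGne, hGeq, hGpd, hGc⟩ := exists_G hS.smooth h0
  have hr := hS.radial
  have hfs := hS.smooth
  have hσ2 : σ ^ 2 = 1 := by rcases hσ with rfl | rfl <;> norm_num
  have hGF : ∀ x, 0 ≤ G x → 0 ≤ D.F x := fun x hx => hsub x (hGne x hx) (hGc x hx)
  -- monotonicity along rays
  have hray : ∀ x, 0 ≤ G x → ∀ s : ℝ, 1 < s → G x < G (s • x) := by
    intro x hx s hs
    have hx0 := hGne x hx
    have hc := hGc x hx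
    have h1 := w_mono hfs hr hσ hx0 zero_le_one hs
    rw [one_smul] at h1
    have hs0 : s • x ≠ 0 := smul_ne_zero (by linarith) hx0
    rw [hGeq x hx0 hc, hGeq _ hs0 (by linarith)]
    linarith
  -- radial derivative
  have hrad : ∀ x, 0 ≤ G x → ∑ i, Stmt.pd i G x * (x i / len x) =
      1 + σ * ∑ i, x i / len x * Stmt.pd i f x := by
    intro x hx
    have hx0 := hGne x hx
    have hl := len_pos hx0
    have h1 : ∀ i, Stmt.pd i G x * (x i / len x) =
        σ * (x i / len x * Stmt.pd i f x) + x i ^ 2 / len x ^ 2 := by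
      intro i
      rw [hGpd x hx0 (hGc x hx) i]
      field_simp
    simp only [h1, Finset.sum_add_distrib, ← Finset.mul_sum, ← Finset.sum_div]
    have h2 : ∑ i, x i ^ 2 = len x ^ 2 := by
      rw [len, EuclideanSpace.real_norm_sq_eq]
    rw [h2, div_self (by positivity)]
    ring
  have hradpos : ∀ x, 0 ≤ G x → 0 < ∑ i, Stmt.pd i G x * (x i / len x) := by
    intro x hx
    rw [hrad x hx]
    have h1 := abs_lt.1 (hr x (hGne x hx))
    rcases hσ with rfl | rfl <;> linarith [h1.1, h1.2]
  -- far away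
  obtain ⟨R1, hR1⟩ : ∃ R1, ∀ x, R1 < len x → 1 ≤ G x := by
    obtain ⟨b, hb, R, hR⟩ := hf
    have hb' : 0 < 1 - b := by linarith
    refine ⟨max R (max 0 ((c + 1) / (1 - b))), fun x hx => ?_⟩
    have a1 : R < len x := lt_of_le_of_lt (le_max_left _ _) hx
    have a2 : 0 < len x := lt_of_le_of_lt ((le_max_left _ _).trans (le_max_right _ _)) hx
    have a3 : (c + 1) / (1 - b) < len x :=
      lt_of_le_of_lt ((le_max_right _ _).trans (le_max_right _ _)) hx
    rw [div_lt_iff₀' hb'] at a3
    have hx0 : x ≠ 0 := by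
      rintro rfl
      simp [len] at a2
    have h1 := abs_le.1 (hR x a1)
    have h2 : -(b * len x) ≤ σ * f x := by
      rcases hσ with rfl | rfl <;> linarith [h1.1, h1.2]
    rw [hGeq x hx0 (by linarith)]
    linarith
  -- the cut is an exterior domain
  have hext : IsExt G := by
    refine ⟨hG, ?_, ?_, R1, fun x hx => lt_of_lt_of_le one_pos (hR1 x hx)⟩
    · intro x hx
      by_contra hcon
      push Not at hcon
      have h1 := hradpos x hx.ge
      rw [Finset.sum_eq_zero fun i _ => by rw [hcon i, zero_mul]] at h1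
      exact lt_irrefl _ h1
    · have hfar := isConnected_far (n := n) (by omega) (R := max R1 0 + 1) (by positivity)
      have hfarG : {x : E n | max R1 0 + 1 ≤ len x} ⊆ {x | 0 ≤ G x} := by
        intro x hx
        have hx' : max R1 0 + 1 ≤ len x := hx
        have : R1 < len x := by linarith [le_max_left R1 0]
        exact zero_le_one.trans (hR1 x this)
      obtain ⟨y0, hy0⟩ := hfar.nonempty
      refine ⟨⟨y0, hfarG hy0⟩, isPreconnected_of_forall y0 fun x hx => ?_⟩
      have hx0 := hGne x hx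
      have hl := len_pos hx0
      have hx' : 0 ≤ G x := hx
      refine ⟨{x : E n | max R1 0 + 1 ≤ len x} ∪ (fun s : ℝ => s • x) '' Ici 1, ?_, Or.inl hy0,
        Or.inr ⟨1, mem_Ici.2 le_rfl, one_smul _ _⟩, ?_⟩
      · rintro y (hy | ⟨s, hs, rfl⟩)
        · exact hfarG hy
        · rcases (mem_Ici.1 hs).eq_or_lt with h | h
          · rw [← h]; simpa using hx'
          · exact hx'.trans (hray x hx' s h).le
      · have hline : IsPreconnected ((fun s : ℝ => s • x) '' Ici 1) :=
          isPreconnected_Ici.image _ (by fun_prop)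
        set s0 : ℝ := (max R1 0 + 1) / len x + 1 with hs0
        have hs01 : 1 ≤ s0 := by
          have : 0 ≤ (max R1 0 + 1) / len x := by positivity
          linarith
        have hmem : s0 • x ∈ {x : E n | max R1 0 + 1 ≤ len x} := by
          show max R1 0 + 1 ≤ len (s0 • x)
          rw [len_smul (by linarith), hs0, add_mul, div_mul_cancel₀ _ hl.ne']
          linarith
        exact IsPreconnected.union (s0 • x) hmem ⟨s0, mem_Ici.2 hs01, rfl⟩
          hfar.isPreconnected hline
  have hAmin : D.Amin ≤ D.area G := sInf_le ⟨G, hext, hGF, rfl⟩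
  refine hAmin.trans ?_
  refine area_bound (by omega) D (Rf := fun x => M.r (uv f x)) hG hGF hG0 hray hR1 ?_ ?_ ?_
    (fun x hx => (hradpos x hx).le) hr0.le ?_
  · exact M.smooth.2.continuousOn.comp (uv_continuous hfs).continuousOn
      fun x hx => hS.mem x (hGne x hx) (hGF x hx)
  · exact fun x hx => (M.pos _ (hS.mem x (hGne x hx) (hGF x hx))).2.le
  · -- the pointwise inequality
    intro x hx X hX
    have hx0 := hGne x hx
    have hxF := hGF x hx
    have hl := len_pos hx0
    obtain ⟨hF, hrp⟩ := M.pos _ (hS.mem x hx0 hxF)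
    set N : Fin n → ℝ := fun i => x i / len x with hN
    set F := M.F (uv f x) with hFdef
    set ρ := M.r (uv f x) / len x with hρ
    have hρp : 0 < ρ := div_pos hrp hl
    set a := ∑ i, N i * Stmt.pd i f x with ha
    set b := ∑ i, Stmt.pd i f x ^ 2 with hb
    have hN1 : ∑ i, N i ^ 2 = 1 := by
      have h1 : ∀ i, N i ^ 2 = x i ^ 2 / len x ^ 2 := fun i => by simp only [hN]; rw [div_pow]
      have h2 : ∑ i, x i ^ 2 = len x ^ 2 := by
        rw [len, EuclideanSpace.real_norm_sq_eq]
      simp only [h1, ← Finset.sum_div]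
      rw [h2, div_self (by positivity)]
    have hgij : ∀ i j, D.g x i j = F * N i * N j + ρ ^ 2 * ((if i = j then 1 else 0) - N i * N j) -
        F * Stmt.pd i f x * Stmt.pd j f x := fun i j => hS.met x hx0 hxF i j
    have hdet := det_slice N (fun i => Stmt.pd i f x) (pow_pos hρp 2).ne' hN1 ha.symm hb.symm
      (A := mat D.g x) hgij
    have hdpos : 0 < (mat D.g x).det := (D.pos x hxF).det_pos
    have hQ : ∑ i, ∑ j, D.g x i j * X i * X j = F * (∑ i, N i * X i) ^ 2 +
        ρ ^ 2 * (∑ i, X i ^ 2 - (∑ i, N i * X i) ^ 2) - F * (∑ i, Stmt.pd i f x * X i) ^ 2 := by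
      have h1 : ∀ i j, D.g x i j * X i * X j = F * ((N i * X i) * (N j * X j)) +
          ρ ^ 2 * ((if i = j then X i * X j else 0) - (N i * X i) * (N j * X j)) -
          F * ((Stmt.pd i f x * X i) * (Stmt.pd j f x * X j)) := by
        intro i j
        rw [hgij]
        split_ifs <;> ring
      simp only [h1, Finset.sum_add_distrib, Finset.sum_sub_distrib, ← Finset.mul_sum,
        Finset.sum_ite_eq, Finset.mem_univ, if_true, ← Finset.sum_mul]
      simp only [sq]
    have hz : ∑ i, Stmt.pd i G x * X i = ∑ i, (σ * Stmt.pd i f x + N i) * X i :=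
      Finset.sum_congr rfl fun i _ => by rw [hGpd x hx0 (hGc x hx) i]
    have hineq := flux_ineq N (fun i => Stmt.pd i f x) X hF (pow_pos hρp 2) hσ2 hN1 ha.symm hb.symm
      hz.symm hQ
    set z := ∑ i, Stmt.pd i G x * X i with hzdef
    rw [hrad x hx]
    have hra : 0 < 1 + σ * a := by
      have := hradpos x hx
      rwa [hrad x hx] at this
    show √(mat D.g x).det * |z| ≤ ρ ^ (n - 1) * (1 + σ * a)
    rw [← Real.sqrt_sq (abs_nonneg z), ← Real.sqrt_mul hdpos.le, sq_abs]
    refine Real.sqrt_le_iff.2 ⟨by positivity, ?_⟩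
    set Δ := F * (1 - a ^ 2 - F * (b - a ^ 2) / ρ ^ 2) with hΔ
    have hdet2 : (mat D.g x).det = (ρ ^ 2) ^ (n - 1) * Δ := by
      obtain ⟨m, rfl⟩ : ∃ m, n = m + 1 := ⟨n - 1, by omega⟩
      have h3 : ρ ^ 2 * (mat D.g x).det = ρ ^ 2 * ((ρ ^ 2) ^ m * Δ) := by
        rw [hdet]; ring
      simpa using mul_left_cancel₀ (pow_pos hρp 2).ne' h3
    rw [hdet2]
    calc (ρ ^ 2) ^ (n - 1) * Δ * z ^ 2 = (ρ ^ 2) ^ (n - 1) * (Δ * z ^ 2) := by ring
      _ ≤ (ρ ^ 2) ^ (n - 1) * ((1 + σ * a) ^ 2 * ∑ i, ∑ j, D.g x i j * X i * X j) := by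
          gcongr
      _ ≤ (ρ ^ 2) ^ (n - 1) * ((1 + σ * a) ^ 2 * 1) := by gcongr
      _ = (ρ ^ (n - 1) * (1 + σ * a)) ^ 2 := by rw [← pow_mul, mul_comm 2, pow_mul]; ring
  · intro x hx
    have hx0 := hGne x hx.ge
    have hc := hGc x hx.ge
    refine hlev x hx0 ?_
    have := hGeq x hx0 hc
    linarith

end Vale.Agent.P366.T1
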