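import Vale.Agent.P366.T1.Core
import Vale.Agent.P366.T1.Theta
import Vale.Agent.P366.T1.Asymp

open MeasureTheory Metric Filter Topology Set
open scoped ContDiff ENNReal

noncomputable section
namespace Vale.Agent.P366.T1

/-- The sharp spacetime Penrose inequality for the slices of the spherically symmetric
spacetimes. -/
theorem main {n : ℕ} (hn : 3 ≤ n) (M : Spacetime) (hE : M.DEC n) (hM : M.IsAF n)
    (D : Stmt.Exterior n) (f : Stmt.E n → ℝ) (hS : IsSlice M f D)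
    (hf : ∀ ε > 0, ∃ R, ∀ x, R < Stmt.len x → |f x| ≤ ε * Stmt.len x) (hAF : D.IsAF)
    (hT : D.Trapped) (m : ℝ) (P : Fin n → ℝ) (hm : D.IsEnergy m) (hP : D.IsMomentum P) :
    D.Amin ≠ ⊤ ∧ P = 0 ∧ 0 < m ∧
    (D.Amin.toReal / Stmt.omega n) ^ (((n : ℝ) - 2) / (n - 1)) / 2 ≤ m := by
  obtain ⟨hP0, hmass, hfar⟩ := asympt hn M hM hS hf hAF hm hP
  obtain ⟨h1, h2, h3⟩ := core hn hE hS ⟨1 / 2, by norm_num, hf (1 / 2) (by norm_num)⟩ hT hmass hfar
    (fun {x0} hx0 hQ hpd h0 hne hmin hdir hθ =>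
      theta_touch (by omega) M hS.smooth hx0 hQ hpd (hS.radial x0 hx0) D.dom.1 h0 hne hmin hdir hθ)
  exact ⟨h1, hP0, h2, h3⟩

end Vale.Agent.P366.T1
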