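import Vale.Agent.P366.T1.BStmt
import Vale.Agent.P366.T1.Area

open MeasureTheory Metric Filter Topology Set Matrix
open scoped ContDiff ENNReal

noncomputable section
namespace Vale.Agent.P366.T1

open Vale.Agent.P366.Stmt

variable {n : ℕ}

/-! ### The matrix of a linear map -/

/-- The matrix of `L`. -/
def mt (L : E n ≃L[ℝ] E n) : Matrix (Fin n) (Fin n) ℝ := fun k i =>
  (L (EuclideanSpace.single i 1)) k

lemma vec_eq_sum (v : E n) : v = ∑ i, v i • EuclideanSpace.single i (1 : ℝ) := by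
  ext j
  simp [Finset.sum_apply, Pi.single_apply]

lemma mt_apply (L : E n ≃L[ℝ] E n) (v : E n) (k : Fin n) : (L v) k = ∑ i, mt L k i * v i := by
  conv_lhs => rw [vec_eq_sum v]
  rw [map_sum]
  simp only [map_smul, WithLp.ofLp_sum, WithLp.ofLp_smul, Finset.sum_apply, Pi.smul_apply,
    smul_eq_mul, mt, mul_comm]

lemma mt_mul_symm (L : E n ≃L[ℝ] E n) : mt L * mt L.symm = 1 := by
  ext i j
  rw [Matrix.mul_apply]
  have h := mt_apply L (L.symm (EuclideanSpace.single j 1)) i
  rw [L.apply_symm_apply] at h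
  rw [show (∑ k, mt L i k * mt L.symm k j) =
    ∑ k, mt L i k * (L.symm (EuclideanSpace.single j 1)) k from rfl, ← h, Matrix.one_apply]
  simp

lemma mt_symm_mul (L : E n ≃L[ℝ] E n) : mt L.symm * mt L = 1 :=
  mt_mul_symm L.symm

lemma mt_inv (L : E n ≃L[ℝ] E n) : (mt L)⁻¹ = mt L.symm :=
  Matrix.inv_eq_right_inv (mt_mul_symm L)

lemma mat_pull (L : E n ≃L[ℝ] E n) (T : Field n) (y : E n) :
    mat (pull L T) y = (mt L)ᵀ * mat T (L y) * mt L := by
  ext i j
  rw [show mat (pull L T) y i j = ∑ k, ∑ l, mt L k i * mt L l j * mat T (L y) k l from rfl]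
  simp only [Matrix.mul_apply, Matrix.transpose_apply, Finset.sum_mul]
  rw [Finset.sum_comm]
  refine Finset.sum_congr rfl fun k _ => Finset.sum_congr rfl fun l _ => ?_
  ring

lemma inv_pull (L : E n ≃L[ℝ] E n) (T : Field n) (y : E n) :
    (mat (pull L T) y)⁻¹ = mt L.symm * (mat T (L y))⁻¹ * (mt L.symm)ᵀ := by
  rw [mat_pull, Matrix.mul_inv_rev, Matrix.mul_inv_rev, ← Matrix.transpose_nonsing_inv, mt_inv,
    Matrix.mul_assoc]

lemma pull_symm_pull (L : E n ≃L[ℝ] E n) (T : Field n) : pull L (pull L.symm T) = T := by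
  funext y i j
  have h : mat (pull L (pull L.symm T)) y = mat T y := by
    rw [mat_pull, mat_pull, L.symm_apply_apply, ← Matrix.mul_assoc, ← Matrix.mul_assoc,
      ← Matrix.transpose_mul, mt_symm_mul, Matrix.transpose_one, Matrix.one_mul,
      Matrix.mul_assoc, mt_symm_mul, Matrix.mul_one]
  exact congrFun (congrFun h i) j

lemma pull_pull_symm (L : E n ≃L[ℝ] E n) (T : Field n) : pull L.symm (pull L T) = T :=
  pull_symm_pull L.symm T

/-! ### Derivatives -/

lemma pd_comp_lin (L : E n ≃L[ℝ] E n) {F : E n → ℝ} {y : E n} (hF : DifferentiableAt ℝ F (L y))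
    (i : Fin n) : pd i (fun y => F (L y)) y = ∑ k, mt L k i * pd k F (L y) := by
  have h1 : HasFDerivAt (fun y => F (L y)) ((fderiv ℝ F (L y)).comp (L : E n →L[ℝ] E n)) y :=
    hF.hasFDerivAt.comp y L.hasFDerivAt
  rw [pd_fderiv h1.differentiableAt, h1.fderiv, ContinuousLinearMap.comp_apply,
    ContinuousLinearEquiv.coe_coe, vec_eq_sum (L (EuclideanSpace.single i 1)), map_sum]
  refine Finset.sum_congr rfl fun k _ => ?_
  rw [map_smul, smul_eq_mul, pd_fderiv hF]
  rfl

/-! ### Contractions -/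

/-- The contraction of a covector with a covector by a matrix. -/
lemma dot_up (L : E n ≃L[ℝ] E n) (U : Matrix (Fin n) (Fin n) ℝ) (w z : Fin n → ℝ) :
    ((mt L)ᵀ *ᵥ w) ⬝ᵥ ((mt L.symm * U * (mt L.symm)ᵀ) *ᵥ ((mt L)ᵀ *ᵥ z)) = w ⬝ᵥ (U *ᵥ z) := by
  rw [Matrix.mulVec_mulVec, Matrix.mul_assoc, ← Matrix.transpose_mul, mt_mul_symm,
    Matrix.transpose_one, Matrix.mul_one, Matrix.dotProduct_mulVec, Matrix.mulVec_transpose,
    Matrix.vecMul_vecMul, ← Matrix.mul_assoc, mt_mul_symm, Matrix.one_mul,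
    ← Matrix.dotProduct_mulVec]

lemma sum_up (U : Matrix (Fin n) (Fin n) ℝ) (w z : Fin n → ℝ) :
    ∑ i, ∑ j, U i j * w i * z j = w ⬝ᵥ (U *ᵥ z) := by
  simp only [dotProduct, mulVec, Finset.mul_sum]
  exact Finset.sum_congr rfl fun i _ => Finset.sum_congr rfl fun j _ => by ring

lemma covNorm_pull (L : E n ≃L[ℝ] E n) (g : Field n) {w w' : Fin n → E n → ℝ} {y : E n}
    (hw : ∀ i, w i y = ∑ k, mt L k i * w' k (L y)) :
    covNorm (pull L g) w y = covNorm g w' (L y) := by
  unfold covNorm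
  congr 1
  have h1 := sum_up (mat (pull L g) y)⁻¹ (fun i => w i y) (fun i => w i y)
  have h2 := sum_up (mat g (L y))⁻¹ (fun i => w' i (L y)) (fun i => w' i (L y))
  have h3 : (fun i => w i y) = (mt L)ᵀ *ᵥ (fun k => w' k (L y)) := by
    funext i
    rw [hw i]
    rfl
  rw [inv_pull, h3, dot_up, ← h2] at h1
  rw [← inv_pull] at h1
  exact h1

/-- The differential of `F ∘ L`. -/
lemma dF_pull (L : E n ≃L[ℝ] E n) {F : E n → ℝ} {y : E n} (hF : DifferentiableAt ℝ F (L y)) :
    (fun i => pd i (fun y => F (L y)) y) = (mt L)ᵀ *ᵥ (fun k => pd k F (L y)) := by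
  funext i
  rw [pd_comp_lin L hF]
  rfl

lemma nrm_pull (L : E n ≃L[ℝ] E n) (g : Field n) {F : E n → ℝ} {y : E n}
    (hF : DifferentiableAt ℝ F (L y)) :
    (fun i => nrm (pull L g) (fun y => F (L y)) i y) =
      mt L.symm *ᵥ (fun k => nrm g F k (L y)) := by
  have h1 : ∀ i, nrm (pull L g) (fun y => F (L y)) i y =
      ((mat (pull L g) y)⁻¹ *ᵥ (fun i => pd i (fun y => F (L y)) y)) i /
        covNorm (pull L g) (fun j => pd j (fun y => F (L y))) y := fun i => rfl
  have h2 : (fun k => nrm g F k (L y)) = (covNorm g (fun j => pd j F) (L y))⁻¹ •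
      ((mat g (L y))⁻¹ *ᵥ (fun i => pd i F (L y))) := by
    funext k
    rw [Pi.smul_apply, smul_eq_mul, inv_mul_eq_div]
    rfl
  have h3 : covNorm (pull L g) (fun j => pd j (fun y => F (L y))) y =
      covNorm g (fun j => pd j F) (L y) :=
    covNorm_pull L g fun i => pd_comp_lin L hF i
  rw [h2, Matrix.mulVec_smul]
  funext i
  rw [h1, h3, dF_pull L hF, inv_pull, Matrix.mulVec_mulVec, Matrix.mul_assoc,
    ← Matrix.transpose_mul, mt_mul_symm, Matrix.transpose_one, Matrix.mul_one,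
    ← Matrix.mulVec_mulVec, Pi.smul_apply, smul_eq_mul, inv_mul_eq_div]

lemma tr_pull (L : E n ≃L[ℝ] E n) (g T : Field n) (y : E n) :
    tr (pull L g) (pull L T) y = tr g T (L y) := by
  have h : ∀ U V : Matrix (Fin n) (Fin n) ℝ, ∑ i, ∑ j, U i j * V i j = (U * Vᵀ).trace := by
    intro U V
    simp [Matrix.trace, Matrix.mul_apply]
  have h1 := h (mat (pull L g) y)⁻¹ (mat (pull L T) y)
  have h2 := h (mat g (L y))⁻¹ (mat T (L y))
  have h3 : ((mat (pull L g) y)⁻¹ * (mat (pull L T) y)ᵀ).trace =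
      ((mat g (L y))⁻¹ * (mat T (L y))ᵀ).trace := by
    rw [inv_pull, mat_pull, Matrix.transpose_mul, Matrix.transpose_mul, Matrix.transpose_transpose]
    rw [show mt L.symm * (mat g (L y))⁻¹ * (mt L.symm)ᵀ * ((mt L)ᵀ * ((mat T (L y))ᵀ * mt L)) =
      mt L.symm * ((mat g (L y))⁻¹ * ((mt L.symm)ᵀ * (mt L)ᵀ) * (mat T (L y))ᵀ * mt L) by
        simp only [Matrix.mul_assoc], ← Matrix.transpose_mul, mt_mul_symm, Matrix.transpose_one,
        Matrix.mul_one, Matrix.trace_mul_comm, Matrix.mul_assoc, mt_mul_symm, Matrix.mul_one]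
  rw [h3, ← h2] at h1
  exact h1

lemma trS_pull (L : E n ≃L[ℝ] E n) (g T : Field n) {F : E n → ℝ} {y : E n}
    (hF : DifferentiableAt ℝ F (L y)) :
    trS (pull L g) (pull L T) (fun y => F (L y)) y = trS g T F (L y) := by
  unfold trS
  rw [tr_pull]
  congr 1
  have h1 := sum_up (mat (pull L T) y) (fun i => nrm (pull L g) (fun y => F (L y)) i y)
    (fun i => nrm (pull L g) (fun y => F (L y)) i y)
  have h2 := sum_up (mat T (L y)) (fun i => nrm g F i (L y)) (fun i => nrm g F i (L y))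
  have h3 := nrm_pull L g hF
  have h4 : (fun i => nrm (pull L g) (fun y => F (L y)) i y) ⬝ᵥ (mat (pull L T) y *ᵥ
      (fun i => nrm (pull L g) (fun y => F (L y)) i y)) =
      (fun i => nrm g F i (L y)) ⬝ᵥ (mat T (L y) *ᵥ (fun i => nrm g F i (L y))) := by
    rw [h3, mat_pull, Matrix.mulVec_mulVec, Matrix.mul_assoc, mt_mul_symm, Matrix.mul_one,
      ← Matrix.mulVec_mulVec, Matrix.mulVec_transpose, dotProduct_comm,
      ← Matrix.dotProduct_mulVec, Matrix.mulVec_mulVec, mt_mul_symm, Matrix.one_mulVec,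
      dotProduct_comm]
  rw [h4, ← h2] at h1
  exact h1

/-! ### The covariant Hessian -/

lemma pd_sum' {ι : Type} (s : Finset ι) {F : ι → E n → ℝ} {x : E n}
    (h : ∀ a ∈ s, DifferentiableAt ℝ (F a) x) (i : Fin n) :
    pd i (fun y => ∑ a ∈ s, F a y) x = ∑ a ∈ s, pd i (F a) x := by
  rw [pd_fderiv (DifferentiableAt.fun_sum h), fderiv_fun_sum h, _root_.sum_apply]
  exact Finset.sum_congr rfl fun a ha => (pd_fderiv (h a ha) i).symm

lemma pd_cmul (c : ℝ) {F : E n → ℝ} {x : E n} (h : DifferentiableAt ℝ F x) (i : Fin n) :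
    pd i (fun y => c * F y) x = c * pd i F x := by
  rw [pd_fderiv (h.const_mul c), fderiv_const_mul h, _root_.smul_apply,
    smul_eq_mul, pd_fderiv h]

lemma smooth_pd {F : E n → ℝ} (hF : Smooth F) (i : Fin n) : Smooth (pd i F) := by
  have h1 : pd i F = fun y => fderiv ℝ F y (EuclideanSpace.single i 1) :=
    funext fun y => pd_fderiv ((hF.differentiable (by simp)) y) i
  rw [h1]
  exact (ContDiff.fderiv_right (m := ∞) hF (by simp)).clm_apply contDiff_const

lemma smooth_comp (L : E n ≃L[ℝ] E n) {F : E n → ℝ} (hF : Smooth F) :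
    Smooth (fun y => F (L y)) := ContDiff.comp hF L.contDiff

lemma smooth_pull (L : E n ≃L[ℝ] E n) {T : Field n} (hT : ∀ i j, Smooth (fun x => T x i j))
    (i j : Fin n) : Smooth (fun y => pull L T y i j) := by
  unfold pull
  exact ContDiff.sum fun k _ => ContDiff.sum fun l _ =>
    contDiff_const.mul (smooth_comp L (hT k l))

lemma sdiff {F : E n → ℝ} (hF : Smooth F) (x : E n) : DifferentiableAt ℝ F x :=
  (hF.differentiable (by simp)) x

lemma pd_pull (L : E n ≃L[ℝ] E n) {T : Field n} (hT : ∀ i j, Smooth (fun x => T x i j))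
    (y : E n) (i j l : Fin n) : pd i (fun y => pull L T y j l) y =
      ∑ q, ∑ r, ∑ s, mt L q i * mt L r j * mt L s l * pd q (fun x => T x r s) (L y) := by
  have h1 : ∀ r s, DifferentiableAt ℝ (fun y => mt L r j * mt L s l * T (L y) r s) y := fun r s =>
    (sdiff (smooth_comp L (hT r s)) y).const_mul _
  have h2 : pd i (fun y => pull L T y j l) y =
      ∑ r, ∑ s, mt L r j * mt L s l * ∑ q, mt L q i * pd q (fun x => T x r s) (L y) := by
    have h3 : (fun y => pull L T y j l) = fun y => ∑ r, ∑ s, mt L r j * mt L s l * T (L y) r s :=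
      rfl
    rw [h3, pd_sum' _ (fun r _ => DifferentiableAt.fun_sum fun s _ => h1 r s)]
    refine Finset.sum_congr rfl fun r _ => ?_
    rw [pd_sum' _ (fun s _ => h1 r s)]
    refine Finset.sum_congr rfl fun s _ => ?_
    rw [pd_cmul _ (sdiff (smooth_comp L (hT r s)) y), pd_comp_lin L (sdiff (hT r s) _)]
  rw [h2]
  simp only [Finset.mul_sum]
  rw [Finset.sum_congr rfl fun r _ => Finset.sum_comm, Finset.sum_comm]
  exact Finset.sum_congr rfl fun q _ => Finset.sum_congr rfl fun r _ =>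
    Finset.sum_congr rfl fun s _ => by ring

/-- The term of the Hessian with the Christoffel symbols. -/
def chrF (g : Field n) (F : E n → ℝ) (x : E n) (i j : Fin n) : ℝ :=
  ∑ k, chr g k i j x * pd k F x

/-- Twice the Christoffel symbol with lower indices. -/
def low (g : Field n) (x : E n) (i j l : Fin n) : ℝ :=
  pd i (fun y => g y j l) x + pd j (fun y => g y i l) x - pd l (fun y => g y i j) x

lemma chrF_eq (g : Field n) (F : E n → ℝ) (x : E n) (i j : Fin n) :
    chrF g F x i j = (fun k => pd k F x) ⬝ᵥ ((mat g x)⁻¹ *ᵥ low g x i j) / 2 := by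
  have h1 : (fun k => pd k F x) ⬝ᵥ ((mat g x)⁻¹ *ᵥ low g x i j) =
      ∑ k, pd k F x * ∑ l, (mat g x)⁻¹ k l * low g x i j l := rfl
  rw [h1, chrF, Finset.sum_div]
  refine Finset.sum_congr rfl fun k _ => ?_
  rw [chr]
  simp only [up, low]
  ring

lemma low_pull (L : E n ≃L[ℝ] E n) {g : Field n} (hg : ∀ i j, Smooth (fun x => g x i j))
    (y : E n) (i j : Fin n) : low (pull L g) y i j = (mt L)ᵀ *ᵥ
      (∑ q, ∑ r, (mt L q i * mt L r j) • low g (L y) q r) := by
  funext l
  have h1 : ((mt L)ᵀ *ᵥ (∑ q, ∑ r, (mt L q i * mt L r j) • low g (L y) q r)) l =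
      ∑ s, mt L s l * ∑ q, ∑ r, mt L q i * mt L r j * low g (L y) q r s := by
    simp only [mulVec, dotProduct, Matrix.transpose_apply, Finset.sum_apply, Pi.smul_apply,
      smul_eq_mul]
  rw [h1]
  simp only [low, pd_pull L hg]
  have e1 : ∀ X : Fin n → Fin n → Fin n → ℝ,
      ∑ q, ∑ r, ∑ s, X q r s = ∑ s, ∑ q, ∑ r, X q r s := by
    intro X
    rw [Finset.sum_congr rfl fun q _ => Finset.sum_comm, Finset.sum_comm]
  have e2 : ∀ X : Fin n → Fin n → Fin n → ℝ,
      ∑ q, ∑ r, ∑ s, X q r s = ∑ s, ∑ r, ∑ q, X q r s := by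
    intro X
    rw [e1]
    exact Finset.sum_congr rfl fun s _ => Finset.sum_comm
  rw [show (∑ q, ∑ r, ∑ s, mt L q i * mt L r j * mt L s l * pd q (fun x => g x r s) (L y)) =
      ∑ s, ∑ q, ∑ r, mt L q i * mt L r j * mt L s l * pd q (fun x => g x r s) (L y) from e1 _,
    show (∑ q, ∑ r, ∑ s, mt L q j * mt L r i * mt L s l * pd q (fun x => g x r s) (L y)) =
      ∑ s, ∑ r, ∑ q, mt L q j * mt L r i * mt L s l * pd q (fun x => g x r s) (L y) from e2 _,
    ← Finset.sum_add_distrib, ← Finset.sum_sub_distrib]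
  refine Finset.sum_congr rfl fun s _ => ?_
  rw [← Finset.sum_add_distrib, ← Finset.sum_sub_distrib, Finset.mul_sum]
  refine Finset.sum_congr rfl fun q _ => ?_
  rw [← Finset.sum_add_distrib, ← Finset.sum_sub_distrib, Finset.mul_sum]
  exact Finset.sum_congr rfl fun r _ => by ring

lemma chrF_pull (L : E n ≃L[ℝ] E n) {g : Field n} (hg : ∀ i j, Smooth (fun x => g x i j))
    {F : E n → ℝ} (hF : Smooth F) (y : E n) (i j : Fin n) :
    chrF (pull L g) (fun y => F (L y)) y i j =
      ∑ q, ∑ r, mt L q i * mt L r j * chrF g F (L y) q r := by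
  rw [chrF_eq, low_pull L hg, dF_pull L (sdiff hF _), inv_pull, dot_up]
  simp only [chrF_eq, Matrix.mulVec_sum, Matrix.mulVec_smul, dotProduct_sum, dotProduct_smul,
    smul_eq_mul, Finset.sum_div, mul_div_assoc]

theorem hess_pull (L : E n ≃L[ℝ] E n) {g : Field n} (hg : ∀ i j, Smooth (fun x => g x i j))
    {F : E n → ℝ} (hF : Smooth F) (y : E n) :
    hess (pull L g) (fun y => F (L y)) y = pull L (hess g F) y := by
  funext i j
  have h1 : pd i (pd j (fun y => F (L y))) y =
      ∑ q, ∑ r, mt L q i * mt L r j * pd q (pd r F) (L y) := by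
    have h2 : pd j (fun y => F (L y)) = fun y => ∑ r, mt L r j * pd r F (L y) :=
      funext fun y => pd_comp_lin L (sdiff hF _) j
    rw [h2, pd_sum' _ fun r _ => (sdiff (smooth_comp L (smooth_pd hF r)) y).const_mul _]
    rw [Finset.sum_comm]
    refine Finset.sum_congr rfl fun r _ => ?_
    rw [pd_cmul _ (sdiff (smooth_comp L (smooth_pd hF r)) y), pd_comp_lin L (sdiff (smooth_pd hF r) _),
      Finset.mul_sum]
    exact Finset.sum_congr rfl fun q _ => by ring
  have h2 := chrF_pull L hg hF y i j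
  have h3 : hess (pull L g) (fun y => F (L y)) y i j =
      pd i (pd j (fun y => F (L y))) y - chrF (pull L g) (fun y => F (L y)) y i j := rfl
  have h4 : pull L (hess g F) y i j =
      ∑ q, ∑ r, mt L q i * mt L r j * (pd q (pd r F) (L y) - chrF g F (L y) q r) := rfl
  rw [h3, h4, h1, h2, ← Finset.sum_sub_distrib]
  refine Finset.sum_congr rfl fun q _ => ?_
  rw [← Finset.sum_sub_distrib]
  exact Finset.sum_congr rfl fun r _ => by ring

/-- The null expansion is invariant under linear maps. -/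
theorem thetaPlus_pull (L : E n ≃L[ℝ] E n) {g K : Field n}
    (hg : ∀ i j, Smooth (fun x => g x i j)) {F : E n → ℝ} (hF : Smooth F) (y : E n) :
    thetaPlus (pull L g) (pull L K) (fun y => F (L y)) y = thetaPlus g K F (L y) := by
  have h1 : hess (pull L g) (fun y => F (L y)) = pull L (hess g F) :=
    funext fun y => hess_pull L hg hF y
  unfold thetaPlus
  rw [h1, trS_pull L g _ (sdiff hF _), trS_pull L g _ (sdiff hF _),
    covNorm_pull L g fun i => pd_comp_lin L (sdiff hF _) i]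

end Vale.Agent.P366.T1
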