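import Mathlib.MeasureTheory.Function.Jacobian
import Vale.Agent.P366.T1.Push

open MeasureTheory Metric Filter Topology Set Matrix
open scoped ContDiff ENNReal

noncomputable section
namespace Vale.Agent.P366.T1

open Vale.Agent.P366.Stmt

variable {n : ℕ}

/-! ### The push forward of exterior data -/

lemma far_lin (L : E n ≃L[ℝ] E n) (R : ℝ) : ∃ R', ∀ y, R' < len y → R < len (L y) := by
  refine ⟨‖(L.symm : E n →L[ℝ] E n)‖ * |R|, fun y hy => ?_⟩
  by_contra h
  have h1 : ‖L y‖ ≤ |R| := (not_lt.1 h).trans (le_abs_self R)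
  have h2 : ‖y‖ ≤ ‖(L.symm : E n →L[ℝ] E n)‖ * ‖L y‖ := by
    have := (L.symm : E n →L[ℝ] E n).le_opNorm (L y)
    simpa using this
  have h3 : ‖(L.symm : E n →L[ℝ] E n)‖ * ‖L y‖ ≤ ‖(L.symm : E n →L[ℝ] E n)‖ * |R| :=
    mul_le_mul_of_nonneg_left h1 (norm_nonneg _)
  exact absurd (lt_of_lt_of_le hy (h2.trans h3)) (lt_irrefl _)

lemma isExt_comp (L : E n ≃L[ℝ] E n) {F : E n → ℝ} (h : IsExt F) : IsExt (fun y => F (L y)) := by
  obtain ⟨h1, h2, h3, R, h4⟩ := h
  refine ⟨smooth_comp L h1, ?_, ?_, ?_⟩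
  · intro y hy
    by_contra hne
    push Not at hne
    have h5 : (mt L)ᵀ *ᵥ (fun k => pd k F (L y)) = 0 := by
      rw [← dF_pull L (sdiff h1 _)]
      exact funext hne
    have h6 : (fun k => pd k F (L y)) = 0 := by
      have h7 := congrArg (fun w => (mt L.symm)ᵀ *ᵥ w) h5
      simpa [Matrix.mulVec_mulVec, ← Matrix.transpose_mul, mt_mul_symm] using h7
    obtain ⟨i, hi⟩ := h2 (L y) hy
    exact hi (congrFun h6 i)
  · have h5 : {y | 0 ≤ F (L y)} = L.symm '' {x | 0 ≤ F x} := by
      ext y
      constructor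
      · intro hy
        exact ⟨L y, hy, by simp⟩
      · rintro ⟨x, hx, rfl⟩
        simpa using hx
    rw [h5]
    exact h3.image _ L.symm.continuous.continuousOn
  · obtain ⟨R', hR'⟩ := far_lin L R
    exact ⟨R', fun y hy => h4 _ (hR' y hy)⟩

/-- The exterior data `D` in the coordinates `x = L y`. -/
def push (L : E n ≃L[ℝ] E n) (D : Exterior n) : Exterior n where
  F := fun x => D.F (L.symm x)
  g := pull L.symm D.g
  K := pull L.symm D.K
  dom := isExt_comp L.symm D.dom
  bdry := by
    obtain ⟨y, hy⟩ := D.bdry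
    exact ⟨L y, by simpa using hy⟩
  smooth := fun i j => ⟨smooth_pull L.symm (fun i j => (D.smooth i j).1) i j,
    smooth_pull L.symm (fun i j => (D.smooth i j).2) i j⟩
  symm := by
    have h : ∀ T : Field n, (∀ x i j, T x i j = T x j i) → ∀ x i j,
        pull L.symm T x i j = pull L.symm T x j i := by
      intro T hT x i j
      unfold pull
      rw [Finset.sum_comm]
      exact Finset.sum_congr rfl fun k _ => Finset.sum_congr rfl fun l _ => by
        rw [hT _ l k]; ring
    exact fun x i j => ⟨h _ (fun x i j => (D.symm x i j).1) x i j,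
      h _ (fun x i j => (D.symm x i j).2) x i j⟩
  pos := by
    intro x hx
    rw [mat_pull]
    have h1 := D.pos (L.symm x) hx
    have h2 : Function.Injective (mt L.symm).mulVec := by
      intro v w hvw
      have h3 := congrArg (fun w => mt L *ᵥ w) hvw
      simpa [Matrix.mulVec_mulVec, mt_mul_symm] using h3
    have h3 := h1.conjTranspose_mul_mul_same h2
    rwa [Matrix.conjTranspose_eq_transpose_of_trivial] at h3

lemma push_trapped (L : E n ≃L[ℝ] E n) {D : Exterior n} (hT : D.Trapped) :
    (push L D).Trapped := by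
  intro x hx
  have h1 : thetaPlus (pull L.symm D.g) (pull L.symm D.K) (fun x => D.F (L.symm x)) x =
      thetaPlus D.g D.K D.F (L.symm x) :=
    thetaPlus_pull L.symm (fun i j => (D.smooth i j).1) D.dom.1 x
  have h2 := hT (L.symm x) hx
  rw [← h1] at h2
  exact h2

/-! ### Areas -/

lemma det_pull (L : E n ≃L[ℝ] E n) (T : Field n) (y : E n) :
    √(mat (pull L T) y).det = |(mt L).det| * √(mat T (L y)).det := by
  rw [mat_pull, Matrix.det_mul, Matrix.det_mul, Matrix.det_transpose,
    show (mt L).det * (mat T (L y)).det * (mt L).det = (mt L).det ^ 2 * (mat T (L y)).det by ring,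
    Real.sqrt_mul (sq_nonneg _), Real.sqrt_sq_eq_abs]

lemma abs_det_mul (L : E n ≃L[ℝ] E n) : |(mt L).det| * |(mt L.symm).det| = 1 := by
  rw [← abs_mul, ← Matrix.det_mul, mt_mul_symm, Matrix.det_one, abs_one]

lemma det_eq (L : E n ≃L[ℝ] E n) : (L : E n →L[ℝ] E n).det = (mt L).det := by
  have h : LinearMap.toMatrix (EuclideanSpace.basisFun (Fin n) ℝ).toBasis
      (EuclideanSpace.basisFun (Fin n) ℝ).toBasis (L : E n →L[ℝ] E n).toLinearMap = mt L := by
    ext k i
    simp [LinearMap.toMatrix_apply, mt]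
  rw [ContinuousLinearMap.det, ← LinearMap.det_toMatrix (EuclideanSpace.basisFun (Fin n) ℝ).toBasis,
    h]

/-- The divergence of a vector density. -/
lemma div_comp (L : E n ≃L[ℝ] E n) {Z : Fin n → E n → ℝ} {x : E n}
    (hZ : ∀ i, DifferentiableAt ℝ (Z i) (L.symm x)) (c : ℝ) :
    ∑ k, pd k (fun x => c * ∑ i, mt L k i * Z i (L.symm x)) x = c * ∑ i, pd i (Z i) (L.symm x) := by
  have h0 : ∀ i, DifferentiableAt ℝ (fun x => Z i (L.symm x)) x := fun i =>
    (hZ i).comp x L.symm.differentiableAt
  have h1 : ∀ k, pd k (fun x => c * ∑ i, mt L k i * Z i (L.symm x)) x =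
      c * ∑ i, ∑ j, mt L k i * mt L.symm j k * pd j (Z i) (L.symm x) := by
    intro k
    rw [pd_cmul _ (DifferentiableAt.fun_sum fun i _ => (h0 i).const_mul _),
      pd_sum' _ fun i _ => (h0 i).const_mul _]
    congr 1
    refine Finset.sum_congr rfl fun i _ => ?_
    rw [pd_cmul _ (h0 i), pd_comp_lin L.symm (hZ i), Finset.mul_sum]
    exact Finset.sum_congr rfl fun j _ => by ring
  simp only [h1]
  rw [← Finset.mul_sum, Finset.sum_comm]
  congr 1
  refine Finset.sum_congr rfl fun i _ => ?_
  rw [Finset.sum_comm]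
  have h2 : ∀ j, ∑ k, mt L k i * mt L.symm j k * pd j (Z i) (L.symm x) =
      (mt L.symm * mt L) j i * pd j (Z i) (L.symm x) := by
    intro j
    rw [Matrix.mul_apply, Finset.sum_mul]
    exact Finset.sum_congr rfl fun k _ => by ring
  simp only [h2, mt_symm_mul, Matrix.one_apply]
  simp

lemma area_push (L : E n ≃L[ℝ] E n) (D : Exterior n) {G : E n → ℝ} (hG : Smooth G)
    (hsub : ∀ x, 0 ≤ G x → 0 ≤ D.F (L.symm x)) :
    D.area (fun y => G (L y)) ≤ (push L D).area G := by
  unfold Exterior.area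
  refine sSup_le ?_
  rintro a ⟨X, ⟨hX1, ⟨R, hX2⟩, hX3⟩, rfl⟩
  refine le_sSup ⟨fun k x => ∑ i, mt L k i * X i (L.symm x), ⟨?_, ?_, ?_⟩, ?_⟩
  · intro k
    exact ContDiff.sum fun i _ => contDiff_const.mul (smooth_comp L.symm (hX1 i))
  · obtain ⟨R', hR'⟩ := far_lin L.symm R
    exact ⟨R', fun x hx k => Finset.sum_eq_zero fun i _ => by rw [hX2 _ (hR' x hx) i, mul_zero]⟩
  · intro x hx
    have h1 := hX3 (L.symm x) hx
    have h2 := sum_up (mat D.g (L.symm x)) (fun i => X i (L.symm x)) (fun i => X i (L.symm x))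
    have h3 := sum_up (mat (pull L.symm D.g) x) (mt L *ᵥ fun i => X i (L.symm x))
      (mt L *ᵥ fun i => X i (L.symm x))
    have h4 : (mt L *ᵥ fun i => X i (L.symm x)) ⬝ᵥ (mat (pull L.symm D.g) x *ᵥ
        (mt L *ᵥ fun i => X i (L.symm x))) =
        (fun i => X i (L.symm x)) ⬝ᵥ (mat D.g (L.symm x) *ᵥ (fun i => X i (L.symm x))) := by
      rw [mat_pull, Matrix.mulVec_mulVec, Matrix.mul_assoc, mt_symm_mul, Matrix.mul_one,
        ← Matrix.mulVec_mulVec, Matrix.mulVec_transpose, dotProduct_comm,
        ← Matrix.dotProduct_mulVec, Matrix.mulVec_mulVec, mt_symm_mul, Matrix.one_mulVec,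
        dotProduct_comm]
    rw [h4, ← h2] at h3
    refine le_of_eq_of_le ?_ h1
    exact h3
  · congr 1
    set Z : Fin n → E n → ℝ := fun i y => √(mat D.g y).det * X i y with hZdef
    have hpos : ∀ y, 0 ≤ G (L y) → 0 < (mat D.g y).det := by
      intro y hy
      have := hsub (L y) hy
      rw [L.symm_apply_apply] at this
      exact (D.pos y this).det_pos
    have hZ : ∀ y, 0 ≤ G (L y) → ∀ i, DifferentiableAt ℝ (Z i) y := by
      intro y hy i
      have h1 : ContDiff ℝ ∞ (fun y => (mat D.g y).det) := by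
        simp only [Matrix.det_apply']
        exact ContDiff.sum fun σ _ => contDiff_const.mul
          (contDiff_prod fun i _ => (D.smooth _ _).1)
      have h2 : DifferentiableAt ℝ (fun y => (mat D.g y).det) y :=
        (h1.differentiable (by simp)) y
      exact (h2.sqrt (hpos y hy).ne').mul (sdiff (hX1 i) y)
    have himg : {x | 0 ≤ G x} = L '' {y | 0 ≤ G (L y)} := by
      ext x
      constructor
      · intro hx
        exact ⟨L.symm x, by simpa using hx, by simp⟩
      · rintro ⟨y, hy, rfl⟩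
        exact hy
    have hmeas : MeasurableSet {y : E n | 0 ≤ G (L y)} :=
      (isClosed_le continuous_const (hG.continuous.comp L.continuous)).measurableSet
    rw [himg, vol_eq', integral_image_eq_integral_abs_det_fderiv_smul volume hmeas
      (fun y _ => (L.hasFDerivAt (x := y)).hasFDerivWithinAt) L.injective.injOn]
    refine setIntegral_congr_fun hmeas fun y hy => ?_
    have hd : ∀ k, (fun x => √(mat (push L D).g x).det * ∑ i, mt L k i * X i (L.symm x)) =
        fun x => |(mt L.symm).det| * ∑ i, mt L k i * Z i (L.symm x) := by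
      intro k
      funext x
      show √(mat (pull L.symm D.g) x).det * _ = _
      rw [det_pull, mul_assoc, Finset.mul_sum]
      congr 1
      exact Finset.sum_congr rfl fun i _ => by simp only [hZdef]; ring
    have hx : L.symm (L y) = y := L.symm_apply_apply y
    simp only [hd]
    rw [div_comp L (x := L y) (by rw [hx]; exact hZ y hy), hx, smul_eq_mul, ← mul_assoc]
    rw [show |ContinuousLinearMap.det (L : E n →L[ℝ] E n)| = |(mt L).det| by rw [det_eq],
      abs_det_mul, one_mul]

theorem amin_push (L : E n ≃L[ℝ] E n) (D : Exterior n) : D.Amin ≤ (push L D).Amin := by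
  unfold Exterior.Amin
  refine le_sInf ?_
  rintro a ⟨G, hG, hsub, rfl⟩
  refine le_trans (sInf_le ?_) (area_push L D hG.1 hsub)
  refine ⟨fun y => G (L y), isExt_comp L hG, ?_, rfl⟩
  intro y hy
  have := hsub (L y) hy
  simpa [push] using this

/-! ### The slice -/

lemma push_isSlice {M : Spacetime} {f : E n → ℝ} {L : E n ≃L[ℝ] E n} {D : Exterior n}
    (hS : IsSliceIn M f L D) : IsSlice M f (push L D) := by
  have hne : ∀ x : E n, x ≠ 0 → L.symm x ≠ 0 := fun x hx h => hx (by simpa using h)
  refine ⟨hS.smooth, hS.radial, ?_, ?_, ?_⟩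
  · intro x hx h0
    simpa using hS.mem (L.symm x) (hne x hx) h0
  · intro x hx h0 i j
    have h1 : D.g (L.symm x) = pull L (sliceG M f) (L.symm x) := by
      funext i j
      exact hS.met _ (hne x hx) h0 i j
    have h2 : pull L.symm D.g x i j = pull L.symm (pull L (sliceG M f)) x i j := by
      unfold pull at h1 ⊢
      rw [h1]
    rw [pull_pull_symm] at h2
    exact h2
  · intro x hx h0 i j
    have h1 : D.K (L.symm x) = pull L (sliceK M f) (L.symm x) := by
      funext i j
      exact hS.sff _ (hne x hx) h0 i j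
    have h2 : pull L.symm D.K x i j = pull L.symm (pull L (sliceK M f)) x i j := by
      unfold pull at h1 ⊢
      rw [h1]
    rw [pull_pull_symm] at h2
    exact h2

end Vale.Agent.P366.T1
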